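import Vale.Agent.P245.ImpVec

/-!
# P245 M3: the improved Poincaré inequality for nice measures
-/

namespace Vale.Agent.P245.Imp

open MeasureTheory ProbabilityTheory Filter Topology
open scoped RealInnerProductSpace ENNReal NNReal

variable {n : ℕ} {μ : Measure (Rn n)} [IsProbabilityMeasure μ] {s t : ℝ}

/-- Rayleigh quotients of test functions. -/
def poincSet (μ : Measure (Rn n)) : Set ℝ :=
  {r | ∃ f, Test f ∧ energy μ f ≤ 1 ∧ r = vr μ f}

/-- The best Poincaré constant. -/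
noncomputable def bestK (μ : Measure (Rn n)) : ℝ := sSup (poincSet μ)

lemma test_smul {f : Rn n → ℝ} (hf : Test f) (a : ℝ) : Test fun x => a * f x := by
  obtain ⟨hc, M, hM⟩ := hf
  have hd : ∀ x, fderiv ℝ (fun y => a * f y) x = a • fderiv ℝ f x := fun x =>
    fderiv_const_mul (hc.differentiable one_ne_zero).differentiableAt a
  refine ⟨contDiff_const.mul hc, |a| * M, fun x => ⟨?_, ?_, fun y => ?_⟩⟩
  · rw [abs_mul]; exact mul_le_mul_of_nonneg_left (hM x).1 (abs_nonneg a)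
  · rw [hd, norm_smul, Real.norm_eq_abs]
    exact mul_le_mul_of_nonneg_left (hM x).2.1 (abs_nonneg a)
  · rw [hd, hd, ← smul_sub, norm_smul, Real.norm_eq_abs, mul_assoc]
    exact mul_le_mul_of_nonneg_left ((hM x).2.2 y) (abs_nonneg a)

omit [IsProbabilityMeasure μ] in
lemma vr_smul (f : Rn n → ℝ) (a : ℝ) : vr μ (fun x => a * f x) = a ^ 2 * vr μ f := by
  unfold vr
  rw [integral_const_mul a, ← integral_const_mul (a ^ 2)]
  exact integral_congr_ae (ae_of_all _ fun x => by ring)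

omit [IsProbabilityMeasure μ] in
lemma energy_smul {f : Rn n → ℝ} (hf : Test f) (a : ℝ) :
    energy μ (fun x => a * f x) = a ^ 2 * energy μ f := by
  unfold energy
  rw [← integral_const_mul]
  refine integral_congr_ae (ae_of_all _ fun x => ?_)
  simp only [fderiv_const_mul (hf.1.differentiable one_ne_zero).differentiableAt a, norm_smul,
    Real.norm_eq_abs, mul_pow, sq_abs]

omit [IsProbabilityMeasure μ] in
lemma zero_mem_poincSet : (0 : ℝ) ∈ poincSet μ :=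
  ⟨fun _ => 0, ⟨contDiff_const, 0, fun x => by simp⟩, by simp [energy], by simp [vr]⟩

lemma bestK_spec {K₀ : ℝ} (h0 : 0 ≤ K₀) (hP : Poinc μ K₀) :
    0 ≤ bestK μ ∧ Poinc μ (bestK μ) ∧ ∀ K', 0 ≤ K' → Poinc μ K' → bestK μ ≤ K' := by
  have hbdd : BddAbove (poincSet μ) := ⟨K₀, by
    rintro r ⟨f, hf, he, rfl⟩
    exact (hP f hf).trans (mul_le_of_le_one_right h0 he)⟩
  refine ⟨le_csSup hbdd zero_mem_poincSet, fun f hf => ?_, fun K' hK' hP' => ?_⟩
  · rcases eq_or_lt_of_le (energy_nonneg μ f) with he | he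
    · have := hP f hf
      rw [← he] at this ⊢
      simpa using this
    · set a := (Real.sqrt (energy μ f))⁻¹ with ha
      have ha2 : a ^ 2 * energy μ f = 1 := by
        rw [ha, inv_pow, Real.sq_sqrt he.le, inv_mul_cancel₀ he.ne']
      have := le_csSup hbdd ⟨fun x => a * f x, test_smul hf a, by rw [energy_smul hf, ha2], rfl⟩
      rw [vr_smul] at this
      calc vr μ f = a ^ 2 * vr μ f * energy μ f := by rw [mul_right_comm, ha2, one_mul]
        _ ≤ _ := mul_le_mul_of_nonneg_right this he.le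
  · refine csSup_le ⟨0, zero_mem_poincSet⟩ ?_
    rintro r ⟨f, hf, he, rfl⟩
    exact (hP' f hf).trans (mul_le_of_le_one_right hK' he)

lemma Test.c1b {f : Rn n → ℝ} (hf : Test f) : ∃ M, C1B M f ∧ ∀ x, |f x| ≤ M := by
  obtain ⟨hc, M, hM⟩ := hf
  exact ⟨M, ⟨hc, fun x => (hM x).2.1⟩, fun x => (hM x).1⟩

/-- The posterior bound gives `(1 - ρ) (s + t) Var f ≤ energy f`. -/
lemma gap_le (hp : Post μ s (s + t)) (hs : 0 < s) {f : Rn n → ℝ} (hf : Test f) :
    (1 - rho μ s) * (s + t) * vr μ f ≤ energy μ f := by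
  obtain ⟨M, hM, hB⟩ := Test.c1b hf
  have hfb : BM f := ⟨hM.1.continuous.measurable, M, hB⟩
  have hk := hp.pos
  set m := ∫ x, f x ∂μ with hm
  set g : Rn n → ℝ := fun x => f x - m with hg
  have hgb : BM g := hfb.sub (BM.const m)
  have hg0 : ∫ x, g x ∂μ = 0 := by
    rw [hg, integral_sub hfb.integrable (integrable_const m)]; simp [hm]
  have hge : vr μ f = ∫ x, g x ^ 2 ∂μ := rfl
  have hgC : C1B M g := ⟨hM.1.sub contDiff_const, fun x => by
    rw [hg, fderiv_sub_const]; exact hM.2 x⟩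
  have h1 : ∫ th, Dv μ s g th ∂(obs μ s) ≤ (s + t)⁻¹ * energy μ f := by
    have := prob_obs (μ := μ) (s := s)
    have he : BM fun x => ‖fderiv ℝ f x‖ ^ 2 := ⟨
      ((hM.1.continuous_fderiv one_ne_zero).norm.pow 2).measurable, M ^ 2, fun x => by
        rw [abs_pow, abs_norm]; exact pow_le_pow_left₀ (norm_nonneg _) (hM.2 x) 2⟩
    rw [show energy μ f = ∫ th, G μ s (fun x => ‖fderiv ℝ f x‖ ^ 2) th ∂(obs μ s) from
      (integral_G hs he).symm, ← integral_const_mul]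
    refine integral_mono (bm_Dv hs hgb).integrable ((bm_G hs he).smul _).integrable fun th => ?_
    have := prob_tilt (μ := μ) hs th
    have h2 := ((hp.poinc th).extend (inv_nonneg.2 hk.le) hgC).2.2
    refine h2.trans (le_of_eq ?_)
    unfold energy G
    rw [← integral_tilt]
    simp only [hg, fderiv_sub_const]
  rw [integral_Dv hs hgb] at h1
  have h3 := integral_G_sq_le_rho hs hgb hg0
  rw [hge]
  have h4 : (1 - rho μ s) * ∫ x, g x ^ 2 ∂μ ≤ (s + t)⁻¹ * energy μ f := by linarith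
  calc (1 - rho μ s) * (s + t) * ∫ x, g x ^ 2 ∂μ
      = (s + t) * ((1 - rho μ s) * ∫ x, g x ^ 2 ∂μ) := by ring
    _ ≤ (s + t) * ((s + t)⁻¹ * energy μ f) := mul_le_mul_of_nonneg_left h4 hk.le
    _ = energy μ f := by rw [← mul_assoc, mul_inv_cancel₀ hk.ne', one_mul]

lemma am_gm_abs {η x y : ℝ} (hη : 0 < η) :
    |x * y| ≤ η / 2 * x ^ 2 + y ^ 2 / (2 * η) := by
  rw [← sub_nonneg]
  have : η / 2 * x ^ 2 + y ^ 2 / (2 * η) - |x * y| = (η * |x| - |y|) ^ 2 / (2 * η) := by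
    rw [abs_mul, ← sq_abs x, ← sq_abs y]
    field_simp
    ring
  rw [this]; positivity

lemma sum_sq_P_le (hp : Post μ s (s + t)) (hs : 0 < s) {f : Rn n → ℝ} (hf : BM f) {B : ℝ}
    (hfB : ∫ x, f x ^ 2 ∂μ ≤ B) :
    ∑ i, ∫ x, (s * Q s (V μ s f i) x) ^ 2 ∂μ ≤ s ^ 2 / (s + t) * B := by
  have hpo := prob_obs (μ := μ) (s := s)
  have hV : ∀ i, BM (V μ s f i) := fun i => bm_V hp hs hf i
  have hδ0 : 0 ≤ 1 - rho μ s := sub_nonneg.2 (rho_le_one hs)
  have h1 : ∀ i, ∫ x, (s * Q s (V μ s f i) x) ^ 2 ∂μ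
      ≤ s ^ 2 * ∫ th, V μ s f i th ^ 2 ∂(obs μ s) := by
    intro i
    simp only [mul_pow]
    rw [integral_const_mul]
    refine mul_le_mul_of_nonneg_left ((integral_Q_sq_le hs (hV i)).trans ?_) (sq_nonneg _)
    have h6 : (∫ th, V μ s f i th ∂(obs μ s)) ^ 2 ≤ ∫ th, V μ s f i th ^ 2 ∂(obs μ s) := by
      have := sq_integral_mul_le (m := obs μ s) (hV i).sq.integrable
        (BM.const 1).sq.integrable ((hV i).mul (BM.const 1)).integrable
      simpa using this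
    have := mul_le_mul_of_nonneg_left h6 hδ0
    linarith
  refine (Finset.sum_le_sum fun i _ => h1 i).trans ?_
  rw [← Finset.mul_sum, ← integral_finsetSum _ fun i _ => (hV i).sq.integrable]
  calc s ^ 2 * ∫ th, ∑ i, V μ s f i th ^ 2 ∂(obs μ s)
      ≤ s ^ 2 * ∫ th, Dv μ s f th / (s + t) ∂(obs μ s) := by
        refine mul_le_mul_of_nonneg_left (integral_mono
          (integrable_finsetSum _ fun i _ => (hV i).sq.integrable)
          ((bm_Dv hs hf).integrable.div_const _) fun th => hp.sum_sq hs hf th) (sq_nonneg _)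
    _ ≤ _ := by
        rw [integral_div, integral_Dv hs hf, div_mul_eq_mul_div, mul_div_assoc]
        refine mul_le_mul_of_nonneg_left (div_le_div_of_nonneg_right ?_ hp.pos.le) (sq_nonneg _)
        have : 0 ≤ ∫ th, G μ s f th ^ 2 ∂(obs μ s) := integral_nonneg fun _ => sq_nonneg _
        linarith

lemma abs_sum_integral_mul_le {ι : Type*} [Fintype ι] {f g : ι → Rn n → ℝ}
    (hf : ∀ i, BM (f i)) (hg : ∀ i, BM (g i)) {η : ℝ} (hη : 0 < η) :
    |∑ i, ∫ x, f i x * g i x ∂μ|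
      ≤ η / 2 * ∑ i, ∫ x, f i x ^ 2 ∂μ + (∑ i, ∫ x, g i x ^ 2 ∂μ) / (2 * η) := by
  rw [Finset.mul_sum, Finset.sum_div, ← Finset.sum_add_distrib]
  refine (Finset.abs_sum_le_sum_abs _ _).trans (Finset.sum_le_sum fun i _ => ?_)
  refine abs_integral_le_integral_abs.trans ?_
  rw [← integral_const_mul, ← integral_div, ← integral_add ((hf i).sq.smul _).integrable
    ((hg i).sq.integrable.div_const _)]
  exact integral_mono ((hf i).mul (hg i)).integrable.abs
    (((hf i).sq.smul _).integrable.add ((hg i).sq.integrable.div_const _))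
    fun x => am_gm_abs hη

lemma D_bound (hs : 0 < s) {ψ ee : Rn n → ℝ} (hψb : BM ψ) (heeb : BM ee) {e η : ℝ}
    (hη : 0 < η) (hηη : η * η = e) (hη1 : η ≤ 1) (hρ : 0 ≤ rho μ s)
    (hPψ : P μ s ψ = fun x => rho μ s * ψ x + ee x)
    (hψ2 : ∫ x, ψ x ^ 2 ∂μ ≤ rho μ s ^ 2) (hee2 : ∫ x, ee x ^ 2 ∂μ ≤ 2 * e) :
    ∫ th, Dv μ s ψ th ∂(obs μ s) ≤ (1 - rho μ s) * rho μ s ^ 2 + 3 * η := by
  have hρ1 := rho_le_one (μ := μ) hs
  rw [integral_Dv hs hψb, ← inner_P hs hψb, hPψ]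
  have e3 : ∫ x, ψ x * (rho μ s * ψ x + ee x) ∂μ
      = rho μ s * ∫ x, ψ x ^ 2 ∂μ + ∫ x, ψ x * ee x ∂μ := by
    rw [← integral_const_mul, ← integral_add (hψb.sq.smul _).integrable (hψb.mul heeb).integrable]
    exact integral_congr_ae (ae_of_all _ fun x => by ring)
  rw [e3]
  have h7 := abs_sum_integral_mul_le (μ := μ) (ι := Unit) (f := fun _ => ψ) (g := fun _ => ee)
    (fun _ => hψb) (fun _ => heeb) hη
  simp only [Finset.univ_unique, Finset.sum_singleton] at h7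
  have a2 : (∫ x, ee x ^ 2 ∂μ) / (2 * η) ≤ η := by
    rw [div_le_iff₀ (by positivity)]; nlinarith
  have a1 : η / 2 * ∫ x, ψ x ^ 2 ∂μ ≤ η / 2 * 1 :=
    mul_le_mul_of_nonneg_left (hψ2.trans (pow_le_one₀ hρ hρ1)) (by positivity)
  have a3 : (1 - rho μ s) * ∫ x, ψ x ^ 2 ∂μ ≤ (1 - rho μ s) * rho μ s ^ 2 :=
    mul_le_mul_of_nonneg_left hψ2 (sub_nonneg.2 hρ1)
  have a4 := abs_le.1 h7
  linarith

lemma u_bound (hs : 0 < s) {ψ ee : Rn n → ℝ} (hψb : BM ψ) (heeb : BM ee) {e η : ℝ}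
    (hη : 0 < η) (hηη : η * η = e) (hη1 : η ≤ 1) (hρ : 0 ≤ rho μ s)
    (hPψ : P μ s ψ = fun x => rho μ s * ψ x + ee x)
    (hψ2 : ∫ x, ψ x ^ 2 ∂μ ≤ rho μ s ^ 2) (hee2 : ∫ x, ee x ^ 2 ∂μ ≤ 2 * e) :
    ∫ x, (ψ x - P μ s ψ x) ^ 2 ∂μ ≤ (1 - rho μ s) ^ 2 * rho μ s ^ 2 + 6 * η := by
  have hρ1 := rho_le_one (μ := μ) hs
  have hub : BM fun x => ψ x - P μ s ψ x := hψb.sub (bm_P hs hψb)
  set δ := 1 - rho μ s with hδdef
  have hδ0 : 0 ≤ δ := by linarith
  have hu_eq : ∀ x, ψ x - P μ s ψ x = δ * ψ x - ee x := fun x => by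
    simp only [hPψ, hδdef]; ring
  calc ∫ x, (ψ x - P μ s ψ x) ^ 2 ∂μ
      ≤ ∫ x, ((1 + η) * (δ ^ 2 * ψ x ^ 2) + (1 + 1 / η) * ee x ^ 2) ∂μ := by
        refine integral_mono hub.sq.integrable
          (((hψb.sq.smul _).smul _).add (heeb.sq.smul _)).integrable fun x => ?_
        simp only [hu_eq]
        have h9 := abs_le.1 (am_gm_abs (x := δ * ψ x) (y := ee x) hη)
        have h10 : η / 2 * (δ * ψ x) ^ 2 * 2 + ee x ^ 2 / (2 * η) * 2
            = η * (δ ^ 2 * ψ x ^ 2) + 1 / η * ee x ^ 2 := by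
          field_simp
        linarith
    _ = (1 + η) * (δ ^ 2 * ∫ x, ψ x ^ 2 ∂μ) + (1 + 1 / η) * ∫ x, ee x ^ 2 ∂μ := by
        rw [integral_add ((hψb.sq.smul _).smul _).integrable (heeb.sq.smul _).integrable]
        simp only [integral_const_mul]
    _ ≤ (1 + η) * (δ ^ 2 * rho μ s ^ 2) + (1 + 1 / η) * (2 * e) := by
        gcongr
    _ ≤ _ := by
        have hx : δ ^ 2 * rho μ s ^ 2 ≤ 1 :=
          mul_le_one₀ (pow_le_one₀ hδ0 (by linarith)) (sq_nonneg _) (pow_le_one₀ hρ hρ1)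
        have : (1 + 1 / η) * (2 * e) = 2 * e + 2 * η := by
          rw [← hηη]; field_simp
        have he' : e ≤ η := by rw [← hηη]; exact mul_le_of_le_one_left hη.le hη1
        nlinarith

lemma c2_bound (hp : Post μ s (s + t)) (hs : 0 < s) {lam K : ℝ} (hlam : 0 ≤ lam)
    (hlin : ∀ v : Rn n, vr μ (fun x => ⟪x, v⟫) ≤ lam * ‖v‖ ^ 2)
    (hK : 0 ≤ K) (hP : Poinc μ K) {ψ : Rn n → ℝ} (hψb : BM ψ) (hψ0 : ∫ x, ψ x ∂μ = 0) :
    ∑ i, (∫ th, V μ s ψ i th ∂(obs μ s)) ^ 2 ≤ lam * ∫ x, (ψ x - P μ s ψ x) ^ 2 ∂μ := by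
  have hxi : ∀ i, Integrable (fun x : Rn n => x i) μ := fun i => by
    simpa only [unit_inner] using (hP.extend hK (c1b_inner (unit i))).1
  set u : Rn n → ℝ := fun x => ψ x - P μ s ψ x with hu
  have hub : BM u := hψb.sub (bm_P hs hψb)
  set c2 := ∑ i, (∫ th, V μ s ψ i th ∂(obs μ s)) ^ 2 with hc2
  set v : Rn n := WithLp.toLp 2 fun i => ∫ th, V μ s ψ i th ∂(obs μ s) with hv
  have hvv : c2 = ‖v‖ ^ 2 := by rw [EuclideanSpace.real_norm_sq_eq, hc2]
  obtain ⟨hl1, hl2, -⟩ := hP.extend hK (c1b_inner v)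
  have hu0 : ∫ x, u x ∂μ = 0 := by
    rw [hu, integral_sub hψb.integrable (bm_P hs hψb).integrable, hψ0, G_zero hs ψ hψb hψ0,
      sub_zero]
  have huv : ∫ x, u x * ⟪x, v⟫ ∂μ = c2 := by
    have e : ∀ x : Rn n, u x * ⟪x, v⟫ = ∑ i, v i * (u x * x i) := fun x => by
      rw [PiLp.inner_apply, Finset.mul_sum]
      refine Finset.sum_congr rfl fun i _ => ?_
      simp; ring
    simp only [e]
    rw [integral_finsetSum _ fun i _ => ((hxi i).bdd_mul hub.1.aestronglyMeasurable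
      (ae_of_all _ fun x => by simpa using hub.2.choose_spec x)).const_mul _, hc2]
    refine Finset.sum_congr rfl fun i _ => ?_
    rw [integral_const_mul, hu, ← integral_V hp hs hψb i (hxi i)]
    simp [hv, sq]
  have h11 := cv_sq_le (m := μ) hub hl1 hl2
  rw [hu0, zero_mul, sub_zero, huv] at h11
  have hvru : vr μ u = ∫ x, u x ^ 2 ∂μ := by simp [vr, hu0]
  rw [hvru] at h11
  have h12 : c2 ^ 2 ≤ (∫ x, u x ^ 2 ∂μ) * (lam * c2) := by
    refine h11.trans (mul_le_mul_of_nonneg_left ?_ (integral_nonneg fun _ => sq_nonneg _))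
    rw [hvv]; exact hlin v
  rcases eq_or_lt_of_le (show 0 ≤ c2 from Finset.sum_nonneg fun i _ => sq_nonneg _) with h | h
  · rw [← h]; exact mul_nonneg hlam (integral_nonneg fun _ => sq_nonneg _)
  · nlinarith

lemma W_bound {F : Fin n → Rn n → ℝ} {dF : Fin n → Fin n → Rn n → ℝ} {L : ℝ}
    (hN : Nice μ t F dF L) (hp : Post μ s (s + t)) (hs : 0 < s) {ψ : Rn n → ℝ} {M : ℝ}
    (hψC : C1B M ψ) (hψb : BM ψ) (hg1b : ∀ i, BM fun x => fderiv ℝ ψ x (unit i)) :
    (s + t) * ∑ i, ∫ th, V μ s ψ i th ^ 2 ∂(obs μ s)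
      ≤ (∑ i, ∫ x, s * Q s (V μ s ψ i) x * fderiv ℝ ψ x (unit i) ∂μ) / s
        + n * |L| / ((s + t) * Real.sqrt (s + t)) * ∫ th, Dv μ s ψ th ∂(obs μ s) := by
  have hpo := prob_obs (μ := μ) (s := s)
  have hk0 := hp.pos
  set k := s + t with hk
  have hVb : ∀ i, BM (V μ s ψ i) := fun i => bm_V hp hs hψb i
  set g1 : Fin n → Rn n → ℝ := fun i x => fderiv ℝ ψ x (unit i) with hg1
  have hexd : ∀ i, BM fun th => ex μ s th (g1 i) := fun i => bm_G hs (hg1b i)
  have e4 : (∑ i, ∫ x, s * Q s (V μ s ψ i) x * fderiv ℝ ψ x (unit i) ∂μ) / s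
      = ∑ i, ∫ th, V μ s ψ i th * ex μ s th (g1 i) ∂(obs μ s) := by
    rw [Finset.sum_div]
    refine Finset.sum_congr rfl fun i _ => ?_
    have h13 := adj (μ := μ) hs (hVb i) (hg1b i)
    simp only [G] at h13
    rw [← h13, ← integral_div]
    refine integral_congr_ae (ae_of_all _ fun x => ?_)
    simp only [hg1]
    field_simp
  rw [e4, Finset.mul_sum, ← integral_finsetSum _
    fun i _ => ((hVb i).mul (hexd i)).integrable, ← integral_const_mul (n * |L| / _),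
    ← integral_add (integrable_finsetSum _ fun i _ => ((hVb i).mul (hexd i)).integrable)
      ((bm_Dv hs hψb).smul _).integrable]
  simp only [← integral_const_mul]
  rw [← integral_finsetSum _ fun i _ => ((hVb i).sq.smul k).integrable]
  refine integral_mono (integrable_finsetSum _ fun i _ => ((hVb i).sq.smul k).integrable)
    ((integrable_finsetSum _ fun i _ => ((hVb i).mul (hexd i)).integrable).add
      ((bm_Dv hs hψb).smul _).integrable) fun th => ?_
  have h14 := monotone_step hN hp hs hψC hψb th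
  simp only [← Finset.mul_sum]
  refine h14.trans (add_le_add le_rfl (le_of_eq ?_))
  have hD0 : 0 ≤ Dv μ s ψ th := integral_nonneg fun _ => sq_nonneg _
  rw [← hk, Real.sqrt_div hD0]
  have hd := Real.mul_self_sqrt hD0
  have hsk : Real.sqrt k ≠ 0 := (Real.sqrt_pos.2 hk0).ne'
  field_simp
  linear_combination (n * |L|) * hd

lemma key_algebra {ρ δ s t k e η lam K C₀ L' E N2 Pi' X D c2 W a : ℝ}
    (hρ : 0 < ρ) (hρ1 : ρ ≤ 1) (hδ0 : 0 ≤ δ) (hs : 0 < s) (ht : 0 < t) (hk : k = s + t)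
    (hK : 0 < K) (hη : 0 < η) (hC0 : 0 ≤ C₀) (hL0 : 0 ≤ L') (her : e ≤ ρ) (hrlt : ρ - e ≤ a)
    (hE_ge : a ^ 2 ≤ K * E)
    (hX : |X| ≤ 3 / 2 * η * C₀) (hPi : Pi' = ρ * E + X) (hN2_ge : ρ ^ 2 * E + 2 * ρ * X ≤ N2)
    (hD : D ≤ δ * ρ ^ 2 + 3 * η) (hc2 : c2 ≤ lam * (δ ^ 2 * ρ ^ 2 + 6 * η))
    (hN2_le : N2 ≤ s ^ 2 * (δ * c2 + ρ * W)) (hW : k * W ≤ Pi' / s + L' * D) :
    (ρ - e) ^ 2 / K * (ρ ^ 2 * t / k)
      ≤ s ^ 2 * δ ^ 3 * lam * ρ ^ 2 + ρ * s ^ 2 / k * L' * δ * ρ ^ 2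
        + η * (3 * C₀ + s ^ 2 * δ * lam * 6 + ρ * s / k * (2 * C₀)
          + ρ * s ^ 2 / k * L' * 3) := by
  have hk0 : 0 < k := by linarith
  have hq : k - s = t := by linarith
  have b1 : N2 ≤ s ^ 2 * δ * c2 + ρ * s ^ 2 * W := hN2_le.trans (le_of_eq (by ring))
  have b2 : s ^ 2 * W ≤ s / k * Pi' + s ^ 2 / k * (L' * D) := by
    have := mul_le_mul_of_nonneg_left hW (show 0 ≤ s ^ 2 / k by positivity)
    calc s ^ 2 * W = s ^ 2 / k * (k * W) := by field_simp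
      _ ≤ _ := this
      _ = _ := by field_simp
  have b3 := mul_le_mul_of_nonneg_left hc2 (show 0 ≤ s ^ 2 * δ by positivity)
  have b4 := mul_le_mul_of_nonneg_left b2 hρ.le
  have b5 := mul_le_mul_of_nonneg_left hD (show 0 ≤ ρ * (s ^ 2 / k) * L' by positivity)
  have hXa := abs_le.1 hX
  have b6 : ρ * (s / k) * Pi' ≤ ρ * (s / k) * (ρ * E + 3 / 2 * η * C₀) :=
    mul_le_mul_of_nonneg_left (by rw [hPi]; linarith) (by positivity)
  have b7 : ρ ^ 2 * E - 3 * η * C₀ ≤ N2 := by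
    have : 2 * ρ * (-(3 / 2 * η * C₀)) ≤ 2 * ρ * X :=
      mul_le_mul_of_nonneg_left hXa.1 (by positivity)
    have h17 : ρ * η * C₀ ≤ η * C₀ :=
      mul_le_mul_of_nonneg_right (mul_le_of_le_one_left hη.le hρ1) hC0
    linarith
  have b8 : ρ ^ 2 * t / k * E = ρ ^ 2 * E - ρ * (s / k) * (ρ * E) := by
    rw [← hq]; field_simp
  have b9 : (ρ - e) ^ 2 / K * (ρ ^ 2 * t / k) ≤ ρ ^ 2 * t / k * E := by
    refine (mul_le_mul_of_nonneg_right ?_ (by positivity)).trans (le_of_eq (mul_comm _ _))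
    rw [div_le_iff₀ hK]
    linarith [pow_le_pow_left₀ (sub_nonneg.2 her) hrlt 2]
  have b10 : 0 ≤ ρ * (s / k) * (1 / 2 * η * C₀) := by positivity
  have b11 : 0 ≤ ρ * (s ^ 2 / k) * L' * η := by positivity
  refine b9.trans ?_
  rw [b8]
  linear_combination b1 + b7 + b4 + b3 + b5 + b6 + b10

/-- The key inequality at a fixed time `s`. -/
lemma key_ineq {F : Fin n → Rn n → ℝ} {dF : Fin n → Fin n → Rn n → ℝ} {L lam K : ℝ}
    (hN : Nice μ t F dF L) (hp : Post μ s (s + t)) (hs : 0 < s) (ht : 0 < t) (hlam : 0 ≤ lam)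
    (hlin : ∀ v : Rn n, vr μ (fun x => ⟪x, v⟫) ≤ lam * ‖v‖ ^ 2)
    (hK : 0 < K) (hP : Poinc μ K) (hδ : (1 - rho μ s) * (s + t) * K ≤ 1)
    (hρ : 0 < rho μ s) :
    rho μ s ^ 2 * t ≤ lam / K ^ 2 + n * |L| / Real.sqrt (s + t) := by
  set k := s + t with hk
  set ρ := rho μ s with hρdef
  set δ := 1 - ρ with hδdef
  have hρ1 : ρ ≤ 1 := rho_le_one hs
  have hδ0 : 0 ≤ δ := by linarith
  have hk0 : 0 < k := hp.pos
  have hsk : s ≤ k := by linarith
  have hpo := prob_obs (μ := μ) (s := s)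
  set L' : ℝ := n * |L| / (k * Real.sqrt k) with hL'
  have hL0 : 0 ≤ L' := by positivity
  set C₀ : ℝ := s ^ 2 / k with hC₀
  have hC0 : 0 ≤ C₀ := by positivity
  have hclaim : ∀ e : ℝ, 0 < e → e < ρ → e < 1 →
      (ρ - e) ^ 2 / K * (ρ ^ 2 * t / k)
        ≤ s ^ 2 * δ ^ 3 * lam * ρ ^ 2 + ρ * s ^ 2 / k * L' * δ * ρ ^ 2
          + Real.sqrt e * (3 * C₀ + s ^ 2 * δ * lam * 6 + ρ * s / k * (2 * C₀)
            + ρ * s ^ 2 / k * L' * 3) := by
    intro e he her he1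
    set η := Real.sqrt e with hηdef
    have hη : 0 < η := Real.sqrt_pos.2 he
    have hηη : η * η = e := Real.mul_self_sqrt he.le
    have hη1 : η ≤ 1 := Real.sqrt_le_one.2 he1.le
    obtain ⟨r, hr, hrlt⟩ := exists_lt_of_lt_csSup ⟨0, zero_mem_gapSet (μ := μ) (s := s)⟩
      (show ρ - e < rho μ s by linarith)
    obtain ⟨φ, hφ, hφ0, hφ1, rfl⟩ := hr
    set a := ∫ th, G μ s φ th ^ 2 ∂(obs μ s) with ha
    have hale : a ≤ ρ := (integral_G_sq_le_rho hs hφ hφ0).trans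
      (mul_le_of_le_one_right (rho_nonneg hs) hφ1)
    set ψ := P μ s φ with hψ
    have hψb : BM ψ := bm_P hs hφ
    have hψ0 : ∫ x, ψ x ∂μ = 0 := G_zero hs φ hφ hφ0
    obtain ⟨M, hψC, hψd⟩ := hasFDerivAt_P hp hs hφ
    have hψ2 : ∫ x, ψ x ^ 2 ∂μ ≤ ρ ^ 2 := by
      refine (integral_P_sq_le hs hφ hφ0).trans ?_
      rw [sq]; exact mul_le_mul_of_nonneg_left hale (rho_nonneg hs)
    have hψlow : a ^ 2 ≤ ∫ x, ψ x ^ 2 ∂μ := by
      have h := sq_integral_mul_le (m := μ) hφ.sq.integrable hψb.sq.integrable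
        (hφ.mul hψb).integrable
      rw [inner_P hs hφ] at h
      exact h.trans (mul_le_of_le_one_left (integral_nonneg fun _ => sq_nonneg _) hφ1)
    set e₀ : Rn n → ℝ := fun x => -ρ * φ x + ψ x with he₀
    have he₀b : BM e₀ := (hφ.smul _).add hψb
    have he₀0 : ∫ x, e₀ x ∂μ = 0 := by
      rw [he₀, integral_add (hφ.smul _).integrable hψb.integrable, integral_const_mul, hφ0, hψ0]
      simp
    have he₀2 : ∫ x, e₀ x ^ 2 ∂μ ≤ 2 * e := by
      have i1 : Integrable (fun x => ρ ^ 2 * φ x ^ 2) μ := (hφ.sq.smul _).integrable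
      have i2 : Integrable (fun x => 2 * ρ * (φ x * ψ x)) μ := ((hφ.mul hψb).smul _).integrable
      have : ∫ x, e₀ x ^ 2 ∂μ = ρ ^ 2 * ∫ x, φ x ^ 2 ∂μ - 2 * ρ * a + ∫ x, ψ x ^ 2 ∂μ := by
        rw [ha, ← inner_P hs hφ, ← integral_const_mul, ← integral_const_mul,
          ← integral_sub i1 i2, ← integral_add (by exact i1.sub i2) hψb.sq.integrable]
        refine integral_congr_ae (ae_of_all _ fun x => ?_)
        simp only [he₀, hψ]; ring
      rw [this]
      have : ρ ^ 2 * ∫ x, φ x ^ 2 ∂μ ≤ ρ ^ 2 * 1 :=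
        mul_le_mul_of_nonneg_left hφ1 (sq_nonneg _)
      have h' : ρ * (ρ - a) ≤ e := by
        refine (mul_le_of_le_one_left (by linarith) hρ1).trans ?_
        linarith
      linarith
    -- `P ψ = ρ ψ + P e₀`
    have hψe : ψ = fun x => ρ * φ x + e₀ x := funext fun x => by simp [he₀]
    have hPψ : P μ s ψ = fun x => ρ * ψ x + P μ s e₀ x := by
      conv_lhs => rw [hψe]
      rw [P_add hs hφ he₀b]
    set ee := P μ s e₀ with hee
    have heeb : BM ee := bm_P hs he₀b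
    have hee2 : ∫ x, ee x ^ 2 ∂μ ≤ 2 * e := by
      refine (integral_P_sq_le hs he₀b he₀0).trans ?_
      refine le_trans (mul_le_of_le_one_left (integral_nonneg fun _ => sq_nonneg _) hρ1) ?_
      exact (integral_G_sq_le hs he₀b).trans he₀2
    obtain ⟨Me, heeC, heed⟩ := hasFDerivAt_P hp hs he₀b
    obtain ⟨Mp, hpC, hpd⟩ := hasFDerivAt_P hp hs hψb
    -- derivatives
    set g1 : Fin n → Rn n → ℝ := fun i x => fderiv ℝ ψ x (unit i) with hg1
    set ge : Fin n → Rn n → ℝ := fun i x => fderiv ℝ ee x (unit i) with hge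
    set g2 : Fin n → Rn n → ℝ := fun i x => s * Q s (V μ s ψ i) x with hg2
    have hbg : ∀ {f : Rn n → ℝ} {B : ℝ}, C1B B f → ∀ i, BM fun x => fderiv ℝ f x (unit i) :=
      fun {f B} hf i => ⟨((hf.1.continuous_fderiv one_ne_zero).clm_apply continuous_const).measurable,
        B * ‖unit i‖, fun x => by
          have h5 := (fderiv ℝ f x).le_opNorm (unit i)
          rw [Real.norm_eq_abs] at h5
          exact h5.trans (mul_le_mul_of_nonneg_right (hf.2 x) (norm_nonneg _))⟩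
    have hg1b : ∀ i, BM (g1 i) := fun i => hbg hψC i
    have hgeb : ∀ i, BM (ge i) := fun i => hbg heeC i
    have hg21 : ∀ i x, g2 i x = ρ * g1 i x + ge i x := by
      intro i x
      simp only [hg2, hg1, hge]
      rw [← hpd x i, hPψ]
      rw [fderiv_fun_add ((hψC.1.differentiable one_ne_zero).differentiableAt.const_mul ρ)
        (heeC.1.differentiable one_ne_zero).differentiableAt, add_apply,
        fderiv_const_mul (hψC.1.differentiable one_ne_zero).differentiableAt, smul_apply,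
        smul_eq_mul]
    have hVb : ∀ {f : Rn n → ℝ}, BM f → ∀ i, BM (V μ s f i) := fun {f} hf i => bm_V hp hs hf i
    have hg2b : ∀ i, BM (g2 i) := fun i => (bm_Q (hVb hψb i)).smul s
    set E := ∑ i, ∫ x, g1 i x ^ 2 ∂μ with hE
    set Ee := ∑ i, ∫ x, ge i x ^ 2 ∂μ with hEe
    have hgP : ∀ i x, g1 i x = s * Q s (V μ s φ i) x := fun i x => by
      simpa only [hg1] using hψd x i
    have hgeP : ∀ i x, ge i x = s * Q s (V μ s e₀ i) x := fun i x => by
      simpa only [hge] using heed x i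
    have hE_le : E ≤ C₀ := by
      have := sum_sq_P_le hp hs hφ hφ1
      rw [mul_one] at this
      simpa only [hE, hgP] using this
    have hEe_le : Ee ≤ C₀ * (2 * e) := by
      have := sum_sq_P_le hp hs he₀b he₀2
      simpa only [hEe, hgeP] using this
    set X := ∑ i, ∫ x, g1 i x * ge i x ∂μ with hXdef
    have hX' : |X| ≤ 3 / 2 * η * C₀ := by
      refine (abs_sum_integral_mul_le hg1b hgeb hη).trans ?_
      rw [← hE, ← hEe]
      have a1 : η / 2 * E ≤ η / 2 * C₀ := mul_le_mul_of_nonneg_left hE_le (by positivity)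
      have a2 : Ee / (2 * η) ≤ η * C₀ := by
        rw [div_le_iff₀ (by positivity), show η * C₀ * (2 * η) = C₀ * (2 * (η * η)) by ring, hηη]
        exact hEe_le
      linarith
    have hPi_eq : ∑ i, ∫ x, g2 i x * g1 i x ∂μ = ρ * E + X := by
      rw [hE, hXdef, Finset.mul_sum, ← Finset.sum_add_distrib]
      refine Finset.sum_congr rfl fun i _ => ?_
      rw [← integral_const_mul, ← integral_add ((hg1b i).sq.smul _).integrable
        ((hg1b i).mul (hgeb i)).integrable]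
      exact integral_congr_ae (ae_of_all _ fun x => by simp only [hg21]; ring)
    have hN2_ge : ρ ^ 2 * E + 2 * ρ * X ≤ ∑ i, ∫ x, g2 i x ^ 2 ∂μ := by
      rw [hE, hXdef, Finset.mul_sum, Finset.mul_sum, ← Finset.sum_add_distrib]
      refine Finset.sum_le_sum fun i _ => ?_
      rw [← integral_const_mul, ← integral_const_mul, ← integral_add ((hg1b i).sq.smul _).integrable
        (((hg1b i).mul (hgeb i)).smul _).integrable]
      refine integral_mono (((hg1b i).sq.smul _).add (((hg1b i).mul (hgeb i)).smul _)).integrable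
        (hg2b i).sq.integrable fun x => ?_
      simp only [hg21]
      nlinarith [sq_nonneg (ge i x)]
    set W := ∑ i, ∫ th, V μ s ψ i th ^ 2 ∂(obs μ s) with hW
    set c2 := ∑ i, (∫ th, V μ s ψ i th ∂(obs μ s)) ^ 2 with hc2
    have hN2_le : ∑ i, ∫ x, g2 i x ^ 2 ∂μ ≤ s ^ 2 * (δ * c2 + ρ * W) := by
      rw [hW, hc2, Finset.mul_sum, Finset.mul_sum, ← Finset.sum_add_distrib, Finset.mul_sum]
      refine Finset.sum_le_sum fun i _ => ?_
      simp only [hg2, mul_pow]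
      rw [integral_const_mul]
      refine mul_le_mul_of_nonneg_left ?_ (sq_nonneg _)
      have := integral_Q_sq_le (μ := μ) hs (hVb hψb i)
      rw [← hρdef, ← hδdef] at this
      linarith
    have hc2_le : c2 ≤ lam * (δ ^ 2 * ρ ^ 2 + 6 * η) :=
      (c2_bound hp hs hlam hlin hK.le hP hψb hψ0).trans (mul_le_mul_of_nonneg_left
        (u_bound hs hψb heeb hη hηη hη1 hρ.le hPψ hψ2 hee2) hlam)
    have hE_ge : a ^ 2 ≤ K * E := by
      obtain ⟨-, -, h15⟩ := hP.extend hK.le hψC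
      have hv : vr μ ψ = ∫ x, ψ x ^ 2 ∂μ := by simp [vr, hψ0]
      have he5 : energy μ ψ = E := by
        rw [hE, ← integral_finsetSum _ fun i _ => (hg1b i).sq.integrable]
        unfold energy
        simp only [hg1, sum_sq_apply_unit]
      rw [hv, he5] at h15
      exact hψlow.trans h15
    exact key_algebra hρ hρ1 hδ0 hs ht hk hK hη hC0 hL0 her.le hrlt.le hE_ge hX' hPi_eq hN2_ge
      (D_bound hs hψb heeb hη hηη hη1 hρ.le hPψ hψ2 hee2) hc2_le hN2_le
      (W_bound hN hp hs hψC hψb hg1b)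
  -- let `e → 0`
  have hlim : ρ ^ 2 / K * (ρ ^ 2 * t / k)
      ≤ s ^ 2 * δ ^ 3 * lam * ρ ^ 2 + ρ * s ^ 2 / k * L' * δ * ρ ^ 2 := by
    set C₁ : ℝ := 3 * C₀ + s ^ 2 * δ * lam * 6 + ρ * s / k * (2 * C₀) + ρ * s ^ 2 / k * L' * 3
    have l1 : Tendsto (fun e : ℝ => (ρ - e) ^ 2 / K * (ρ ^ 2 * t / k)) (𝓝[>] 0)
        (𝓝 (ρ ^ 2 / K * (ρ ^ 2 * t / k))) := by
      refine tendsto_nhdsWithin_of_tendsto_nhds (Continuous.tendsto' (by fun_prop) _ _ ?_)
      simp
    have l2 : Tendsto (fun e : ℝ => s ^ 2 * δ ^ 3 * lam * ρ ^ 2 + ρ * s ^ 2 / k * L' * δ * ρ ^ 2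
        + Real.sqrt e * C₁) (𝓝[>] 0)
        (𝓝 (s ^ 2 * δ ^ 3 * lam * ρ ^ 2 + ρ * s ^ 2 / k * L' * δ * ρ ^ 2)) := by
      refine tendsto_nhdsWithin_of_tendsto_nhds (Continuous.tendsto' (by fun_prop) _ _ ?_)
      simp
    refine le_of_tendsto_of_tendsto l1 l2 ?_
    filter_upwards [Ioo_mem_nhdsGT (lt_min hρ one_pos)] with e he
    exact hclaim e he.1 (he.2.trans_le (min_le_left _ _)) (he.2.trans_le (min_le_right _ _))
  have hKk : δ ≤ 1 / (k * K) := by
    rw [le_div_iff₀ (by positivity)]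
    linarith [hδ]
  have h20 : ρ ^ 2 * t / (k * K) ≤ s ^ 2 * δ ^ 3 * lam + ρ * s ^ 2 / k * L' * δ := by
    refine le_of_mul_le_mul_left ?_ (pow_pos hρ 2)
    calc ρ ^ 2 * (ρ ^ 2 * t / (k * K)) = ρ ^ 2 / K * (ρ ^ 2 * t / k) := by field_simp
      _ ≤ _ := hlim
      _ = _ := by ring
  have h21 : s ^ 2 * δ ^ 3 * lam + ρ * s ^ 2 / k * L' * δ
      ≤ k ^ 2 * (1 / (k * K)) ^ 3 * lam + 1 * k ^ 2 / k * L' * (1 / (k * K)) := by
    gcongr
  have h22 := h20.trans h21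
  rw [show k ^ 2 * (1 / (k * K)) ^ 3 * lam + 1 * k ^ 2 / k * L' * (1 / (k * K))
      = (lam / K ^ 2 + n * |L| / Real.sqrt k) / (k * K) by
      rw [hL']; field_simp, div_le_div_iff_of_pos_right (by positivity)] at h22
  exact h22

/-- The improved Poincaré inequality for a nice measure. -/
theorem poinc_nice (hP1 : PoincareSLC) {F : Fin n → Rn n → ℝ} {dF : Fin n → Fin n → Rn n → ℝ}
    {L lam : ℝ} (hN : Nice μ t F dF L) (ht : 0 < t) (hlam : 0 ≤ lam) (h : IsSLC t μ)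
    (hlin : ∀ v : Rn n, vr μ (fun x => ⟪x, v⟫) ≤ lam * ‖v‖ ^ 2) :
    Poinc μ (Real.sqrt (lam / t)) := by
  have hK0 : Poinc μ (1 / t) := fun f hf => hP1 n t μ inferInstance ht h f hf
  obtain ⟨hKnn, hKP, hKmin⟩ := bestK_spec (by positivity) hK0
  set K := bestK μ with hKdef
  suffices hsq : K ^ 2 * t ≤ lam by
    intro f hf
    refine (hKP f hf).trans (mul_le_mul_of_nonneg_right ?_ (energy_nonneg _ _))
    rw [← Real.sqrt_sq hKnn]
    exact Real.sqrt_le_sqrt ((le_div_iff₀ ht).2 hsq)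
  rcases eq_or_lt_of_le hKnn with hK | hK
  · rw [← hK]; simpa using hlam
  have hev : ∀ᶠ s in atTop, (1 - 1 / (K * s)) ^ 2 * t
      ≤ lam / K ^ 2 + n * |L| / Real.sqrt (s + t) := by
    filter_upwards [eventually_gt_atTop (1 / K), eventually_gt_atTop 0] with s hsK hs
    have hp := post_of hP1 ht.le hs h
    have hδ : (1 - rho μ s) * (s + t) * K ≤ 1 := by
      rcases eq_or_lt_of_le (sub_nonneg.2 (rho_le_one (μ := μ) hs)) with h0 | h0
      · rw [← h0]; simp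
      · have hk : 0 < (1 - rho μ s) * (s + t) := mul_pos h0 hp.pos
        have := hKmin (1 / ((1 - rho μ s) * (s + t))) (by positivity) fun f hf => by
          rw [div_mul_eq_mul_div, one_mul, le_div_iff₀ hk, mul_comm]
          exact gap_le hp hs hf
        rw [le_div_iff₀ hk] at this
        linarith
    have h1K : 0 < 1 - 1 / (K * s) := by
      rw [sub_pos, div_lt_one (by positivity)]
      rw [div_lt_iff₀ hK] at hsK
      linarith
    have hρ : 1 - 1 / (K * s) ≤ rho μ s := by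
      rw [sub_le_iff_le_add, ← sub_le_iff_le_add', le_div_iff₀ (by positivity)]
      have : 0 ≤ (1 - rho μ s) * t * K :=
        mul_nonneg (mul_nonneg (sub_nonneg.2 (rho_le_one hs)) ht.le) hK.le
      linarith
    refine le_trans ?_ (key_ineq hN hp hs ht hlam hlin hK hKP hδ (h1K.trans_le hρ))
    gcongr
  have hl : Tendsto (fun s : ℝ => (1 - 1 / (K * s)) ^ 2 * t) atTop (𝓝 ((1 - 0) ^ 2 * t)) := by
    refine ((tendsto_const_nhds.sub ?_).pow 2).mul_const t
    simp only [one_div]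
    exact tendsto_inv_atTop_zero.comp (tendsto_id.const_mul_atTop hK)
  have hr : Tendsto (fun s : ℝ => lam / K ^ 2 + n * |L| / Real.sqrt (s + t)) atTop
      (𝓝 (lam / K ^ 2 + 0)) :=
    tendsto_const_nhds.add (tendsto_const_nhds.div_atTop
      (Real.tendsto_sqrt_atTop.comp (tendsto_atTop_add_const_right _ t tendsto_id)))
  have := le_of_tendsto_of_tendsto hl hr hev
  rw [sub_zero, one_pow, one_mul, add_zero, le_div_iff₀ (pow_pos hK 2)] at this
  linarith

theorem nicePoinc (hP1 : PoincareSLC) : NicePoinc :=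
  fun _n _μ _hμ _t _lam _L _F _dF hN ht hlam h hlin => poinc_nice hP1 hN ht hlam h hlin

end Vale.Agent.P245.Imp
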