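import Vale.Agent.P245.ImpCalc
import Vale.Agent.P245.SLC.Basic

/-!
# P245 M3: Gaussian convolution of a measure

`smeas σ μ = μ * N(0, σ)`: the tower identity, the density, its strong log-concavity and the
variance of linear forms; Gaussian integration by parts.
-/

namespace Vale.Agent.P245.Imp

open MeasureTheory ProbabilityTheory Filter Topology
open scoped RealInnerProductSpace ENNReal NNReal
open Vale.Agent.P309.Sharp (gaussKer gaussKer_nonneg measurable_gaussKer continuous_gaussKer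
  stdGaussian_eq_withDensity lintegral_stdGaussian gaussConst gaussConst_pos)

variable {n : ℕ} {μ : Measure (Rn n)} [IsProbabilityMeasure μ] {σ t : ℝ}

/-- `μ * N(0, σ)`. -/
noncomputable def smeas (σ : ℝ) (μ : Measure (Rn n)) : Measure (Rn n) :=
  (μ.prod (gam n)).map fun p => p.1 + Real.sqrt σ • p.2

instance : IsProbabilityMeasure (smeas σ μ) := Measure.isProbabilityMeasure_map (by fun_prop)

lemma integral_smeas {g : Rn n → ℝ} (hg : Measurable g) {B : ℝ} (hB : ∀ x, |g x| ≤ B) :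
    ∫ y, g y ∂smeas σ μ = ∫ x, ∫ z, g (x + Real.sqrt σ • z) ∂gam n ∂μ := by
  rw [smeas, integral_map (by fun_prop) hg.aestronglyMeasurable, integral_prod]
  exact Integrable.of_bound (hg.comp (by fun_prop)).aestronglyMeasurable B
    (ae_of_all _ fun p => by simpa using hB _)

lemma mul_sqrt_inv (hσ : 0 < σ) : σ * Real.sqrt σ⁻¹ = Real.sqrt σ := by
  rw [Real.sqrt_inv, ← div_eq_mul_inv, Real.div_sqrt]

omit [IsProbabilityMeasure μ] in
lemma smeas_eq_map (hσ : 0 < σ) : smeas σ μ = (obs μ σ⁻¹).map fun th => σ • th := by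
  rw [obs, Measure.map_map (by fun_prop) (by fun_prop), smeas]
  congr 1
  funext p
  simp only [Function.comp_apply, smul_add, smul_smul, mul_inv_cancel₀ hσ.ne', one_smul,
    mul_sqrt_inv hσ]

/-- Tower property along the convolution. -/
lemma tower (hσ : 0 < σ) {ψ h : Rn n → ℝ} (hψ : Measurable ψ) {B : ℝ} (hB : ∀ x, |ψ x| ≤ B)
    (hh : Measurable h) {H : ℝ} (hH : ∀ x, |h x| ≤ H) :
    ∫ x, h x * ∫ z, ψ (x + Real.sqrt σ • z) ∂gam n ∂μ
      = ∫ y, ψ y * ex μ σ⁻¹ (σ⁻¹ • y) h ∂smeas σ μ := by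
  have hs : 0 < σ⁻¹ := inv_pos.2 hσ
  have hm : Measurable fun th => ex μ σ⁻¹ th h := (contDiff_ex hs hh hH).continuous.measurable
  have hi : Integrable h μ :=
    Integrable.of_bound hh.aestronglyMeasurable H (ae_of_all _ fun x => by simpa using hH x)
  have key := adjoint (μ := μ) hs (Φ := fun th => ψ (σ • th)) (hψ.comp (by fun_prop))
    (fun z => hB _) hh hi (abs_ex_le hs hH) hm
  have hmeas : Measurable fun y => ψ y * ex μ σ⁻¹ (σ⁻¹ • y) h :=
    hψ.mul (hm.comp (by fun_prop))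
  rw [smeas_eq_map hσ, integral_map (by fun_prop) hmeas.aestronglyMeasurable]
  simp only [smul_smul, inv_mul_cancel₀ hσ.ne', one_smul]
  rw [← key]
  refine integral_congr_ae (ae_of_all _ fun x => ?_)
  simp only [Q, smul_add, smul_smul, mul_inv_cancel₀ hσ.ne', one_smul, mul_sqrt_inv hσ]

/-- Gaussian integration by parts. -/
lemma gauss_ibp {g : Rn n → ℝ} (hg : ContDiff ℝ 1 g) {B M : ℝ} (hB : ∀ x, |g x| ≤ B)
    (hM : ∀ x, ‖fderiv ℝ g x‖ ≤ M) (i : Fin n) :
    ∫ z, fderiv ℝ g z (unit i) ∂gam n = ∫ z, g z * z i ∂gam n := by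
  have hK : Integrable (fun z : Rn n => gaussKer z) := by
    have h := (integrable_const (1 : ℝ) (μ := gam n))
    rw [gam, stdGaussian_eq_withDensity, integrable_withDensity_iff_integrable_smul'
      measurable_gaussKer.ennreal_ofReal (ae_of_all _ fun _ => ENNReal.ofReal_lt_top)] at h
    simpa [ENNReal.toReal_ofReal (gaussKer_nonneg _)] using h
  have hKi : Integrable (fun z : Rn n => gaussKer z * z i) := by
    have h : Integrable (fun z : Rn n => z i) (gam n) :=
      ((EuclideanSpace.proj i : Rn n →L[ℝ] ℝ).integrable_comp IsGaussian.integrable_id)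
    rw [gam, stdGaussian_eq_withDensity, integrable_withDensity_iff_integrable_smul'
      measurable_gaussKer.ennreal_ofReal (ae_of_all _ fun _ => ENNReal.ofReal_lt_top)] at h
    simpa [ENNReal.toReal_ofReal (gaussKer_nonneg _)] using h
  have hd : ∀ z : Rn n, HasFDerivAt (gaussKer (V := Rn n))
      ((-gaussKer z) • innerSL ℝ z) z := by
    intro z
    have h1 := ((hasStrictFDerivAt_norm_sq z).hasFDerivAt.const_mul (-(1 : ℝ) / 2)).exp.const_mul
      (gaussConst (Rn n))⁻¹
    refine (h1.congr_of_eventuallyEq (Eventually.of_forall fun w => ?_)).congr_fderiv ?_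
    · simp only [gaussKer]; ring_nf
    · ext w
      simp [gaussKer]
      ring_nf
  have hfd : ∀ z : Rn n, fderiv ℝ (gaussKer (V := Rn n)) z (unit i) = -(gaussKer z * z i) := by
    intro z
    rw [(hd z).fderiv]
    simp [unit, EuclideanSpace.inner_single_right]
  have hgc := hg.continuous
  have hB' : ∀ x, ‖g x‖ ≤ B := fun x => by simpa using hB x
  have hdu : ∀ x, ‖fderiv ℝ g x (unit i)‖ ≤ M := fun x =>
    ((fderiv ℝ g x).le_opNorm _).trans (by simpa [unit] using hM x)
  have hdc : Continuous fun x => fderiv ℝ g x (unit i) :=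
    (hg.continuous_fderiv one_ne_zero).clm_apply continuous_const
  have h1 : Integrable fun z => fderiv ℝ g z (unit i) * gaussKer z :=
    hK.bdd_mul (c := M) hdc.aestronglyMeasurable (ae_of_all _ hdu)
  have h2 : Integrable fun z => g z * fderiv ℝ (gaussKer (V := Rn n)) z (unit i) := by
    simp only [hfd]
    exact hKi.neg.bdd_mul (c := B) hgc.aestronglyMeasurable (ae_of_all _ hB')
  have h3 : Integrable fun z => g z * gaussKer z :=
    hK.bdd_mul (c := B) hgc.aestronglyMeasurable (ae_of_all _ hB')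
  have h := integral_mul_fderiv_eq_neg_fderiv_mul_of_integrable (μ := (volume : Measure (Rn n)))
    h1 h2 h3 (fun x _ => hg.differentiable one_ne_zero x) fun x _ => (hd x).differentiableAt
  simp only [hfd, mul_neg, integral_neg, neg_inj] at h
  rw [integral_gam, integral_gam]
  calc ∫ z, gaussKer z * fderiv ℝ g z (unit i) = ∫ z, fderiv ℝ g z (unit i) * gaussKer z := by
        congr 1; funext z; ring
    _ = ∫ z, g z * (gaussKer z * z i) := h.symm
    _ = _ := by congr 1; funext z; ring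

/-- The density of `smeas σ μ`. -/
noncomputable def sdens (σ : ℝ) (μ : Measure (Rn n)) (y : Rn n) : ℝ :=
  ∫ x, (Real.sqrt σ ^ n)⁻¹ * gaussKer ((Real.sqrt σ)⁻¹ • (y - x)) ∂μ

lemma gaussKer_le (z : Rn n) : gaussKer z ≤ (gaussConst (Rn n))⁻¹ :=
  mul_le_of_le_one_right (inv_nonneg.2 gaussConst_pos.le) (Real.exp_le_one_iff.2 (by
    have := sq_nonneg ‖z‖; linarith))

lemma integrable_sker (σ : ℝ) (y : Rn n) :
    Integrable (fun x => (Real.sqrt σ ^ n)⁻¹ * gaussKer ((Real.sqrt σ)⁻¹ • (y - x))) μ := by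
  refine Integrable.of_bound
    (measurable_const.mul (measurable_gaussKer.comp (by fun_prop))).aestronglyMeasurable
    ((Real.sqrt σ ^ n)⁻¹ * (gaussConst (Rn n))⁻¹) (ae_of_all _ fun x => ?_)
  rw [Real.norm_eq_abs, abs_of_nonneg (mul_nonneg (by positivity) (gaussKer_nonneg _))]
  exact mul_le_mul_of_nonneg_left (gaussKer_le _) (by positivity)

lemma ofReal_sdens (σ : ℝ) (y : Rn n) : ENNReal.ofReal (sdens σ μ y)
    = ∫⁻ x, ENNReal.ofReal ((Real.sqrt σ ^ n)⁻¹ * gaussKer ((Real.sqrt σ)⁻¹ • (y - x))) ∂μ :=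
  ofReal_integral_eq_lintegral_ofReal (integrable_sker σ y)
    (ae_of_all _ fun _ => mul_nonneg (by positivity) (gaussKer_nonneg _))

lemma measurable_sker (σ : ℝ) : Measurable fun p : Rn n × Rn n =>
    (Real.sqrt σ ^ n)⁻¹ * gaussKer ((Real.sqrt σ)⁻¹ • (p.1 - p.2)) :=
  measurable_const.mul (measurable_gaussKer.comp (by fun_prop))

lemma measurable_sker_right (σ : ℝ) (y : Rn n) : Measurable fun x : Rn n =>
    (Real.sqrt σ ^ n)⁻¹ * gaussKer ((Real.sqrt σ)⁻¹ • (y - x)) :=
  measurable_const.mul (measurable_gaussKer.comp (by fun_prop))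

lemma measurable_sker_swap (σ : ℝ) : Measurable fun p : Rn n × Rn n =>
    (Real.sqrt σ ^ n)⁻¹ * gaussKer ((Real.sqrt σ)⁻¹ • (p.2 - p.1)) :=
  measurable_const.mul (measurable_gaussKer.comp (by fun_prop))

lemma measurable_sdens (σ : ℝ) : Measurable (sdens σ μ) :=
  (measurable_sker σ).stronglyMeasurable.integral_prod_right'.measurable

lemma lintegral_shift_smul (hσ : 0 < σ) {F : Rn n → ℝ≥0∞} (hF : Measurable F) (x : Rn n) :
    ∫⁻ z, F (x + Real.sqrt σ • z) ∂gam n
      = ∫⁻ y, ENNReal.ofReal ((Real.sqrt σ ^ n)⁻¹ * gaussKer ((Real.sqrt σ)⁻¹ • (y - x))) * F y := by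
  have hr : 0 < Real.sqrt σ := Real.sqrt_pos.2 hσ
  set G : Rn n → ℝ≥0∞ := fun y => ENNReal.ofReal (gaussKer ((Real.sqrt σ)⁻¹ • (y - x))) * F y
    with hGdef
  have hG : Measurable G := (measurable_gaussKer.comp (by fun_prop)).ennreal_ofReal.mul hF
  have hF' : Measurable fun z => F (x + Real.sqrt σ • z) := hF.comp (by fun_prop)
  have e1 : ∀ z, ENNReal.ofReal (gaussKer z) * F (x + Real.sqrt σ • z)
      = (fun w => G (x + w)) (Real.sqrt σ • z) := fun z => by
    simp only [hGdef, add_sub_cancel_left, smul_smul, inv_mul_cancel₀ hr.ne', one_smul]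
  calc ∫⁻ z, F (x + Real.sqrt σ • z) ∂gam n
      = ∫⁻ z, (fun w => G (x + w)) (Real.sqrt σ • z) := by
        rw [lintegral_stdGaussian hF']
        exact lintegral_congr e1
    _ = ∫⁻ w, G (x + w) ∂(Measure.map (fun z => Real.sqrt σ • z) volume) :=
        (lintegral_map (hG.comp (measurable_const_add x)) (measurable_const_smul (Real.sqrt σ))).symm
    _ = ENNReal.ofReal ((Real.sqrt σ ^ n)⁻¹) * ∫⁻ y, G y := by
        rw [Measure.map_addHaar_smul _ hr.ne', lintegral_smul_measure, lintegral_add_left_eq_self G x,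
          finrank_euclideanSpace_fin, abs_of_pos (by positivity : (0 : ℝ) < (Real.sqrt σ ^ n)⁻¹),
          smul_eq_mul]
    _ = _ := by
        rw [← lintegral_const_mul _ hG]
        refine lintegral_congr fun y => ?_
        simp only [hGdef]
        rw [ENNReal.ofReal_mul (by positivity : (0 : ℝ) ≤ (Real.sqrt σ ^ n)⁻¹), mul_assoc]

lemma smeas_eq_withDensity (hσ : 0 < σ) :
    smeas σ μ = volume.withDensity fun y => ENNReal.ofReal (sdens σ μ y) := by
  refine Measure.ext_of_lintegral _ fun F hF => ?_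
  have hF' : Measurable fun p : Rn n × Rn n => F (p.1 + Real.sqrt σ • p.2) := hF.comp (by fun_prop)
  rw [lintegral_withDensity_eq_lintegral_mul _ (measurable_sdens σ).ennreal_ofReal hF, smeas,
    lintegral_map hF (by fun_prop), lintegral_prod _ hF'.aemeasurable]
  simp only [lintegral_shift_smul hσ hF]
  have hk : Measurable fun p : Rn n × Rn n => ENNReal.ofReal
      ((Real.sqrt σ ^ n)⁻¹ * gaussKer ((Real.sqrt σ)⁻¹ • (p.2 - p.1))) :=
    (measurable_sker_swap σ).ennreal_ofReal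
  rw [lintegral_lintegral_swap (hk.mul (hF.comp measurable_snd)).aemeasurable]
  refine lintegral_congr fun y => ?_
  rw [Pi.mul_apply, ofReal_sdens]
  exact lintegral_mul_const (F y) (measurable_sker_right σ y).ennreal_ofReal

/-- The exponent inequality behind the strong log-concavity of the convolution. -/
lemma exponent_le (hσ : 0 < σ) (ht : 0 < t) {l : ℝ} (hl0 : 0 < l) (hl1 : l < 1)
    (y₀ y₁ x₀ x₁ : Rn n) :
    -‖y₀ - x₀‖ ^ 2 / (2 * σ) * (1 - l) + -‖y₁ - x₁‖ ^ 2 / (2 * σ) * l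
      ≤ -‖(1 - l) • y₀ + l • y₁ - ((1 - l) • x₀ + l • x₁)‖ ^ 2 / (2 * σ)
        + (-(t / (1 + σ * t) / 2 * l * (1 - l) * ‖y₀ - y₁‖ ^ 2)
          + t / 2 * l * (1 - l) * ‖x₀ - x₁‖ ^ 2) := by
  have hl1' : 0 < 1 - l := sub_pos.2 hl1
  set t' := t / (1 + σ * t) with ht'
  have hz : (1 - l) • y₀ + l • y₁ - ((1 - l) • x₀ + l • x₁)
      = (1 - l) • (y₀ - x₀) + l • (y₁ - x₁) := by
    simp only [smul_sub]; abel
  rw [hz, combo_norm_sq]
  set D := ‖(y₀ - x₀) - (y₁ - x₁)‖
  set A := ‖x₀ - x₁‖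
  have h1 : ‖y₀ - y₁‖ ≤ D + A := by
    refine le_trans (le_of_eq ?_) (norm_add_le _ _)
    congr 1; abel
  have h2 : t' * (D + A) ^ 2 ≤ D ^ 2 / σ + t * A ^ 2 := by
    rw [ht', div_mul_eq_mul_div, div_add' _ _ _ hσ.ne', div_le_div_iff₀ (by positivity) hσ]
    nlinarith [sq_nonneg (D - t * σ * A)]
  have h3 : t' * ‖y₀ - y₁‖ ^ 2 ≤ t' * (D + A) ^ 2 :=
    mul_le_mul_of_nonneg_left (pow_le_pow_left₀ (norm_nonneg _) h1 2) (by positivity)
  have h4 := mul_le_mul_of_nonneg_left (h3.trans h2) (mul_pos hl0 hl1').le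
  have e : ∀ u : ℝ, -u / (2 * σ) = -(u / σ) / 2 := fun u => by field_simp
  simp only [e, sub_div, add_div, mul_div_assoc]
  nlinarith

lemma slc_smeas (hσ : 0 < σ) (ht : 0 < t) (h : IsSLC t μ) :
    IsSLC (t / (1 + σ * t)) (smeas σ μ) := by
  refine ⟨sdens σ μ, measurable_sdens σ, fun y => integral_nonneg fun _ =>
    mul_nonneg (by positivity) (gaussKer_nonneg _), smeas_eq_withDensity hσ,
    fun y₀ y₁ l hl0 hl1 => ?_⟩
  have hl1' : 0 < 1 - l := sub_pos.2 hl1
  set t' := t / (1 + σ * t) with ht'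
  set E := Real.exp (-(t' / 2 * l * (1 - l) * ‖y₀ - y₁‖ ^ 2))
  set K : Rn n → Rn n → ℝ := fun y x =>
    (Real.sqrt σ ^ n)⁻¹ * gaussKer ((Real.sqrt σ)⁻¹ • (y - x))
  set c := (Real.sqrt σ ^ n)⁻¹ * (gaussConst (Rn n))⁻¹ with hc
  have hcpos : 0 < c := by have := gaussConst_pos (V := Rn n); positivity
  have hKe : ∀ y x, K y x = c * Real.exp (-‖y - x‖ ^ 2 / (2 * σ)) := fun y x => by
    simp only [K, gaussKer, c]
    rw [norm_smul, mul_pow, norm_inv, Real.norm_eq_abs, inv_pow, sq_abs, Real.sq_sqrt hσ.le]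
    ring_nf
  have hK : ∀ y, Measurable (K y) := fun y => measurable_sker_right σ y
  have hp := pl_slc h hl0 hl1 (F := fun x => ENNReal.ofReal (K y₀ x))
    (G := fun x => ENNReal.ofReal (K y₁ x))
    (H := fun x => ENNReal.ofReal (K ((1 - l) • y₀ + l • y₁) x * E))
    (hK _).ennreal_ofReal (hK _).ennreal_ofReal ((hK _).mul_const E).ennreal_ofReal fun x₀ x₁ => by
      simp only [hKe]
      rw [ENNReal.ofReal_rpow_of_pos (mul_pos hcpos (Real.exp_pos _)),
        ENNReal.ofReal_rpow_of_pos (mul_pos hcpos (Real.exp_pos _)),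
        ← ENNReal.ofReal_mul (by positivity), ← ENNReal.ofReal_mul (by positivity)]
      refine ENNReal.ofReal_le_ofReal ?_
      rw [Real.mul_rpow hcpos.le (Real.exp_pos _).le, Real.mul_rpow hcpos.le (Real.exp_pos _).le,
        ← Real.exp_mul, ← Real.exp_mul, mul_mul_mul_comm, ← Real.rpow_add hcpos, sub_add_cancel,
        Real.rpow_one, ← Real.exp_add, mul_assoc c, mul_assoc c, ← Real.exp_add, ← Real.exp_add]
      refine mul_le_mul_of_nonneg_left (Real.exp_le_exp.2 ?_) hcpos.le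
      rw [add_assoc]
      exact exponent_le hσ ht hl0 hl1 y₀ y₁ x₀ x₁
  rw [← ofReal_sdens, ← ofReal_sdens,
    ← ofReal_integral_eq_lintegral_ofReal ((integrable_sker σ _).mul_const E)
      (ae_of_all _ fun x => mul_nonneg (mul_nonneg (by positivity) (gaussKer_nonneg _))
        (Real.exp_pos _).le),
    integral_mul_const] at hp
  have h0 : ∀ y, 0 ≤ sdens σ μ y := fun y => integral_nonneg fun _ =>
    mul_nonneg (by positivity) (gaussKer_nonneg _)
  rw [ENNReal.ofReal_rpow_of_nonneg (h0 _) hl1'.le, ENNReal.ofReal_rpow_of_nonneg (h0 _) hl0.le,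
    ← ENNReal.ofReal_mul (Real.rpow_nonneg (h0 _) _)] at hp
  have hr : sdens σ μ y₀ ^ (1 - l) * sdens σ μ y₁ ^ l
      ≤ sdens σ μ ((1 - l) • y₀ + l • y₁) * E :=
    (ENNReal.ofReal_le_ofReal_iff (mul_nonneg (h0 _) (Real.exp_pos _).le)).1 hp
  have hp' := mul_le_mul_of_nonneg_right hr (Real.exp_pos (t' / 2 * l * (1 - l) * ‖y₀ - y₁‖ ^ 2)).le
  refine hp'.trans (le_of_eq ?_)
  show sdens σ μ _ * E * _ = _
  rw [mul_assoc, ← Real.exp_add, neg_add_cancel, Real.exp_zero, mul_one]

/-- Variance of linear forms. -/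
lemma vr_inner_smeas (hσ : 0 < σ) (hb : BddSupp μ) {lam : ℝ}
    (hlam : ∀ v : Rn n, vr μ (fun x => ⟪x, v⟫) ≤ lam * ‖v‖ ^ 2) (v : Rn n) :
    vr (smeas σ μ) (fun x => ⟪x, v⟫) ≤ (lam + σ) * ‖v‖ ^ 2 := by
  obtain ⟨R, hR⟩ := hb
  set L : Rn n →L[ℝ] ℝ := innerSL ℝ v
  have hL : (fun x : Rn n => ⟪x, v⟫) = L := funext fun x => (real_inner_comm x v).symm
  have hLn : ‖L‖ = ‖v‖ := innerSL_apply_norm ℝ v
  have hi1 : Integrable L μ :=
    Integrable.of_bound L.continuous.aestronglyMeasurable (‖L‖ * R) (hR.mono fun x hx =>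
      (L.le_opNorm x).trans (mul_le_mul_of_nonneg_left hx (norm_nonneg _)))
  have hi2 : Integrable (fun x => L x ^ 2) μ :=
    Integrable.of_bound (L.continuous.pow 2).aestronglyMeasurable ((‖L‖ * R) ^ 2)
      (hR.mono fun x hx => by
        rw [Real.norm_eq_abs, abs_pow]
        exact pow_le_pow_left₀ (abs_nonneg _)
          ((L.le_opNorm x).trans (mul_le_mul_of_nonneg_left hx (norm_nonneg _))) 2)
  have hg1 : Integrable L (gam n) := L.integrable_comp IsGaussian.integrable_id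
  have hg2 : Integrable (fun z => L z ^ 2) (gam n) := (IsGaussian.memLp_two_id.continuousLinearMap_comp L).integrable_sq
  have hg0 : ∫ z, L z ∂gam n = 0 := integral_strongDual_stdGaussian L
  have hgv : ∫ z, L z ^ 2 ∂gam n = ‖v‖ ^ 2 := by
    rw [← hLn, ← variance_dual_stdGaussian L, variance_of_integral_eq_zero
      L.continuous.aemeasurable hg0]
  set r := Real.sqrt σ
  have hmean : ∫ y, L y ∂smeas σ μ = ∫ x, L x ∂μ := by
    rw [smeas, integral_map (by fun_prop) L.continuous.aestronglyMeasurable]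
    simp only [map_add, map_smul, smul_eq_mul]
    rw [integral_add (hi1.comp_fst _) ((hg1.comp_snd μ).const_mul r), integral_fun_fst (fun x => L x),
      integral_const_mul, integral_fun_snd (fun z => L z), hg0]
    simp
  rw [hL]
  have h0 := hlam v
  rw [hL] at h0
  unfold vr at h0 ⊢
  rw [hmean]
  set m := ∫ x, L x ∂μ
  rw [smeas, integral_map (f := fun y => (L y - m) ^ 2) (by fun_prop)
    ((L.continuous.sub continuous_const).pow 2).aestronglyMeasurable]
  have hd : Integrable (fun x => (L x - m) ^ 2) μ := by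
    refine ((hi2.sub (hi1.const_mul (2 * m))).add (integrable_const (m ^ 2))).congr
      (ae_of_all _ fun x => ?_)
    simp only [Pi.add_apply, Pi.sub_apply]
    ring
  have hd1 : Integrable (fun x => 2 * r * (L x - m)) μ :=
    (hi1.sub (integrable_const m)).const_mul _
  have i12 : Integrable (fun p : Rn n × Rn n => 2 * r * (L p.1 - m) * L p.2) (μ.prod (gam n)) :=
    hd1.mul_prod hg1
  calc ∫ p, (L (p.1 + r • p.2) - m) ^ 2 ∂μ.prod (gam n)
      = ∫ p, ((L p.1 - m) ^ 2 + 2 * r * (L p.1 - m) * L p.2 + σ * L p.2 ^ 2) ∂μ.prod (gam n) := by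
        refine integral_congr_ae (ae_of_all _ fun p => ?_)
        simp only [map_add, map_smul, smul_eq_mul]
        rw [show σ = r ^ 2 from (Real.sq_sqrt hσ.le).symm]
        ring
    _ = ∫ x, (L x - m) ^ 2 ∂μ + σ * ‖v‖ ^ 2 := by
        rw [integral_add (by exact (hd.comp_fst _).add i12) ((hg2.comp_snd μ).const_mul σ),
          integral_add (hd.comp_fst _) i12, integral_fun_fst (fun x => (L x - m) ^ 2),
          integral_prod_mul (fun x => 2 * r * (L x - m)) (fun z => L z), hg0, integral_const_mul,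
          integral_const_mul, integral_fun_snd (fun z => L z ^ 2), hgv]
        simp
    _ ≤ _ := by linarith

end Vale.Agent.P245.Imp
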