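import Vale.Agent.P245.ImpVec
import Vale.Agent.P245.ImpSmoothMeas

/-!
# P245 M3: the improved Poincaré inequality, by Gaussian smoothing from nice measures

For a `t`-strongly log-concave `μ` of bounded support, `μ * N(0, σ)` is nice in the sense of
`ImpCore`, with `t / (1 + σ t)` and linear variance `lam + σ`; then let `σ → 0`.
-/

namespace Vale.Agent.P245.Imp

open MeasureTheory ProbabilityTheory Filter Topology
open scoped RealInnerProductSpace ENNReal NNReal

variable {n : ℕ} {μ : Measure (Rn n)} [IsProbabilityMeasure μ] {σ s t R : ℝ}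

/-- A clipped coordinate. -/
def cc (R : ℝ) (i : Fin n) (x : Rn n) : ℝ := max (-R) (min R (x i))

lemma measurable_cc (R : ℝ) (i : Fin n) : Measurable (cc (n := n) R i) := by
  unfold cc; fun_prop

lemma abs_cc_le (hR : 0 ≤ R) (i : Fin n) (x : Rn n) : |cc R i x| ≤ R :=
  abs_le.2 ⟨le_max_left _ _, max_le (by linarith) (min_le_left _ _)⟩

omit [IsProbabilityMeasure μ] in
lemma cc_ae (hR : ∀ᵐ x ∂μ, ‖x‖ ≤ R) (i : Fin n) : cc R i =ᵐ[μ] fun x => x i := by
  filter_upwards [hR] with x hx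
  have h := abs_le.1 ((Real.norm_eq_abs _).symm.trans_le ((PiLp.norm_apply_le x i).trans hx))
  rw [cc, min_eq_right h.2, max_eq_right h.1]

omit [IsProbabilityMeasure μ] in
lemma ex_congr {f g : Rn n → ℝ} (h : f =ᵐ[μ] g) (th : Rn n) : ex μ s th f = ex μ s th g := by
  unfold ex num
  congr 1
  exact integral_congr_ae (h.mono fun x hx => by simp [hx])

lemma abs_ex_le_ae (hs : 0 < s) {h : Rn n → ℝ} {M : ℝ} (hM : ∀ᵐ x ∂μ, |h x| ≤ M) (th : Rn n) :
    |ex μ s th h| ≤ M := by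
  have := prob_tilt (μ := μ) hs th
  rw [← integral_tilt]
  have h1 : ‖∫ x, h x ∂(tilt μ s th)‖ ≤ ∫ _x, M ∂(tilt μ s th) :=
    norm_integral_le_of_norm_le (integrable_const M)
      ((hM.filter_mono (tilted_absolutelyContinuous μ _).ae_le).mono fun x hx => by simpa using hx)
  simpa [Real.norm_eq_abs] using h1

/-- Posterior expectations are `C¹` with bounded derivative when the support is bounded. -/
lemma c1b_ex (hs : 0 < s) (hR : ∀ᵐ x ∂μ, ‖x‖ ≤ R) {g : Rn n → ℝ} (hg : Measurable g) {G : ℝ}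
    (hG : ∀ x, |g x| ≤ G) : C1B (2 * G * R) fun th => ex μ s th g := by
  refine ⟨contDiff_ex hs hg hG, fun th => ?_⟩
  have hG0 : 0 ≤ G := (abs_nonneg _).trans (hG 0)
  obtain ⟨x₀, hx₀⟩ := hR.exists
  have hR0 : 0 ≤ R := (norm_nonneg x₀).trans hx₀
  refine ContinuousLinearMap.opNorm_le_bound _ (by positivity) fun w => ?_
  rw [Real.norm_eq_abs, fderiv_ex hs hg hG]
  have hl : ∀ᵐ x ∂μ, |⟪x, w⟫| ≤ R * ‖w‖ := hR.mono fun x hx =>
    (abs_real_inner_le_norm x w).trans (mul_le_mul_of_nonneg_right hx (norm_nonneg _))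
  have h1 : |ex μ s th fun x => g x * ⟪x, w⟫| ≤ G * (R * ‖w‖) :=
    abs_ex_le_ae hs (hl.mono fun x hx => by
      rw [abs_mul]; exact mul_le_mul (hG x) hx (abs_nonneg _) hG0) th
  have h2 : |ex μ s th g * ex μ s th fun x => ⟪x, w⟫| ≤ G * (R * ‖w‖) := by
    rw [abs_mul]
    exact mul_le_mul (abs_ex_le hs hG th) (abs_ex_le_ae hs hl th) (abs_nonneg _) hG0
  calc |cv μ s th g fun x => ⟪x, w⟫|
      ≤ G * (R * ‖w‖) + G * (R * ‖w‖) := (abs_sub _ _).trans (add_le_add h1 h2)
    _ = _ := by ring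

/-- Posterior covariance of clipped coordinates. -/
noncomputable def ccov (μ : Measure (Rn n)) (σ R : ℝ) (i j : Fin n) (th : Rn n) : ℝ :=
  cv μ σ⁻¹ th (cc R i) (cc R j)

/-- The field `∇W - t' x` of the smoothed measure. -/
noncomputable def fld (μ : Measure (Rn n)) (σ t R : ℝ) (i : Fin n) (x : Rn n) : ℝ :=
  (σ⁻¹ - t / (1 + σ * t)) * x i - σ⁻¹ * ex μ σ⁻¹ (σ⁻¹ • x) (cc R i)

/-- Its derivative. -/
noncomputable def dfld (μ : Measure (Rn n)) (σ t R : ℝ) (i j : Fin n) (x : Rn n) : ℝ :=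
  (σ⁻¹ - t / (1 + σ * t)) * (if i = j then 1 else 0) - σ⁻¹ ^ 2 * ccov μ σ R i j (σ⁻¹ • x)

lemma c1b_comp_smul {f : Rn n → ℝ} {M : ℝ} (hf : C1B M f) (c : ℝ) :
    C1B (|c| * M) fun x => f (c • x) := by
  refine ⟨hf.1.comp (contDiff_const_smul c), fun x => ?_⟩
  have h : HasFDerivAt (fun y : Rn n => f (c • y))
      ((fderiv ℝ f (c • x)).comp (c • ContinuousLinearMap.id ℝ (Rn n))) x :=
    (hf.1.differentiable one_ne_zero (c • x)).hasFDerivAt.comp x ((hasFDerivAt_id x).const_smul c)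
  rw [h.fderiv, ContinuousLinearMap.comp_smul, ContinuousLinearMap.comp_id, norm_smul,
    Real.norm_eq_abs]
  exact mul_le_mul_of_nonneg_left (hf.2 _) (abs_nonneg _)

lemma fderiv_comp_smul {f : Rn n → ℝ} (hf : ContDiff ℝ 1 f) (c : ℝ) (x w : Rn n) :
    fderiv ℝ (fun y => f (c • y)) x w = c * fderiv ℝ f (c • x) w := by
  have h : HasFDerivAt (fun y : Rn n => f (c • y))
      ((fderiv ℝ f (c • x)).comp (c • ContinuousLinearMap.id ℝ (Rn n))) x :=
    (hf.differentiable one_ne_zero (c • x)).hasFDerivAt.comp x ((hasFDerivAt_id x).const_smul c)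
  rw [h.fderiv]
  simp

lemma fderiv_coord (i : Fin n) (x w : Rn n) : fderiv ℝ (fun y : Rn n => y i) x w = w i := by
  rw [show (fun y : Rn n => y i) = (EuclideanSpace.proj i : Rn n →L[ℝ] ℝ) from rfl,
    ContinuousLinearMap.fderiv]
  rfl

lemma contDiff_coord (i : Fin n) : ContDiff ℝ 1 (fun y : Rn n => y i) :=
  (EuclideanSpace.proj i : Rn n →L[ℝ] ℝ).contDiff

lemma norm_fderiv_coord (i : Fin n) (x : Rn n) : ‖fderiv ℝ (fun y : Rn n => y i) x‖ ≤ 1 := by
  refine ContinuousLinearMap.opNorm_le_bound _ zero_le_one fun w => ?_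
  rw [fderiv_coord, one_mul]
  exact PiLp.norm_apply_le w i

lemma c1b_add {f g : Rn n → ℝ} {A B : ℝ} (hf : C1B A f) (hg : C1B B g) :
    C1B (A + B) fun x => f x + g x := by
  refine ⟨hf.1.add hg.1, fun x => ?_⟩
  rw [fderiv_fun_add (hf.1.differentiable one_ne_zero x) (hg.1.differentiable one_ne_zero x)]
  exact (norm_add_le _ _).trans (add_le_add (hf.2 x) (hg.2 x))

lemma c1b_smul {f : Rn n → ℝ} {A : ℝ} (hf : C1B A f) (c : ℝ) :
    C1B (|c| * A) fun x => c * f x := by
  refine ⟨contDiff_const.mul hf.1, fun x => ?_⟩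
  rw [fderiv_const_mul (hf.1.differentiable one_ne_zero x), norm_smul, Real.norm_eq_abs]
  exact mul_le_mul_of_nonneg_left (hf.2 x) (abs_nonneg _)

lemma c1b_mul {f g : Rn n → ℝ} {A B P Q : ℝ} (hf : C1B A f) (hg : C1B B g)
    (hP : ∀ x, |f x| ≤ P) (hQ : ∀ x, |g x| ≤ Q) : C1B (P * B + Q * A) fun x => f x * g x := by
  refine ⟨hf.1.mul hg.1, fun x => ?_⟩
  rw [fderiv_fun_mul (hf.1.differentiable one_ne_zero x) (hg.1.differentiable one_ne_zero x)]
  refine (norm_add_le _ _).trans (add_le_add ?_ ?_) <;> rw [norm_smul, Real.norm_eq_abs]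
  · exact mul_le_mul (hP x) (hg.2 x) (norm_nonneg _) ((abs_nonneg _).trans (hP x))
  · exact mul_le_mul (hQ x) (hf.2 x) (norm_nonneg _) ((abs_nonneg _).trans (hQ x))

lemma contDiff_exb (hσ : 0 < σ) (hR0 : 0 ≤ R) (i : Fin n) :
    ContDiff ℝ 1 fun th => ex μ σ⁻¹ th (cc R i) :=
  contDiff_ex (inv_pos.2 hσ) (measurable_cc R i) (abs_cc_le hR0 i)

lemma fld_deriv (hσ : 0 < σ) (hR0 : 0 ≤ R) (hR : ∀ᵐ x ∂μ, ‖x‖ ≤ R) (i j : Fin n) (x : Rn n) :
    fderiv ℝ (fld μ σ t R i) x (unit j) = dfld μ σ t R i j x := by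
  have hb := contDiff_exb (μ := μ) hσ hR0 i
  have hb' : DifferentiableAt ℝ (fun y : Rn n => ex μ σ⁻¹ (σ⁻¹ • y) (cc R i)) x :=
    (hb.comp (contDiff_const_smul σ⁻¹)).differentiable one_ne_zero x
  have hc' := (contDiff_coord i).differentiable one_ne_zero x
  unfold fld
  rw [fderiv_fun_sub (hc'.const_mul _) (hb'.const_mul _), fderiv_const_mul hc',
    fderiv_const_mul hb']
  simp only [sub_apply, smul_apply, smul_eq_mul, fderiv_coord]
  rw [fderiv_comp_smul hb σ⁻¹ x (unit j),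
    fderiv_ex (inv_pos.2 hσ) (measurable_cc R i) (abs_cc_le hR0 i)]
  have hcj := cc_ae hR j
  have e1 : ex μ σ⁻¹ (σ⁻¹ • x) (fun y => ⟪y, unit j⟫) = ex μ σ⁻¹ (σ⁻¹ • x) (cc R j) :=
    ex_congr (hcj.mono fun y hy => by simp [hy, unit_inner]) _
  have e2 : ex μ σ⁻¹ (σ⁻¹ • x) (fun y => cc R i y * ⟪y, unit j⟫)
      = ex μ σ⁻¹ (σ⁻¹ • x) (fun y => cc R i y * cc R j y) :=
    ex_congr (hcj.mono fun y hy => by simp [hy, unit_inner]) _
  unfold dfld ccov cv
  rw [e1, e2]
  simp [unit, PiLp.single_apply]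
  ring

lemma fld_smoothF (hσ : 0 < σ) (hR0 : 0 ≤ R) (hR : ∀ᵐ x ∂μ, ‖x‖ ≤ R) (i : Fin n) :
    ∃ M, C1B M (fld μ σ t R i) := by
  have h1 : C1B 1 (fun y : Rn n => y i) := ⟨contDiff_coord i, norm_fderiv_coord i⟩
  have h2 := c1b_comp_smul
    (c1b_ex (inv_pos.2 hσ) hR (measurable_cc R i) (abs_cc_le hR0 i)) σ⁻¹
  have h3 := c1b_add (c1b_smul h1 (σ⁻¹ - t / (1 + σ * t))) (c1b_smul h2 (-σ⁻¹))
  have e : fld μ σ t R i = fun y => (σ⁻¹ - t / (1 + σ * t)) * y i
      + -σ⁻¹ * ex μ σ⁻¹ (σ⁻¹ • y) (cc R i) := funext fun y => by unfold fld; ring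
  exact ⟨_, e ▸ h3⟩

lemma fld_smooth (hσ : 0 < σ) (hR0 : 0 ≤ R) (hR : ∀ᵐ x ∂μ, ‖x‖ ≤ R) :
    ∃ L, ∀ i j, C1B L (dfld μ σ t R i j) ∧ ∀ x, |dfld μ σ t R i j x| ≤ L := by
  have hs : (0 : ℝ) < σ⁻¹ := inv_pos.2 hσ
  set a := |σ⁻¹ - t / (1 + σ * t)|
  refine ⟨σ⁻¹ ^ 2 * (σ⁻¹ * (2 * (R * R) * R + (R * (2 * R * R) + R * (2 * R * R))))
      + (a + σ⁻¹ ^ 2 * (R * R + R * R)), fun i j => ?_⟩
  have hm := fun k => measurable_cc (n := n) R k
  have hb := fun k => abs_cc_le (n := n) hR0 k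
  have hij : ∀ y, |cc R i y * cc R j y| ≤ R * R := fun y => by
    rw [abs_mul]; exact mul_le_mul (hb i y) (hb j y) (abs_nonneg _) hR0
  have hE := c1b_ex (μ := μ) (g := fun y => cc R i y * cc R j y) hs hR ((hm i).mul (hm j)) hij
  have hi := c1b_ex (μ := μ) hs hR (hm i) (hb i)
  have hj := c1b_ex (μ := μ) hs hR (hm j) (hb j)
  have hC : C1B (2 * (R * R) * R + (R * (2 * R * R) + R * (2 * R * R)))
      (ccov μ σ R i j) := by
    have := c1b_add hE (c1b_smul (c1b_mul hi hj (abs_ex_le hs (hb i)) (abs_ex_le hs (hb j))) (-1))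
    have e : ccov μ σ R i j = fun th => ex μ σ⁻¹ th (fun y => cc R i y * cc R j y)
        + -1 * (ex μ σ⁻¹ th (cc R i) * ex μ σ⁻¹ th (cc R j)) :=
      funext fun th => by unfold ccov cv; ring
    rw [e]
    simpa only [abs_neg, abs_one, one_mul] using this
  have hCb : ∀ th, |ccov μ σ R i j th| ≤ R * R + R * R := fun th =>
    (abs_sub _ _).trans (add_le_add (abs_ex_le hs hij th) (by
      rw [abs_mul]; exact mul_le_mul (abs_ex_le hs (hb i) th) (abs_ex_le hs (hb j) th)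
        (abs_nonneg _) hR0))
  have hK := c1b_smul (c1b_comp_smul hC σ⁻¹) (-σ⁻¹ ^ 2)
  have hc : C1B (0 : ℝ) (fun _ : Rn n => (σ⁻¹ - t / (1 + σ * t)) * (if i = j then 1 else 0)) :=
    ⟨contDiff_const, fun x => by simp⟩
  have h := c1b_add hc hK
  constructor
  · refine ⟨?_, fun x => ?_⟩
    · unfold dfld; simpa [sub_eq_add_neg] using h.1
    · have e : dfld μ σ t R i j = fun x => (σ⁻¹ - t / (1 + σ * t)) * (if i = j then 1 else 0)
          + -σ⁻¹ ^ 2 * ccov μ σ R i j (σ⁻¹ • x) := funext fun x => by unfold dfld; ring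
      rw [e]
      refine (h.2 x).trans ?_
      rw [zero_add, abs_neg, abs_of_pos (by positivity : (0 : ℝ) < σ⁻¹ ^ 2), abs_of_pos hs]
      exact le_add_of_nonneg_right (by positivity)
  · intro x
    refine le_add_of_nonneg_of_le (by positivity) ((abs_sub _ _).trans (add_le_add ?_ ?_))
    · split_ifs <;> simp [a]
    · rw [abs_mul, abs_of_pos (by positivity : (0 : ℝ) < σ⁻¹ ^ 2)]
      exact mul_le_mul_of_nonneg_left (hCb _) (by positivity)

lemma fld_pos (hσ : 0 < σ) (ht : 0 < t) (hR0 : 0 ≤ R) (hR : ∀ᵐ x ∂μ, ‖x‖ ≤ R)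
    (hP : PoincareSLC) (h : IsSLC t μ) (x : Rn n) (w : Fin n → ℝ) :
    0 ≤ ∑ i, ∑ j, w i * w j * dfld μ σ t R i j x := by
  have hs : (0 : ℝ) < σ⁻¹ := inv_pos.2 hσ
  set th := σ⁻¹ • x
  have := prob_tilt (μ := μ) hs th
  set v : Rn n := WithLp.toLp 2 w
  set l : Rn n → ℝ := fun y => ∑ i, w i * cc R i y
  have hae : (fun y : Rn n => ⟪y, v⟫) =ᵐ[tilt μ σ⁻¹ th] l := by
    refine (tilted_absolutelyContinuous μ _).ae_eq ?_
    filter_upwards [eventually_countable_forall.2 fun i => cc_ae hR i] with y hy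
    simp only [l, hy, PiLp.inner_apply, v]
    simp
  have hv := ((post_of hP ht.le hs h).lin hs th v).2.2
  have hbm : ∀ i, BM (cc (n := n) R i) := fun i => ⟨measurable_cc R i, R, abs_cc_le hR0 i⟩
  have hint : ∀ i, Integrable (cc R i) (tilt μ σ⁻¹ th) := fun i => (hbm i).integrable
  have e : vr (tilt μ σ⁻¹ th) (fun y => ⟪y, v⟫) = ∑ i, ∑ j, w i * w j * ccov μ σ R i j th := by
    have hm : ∫ y, ⟪y, v⟫ ∂tilt μ σ⁻¹ th = ∑ i, w i * ex μ σ⁻¹ th (cc R i) := by
      rw [integral_congr_ae hae, integral_finsetSum _ fun i _ => (hint i).const_mul _]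
      simp only [integral_const_mul, integral_tilt]
    have h2 : ∀ i j, Integrable (fun y => w i * w j * (cc R i y * cc R j y)) (tilt μ σ⁻¹ th) :=
      fun i j => ((hbm i).mul (hbm j)).integrable.const_mul _
    have hsq : ∫ y, ⟪y, v⟫ ^ 2 ∂tilt μ σ⁻¹ th
        = ∑ i, ∑ j, w i * w j * ex μ σ⁻¹ th (fun y => cc R i y * cc R j y) := by
      calc ∫ y, ⟪y, v⟫ ^ 2 ∂tilt μ σ⁻¹ th
          = ∫ y, ∑ i, ∑ j, w i * w j * (cc R i y * cc R j y) ∂tilt μ σ⁻¹ th := by
            refine integral_congr_ae (hae.mono fun y hy => ?_)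
            simp only [hy, l, sq, Finset.sum_mul_sum]
            exact Finset.sum_congr rfl fun i _ => Finset.sum_congr rfl fun j _ => by ring
        _ = _ := by
            rw [integral_finsetSum _ fun i _ => integrable_finsetSum _ fun j _ => h2 i j]
            refine Finset.sum_congr rfl fun i _ => ?_
            rw [integral_finsetSum _ fun j _ => h2 i j]
            simp only [integral_const_mul, integral_tilt]
    obtain ⟨i1, i2, -⟩ := (post_of hP ht.le hs h).lin hs th v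
    rw [vr_eq i1 i2, hm, hsq, sq, Finset.sum_mul_sum, ← Finset.sum_sub_distrib]
    refine Finset.sum_congr rfl fun i _ => ?_
    rw [← Finset.sum_sub_distrib]
    refine Finset.sum_congr rfl fun j _ => ?_
    simp only [ccov, cv]
    ring
  have hw : ‖v‖ ^ 2 = ∑ i, w i ^ 2 := by simp [v, EuclideanSpace.real_norm_sq_eq]
  have hsum : ∑ i, ∑ j, w i * w j * dfld μ σ t R i j x
      = (σ⁻¹ - t / (1 + σ * t)) * ∑ i, w i ^ 2
        - σ⁻¹ ^ 2 * vr (tilt μ σ⁻¹ th) (fun y => ⟪y, v⟫) := by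
    rw [e, Finset.mul_sum, Finset.mul_sum, ← Finset.sum_sub_distrib]
    refine Finset.sum_congr rfl fun i _ => ?_
    simp only [dfld, mul_sub, Finset.sum_sub_distrib, Finset.mul_sum, mul_ite, mul_one, mul_zero,
      Finset.sum_ite_eq, Finset.mem_univ, if_true]
    refine congrArg₂ _ (by ring) (Finset.sum_congr rfl fun j _ => by ring)
  rw [hsum, ← hw]
  have hk : σ⁻¹ ^ 2 * (‖v‖ ^ 2 / (σ⁻¹ + t)) = (σ⁻¹ - t / (1 + σ * t)) * ‖v‖ ^ 2 := by
    have : 1 + σ * t ≠ 0 := by positivity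
    field_simp
    ring
  have := mul_le_mul_of_nonneg_left hv (sq_nonneg σ⁻¹)
  linarith

lemma fld_ibp (hσ : 0 < σ) (hR0 : 0 ≤ R) (hR : ∀ᵐ x ∂μ, ‖x‖ ≤ R) (hs : 0 < s) (th : Rn n)
    (i : Fin n) (φ : Rn n → ℝ) {M B : ℝ} (hφ : C1B M φ) (hB : ∀ x, |φ x| ≤ B) :
    ∫ x, fderiv ℝ φ x (unit i) * Real.exp (texp s th x) ∂smeas σ μ
      = ∫ x, φ x * (fld μ σ t R i x + (t / (1 + σ * t) + s) * x i - th i)
          * Real.exp (texp s th x) ∂smeas σ μ := by
  set e : Rn n → ℝ := fun x => Real.exp (texp s th x) with he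
  set ψ : Rn n → ℝ := fun x => φ x * e x with hψ
  set K := Real.exp (‖th‖ ^ 2 / s)
  set K₁ := (1 + 4 / s) * K
  set r := Real.sqrt σ with hr
  have hr0 : 0 < r := Real.sqrt_pos.2 hσ
  have hM := hφ.nonneg
  have hB0 : 0 ≤ B := (abs_nonneg _).trans (hB 0)
  have hec : ContDiff ℝ 1 e := by
    refine ContDiff.exp ?_
    exact (contDiff_const.inner ℝ contDiff_id).sub (contDiff_const.mul (contDiff_norm_sq ℝ))
  have he0 : ∀ x, |e x| ≤ K := fun x => by
    rw [abs_of_pos (Real.exp_pos _)]; exact exp_texp_le hs th x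
  have he1 : ∀ x : Rn n, |x i * e x| ≤ K₁ := fun x => by
    rw [abs_mul, abs_of_pos (Real.exp_pos (texp s th x))]
    exact (mul_le_mul_of_nonneg_right ((Real.norm_eq_abs _).symm.trans_le (PiLp.norm_apply_le x i))
      (Real.exp_pos _).le).trans (norm_mul_exp_le hs th x)
  have hde : ∀ x, HasFDerivAt e (e x • (innerSL ℝ th - s • innerSL ℝ x)) x := by
    intro x
    have h1 : HasFDerivAt (texp s th) (innerSL ℝ th - s • innerSL ℝ x) x := by
      have ha := ((innerSL ℝ th).hasFDerivAt (x := x)).sub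
        ((hasStrictFDerivAt_norm_sq x).hasFDerivAt.const_mul (s / 2))
      refine (ha.congr_of_eventuallyEq (Eventually.of_forall fun y => ?_)).congr_fderiv ?_
      · simp [texp]
      · ext w; simp; ring
    exact h1.exp
  have hψc : ContDiff ℝ 1 ψ := hφ.1.mul hec
  have hψb : ∀ x, |ψ x| ≤ B * K := fun x => by
    rw [abs_mul]; exact mul_le_mul (hB x) (he0 x) (abs_nonneg _) hB0
  have hψd : ∀ x, HasFDerivAt ψ
      (φ x • (e x • (innerSL ℝ th - s • innerSL ℝ x)) + e x • fderiv ℝ φ x) x := fun x =>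
    (hφ.1.differentiable one_ne_zero x).hasFDerivAt.mul (hde x)
  have hψi : ∀ x, fderiv ℝ ψ x (unit i)
      = fderiv ℝ φ x (unit i) * e x + φ x * e x * (th i - s * x i) := fun x => by
    rw [(hψd x).fderiv]
    simp [unit, EuclideanSpace.inner_single_right]
    ring
  have hψn : ∀ x, ‖fderiv ℝ ψ x‖ ≤ B * (K * ‖th‖ + s * K₁) + K * M := by
    intro x
    rw [(hψd x).fderiv]
    refine (norm_add_le _ _).trans (add_le_add ?_ ?_)
    · rw [norm_smul, Real.norm_eq_abs]
      refine mul_le_mul (hB x) ?_ (norm_nonneg _) hB0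
      rw [norm_smul, Real.norm_eq_abs]
      refine (mul_le_mul_of_nonneg_left (norm_sub_le _ _) (abs_nonneg _)).trans ?_
      rw [mul_add, innerSL_apply_norm, norm_smul, innerSL_apply_norm, Real.norm_eq_abs,
        abs_of_pos hs, mul_left_comm]
      refine add_le_add (mul_le_mul_of_nonneg_right (he0 x) (norm_nonneg _))
        (mul_le_mul_of_nonneg_left ?_ hs.le)
      rw [abs_of_pos (Real.exp_pos _), mul_comm]
      exact norm_mul_exp_le hs th x
    · rw [norm_smul, Real.norm_eq_abs]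
      exact mul_le_mul (he0 x) (hφ.2 x) (norm_nonneg _) (Real.exp_pos _).le
  have hψm := hψc.continuous
  have hφm := hφ.1.continuous
  have hem := hec.continuous
  have hdψm : Measurable fun x => fderiv ℝ ψ x (unit i) :=
    ((hψc.continuous_fderiv one_ne_zero).clm_apply continuous_const).measurable
  have hdb : ∀ x, |fderiv ℝ ψ x (unit i)| ≤ B * (K * ‖th‖ + s * K₁) + K * M := fun x => by
    refine ((Real.norm_eq_abs _).symm.trans_le ((fderiv ℝ ψ x).le_opNorm _)).trans ?_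
    simpa [unit] using hψn x
  set b : Rn n → ℝ := fun x => ex μ σ⁻¹ (σ⁻¹ • x) (cc R i) with hb
  have hbc : Continuous b :=
    (contDiff_exb (μ := μ) hσ hR0 i).continuous.comp (continuous_const_smul σ⁻¹)
  have hbb : ∀ x, |b x| ≤ R := fun x => abs_ex_le (inv_pos.2 hσ) (abs_cc_le hR0 i) _
  have hxb : ∀ x : Rn n, |ψ x * x i| ≤ B * K₁ := fun x => by
    rw [show ψ x * x i = φ x * (x i * e x) by simp [hψ]; ring, abs_mul]
    exact mul_le_mul (hB x) (he1 x) (abs_nonneg _) hB0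
  have i1 : Integrable (fun x : Rn n => ψ x * x i) (smeas σ μ) :=
    integrable_bdd (by fun_prop) hxb
  have i2 : Integrable (fun x => ψ x * b x) (smeas σ μ) :=
    integrable_bdd (hψm.mul hbc) (M := B * K * R) fun x => by
      rw [abs_mul]; exact mul_le_mul (hψb x) (hbb x) (abs_nonneg _) (by positivity)
  -- Gaussian integration by parts in the noise
  have hz : ∀ x, ∫ z, ψ (x + r • z) * z i ∂gam n
      = r * ∫ z, fderiv ℝ ψ (x + r • z) (unit i) ∂gam n := by
    intro x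
    have hg : ∀ z : Rn n, HasFDerivAt (fun z => ψ (x + r • z))
        ((fderiv ℝ ψ (x + r • z)).comp (r • ContinuousLinearMap.id ℝ (Rn n))) z := fun z =>
      (hψc.differentiable one_ne_zero _).hasFDerivAt.comp z
        (((hasFDerivAt_id z).const_smul r).const_add x)
    have := gauss_ibp (g := fun z => ψ (x + r • z))
      (hψc.comp (contDiff_const.add (contDiff_const_smul r))) (fun z => hψb _)
      (M := r * (B * (K * ‖th‖ + s * K₁) + K * M)) (fun z => by
        rw [(hg z).fderiv, ContinuousLinearMap.comp_smul, ContinuousLinearMap.comp_id, norm_smul,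
          Real.norm_eq_abs, abs_of_pos hr0]
        exact mul_le_mul_of_nonneg_left (hψn _) hr0.le) i
    rw [← this, ← integral_const_mul]
    refine integral_congr_ae (ae_of_all _ fun z => ?_)
    simp only [(hg z).fderiv]
    simp
  have key : ∫ x, ψ x * x i ∂smeas σ μ - ∫ x, ψ x * b x ∂smeas σ μ
      = σ * ∫ x, fderiv ℝ ψ x (unit i) ∂smeas σ μ := by
    rw [integral_smeas (g := fun x => ψ x * x i) (hψm.measurable.mul (by fun_prop)) hxb,
      integral_smeas hdψm hdb, ← tower hσ hψm.measurable hψb (measurable_cc R i) (abs_cc_le hR0 i)]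
    have hzi : Integrable (fun z : Rn n => z i) (gam n) :=
      (EuclideanSpace.proj i : Rn n →L[ℝ] ℝ).integrable_comp IsGaussian.integrable_id
    have hz1 : ∀ x, Integrable (fun z => ψ (x + r • z)) (gam n) := fun x =>
      integrable_bdd (by fun_prop) fun z => hψb _
    have hz2 : ∀ x, Integrable (fun z => ψ (x + r • z) * z i) (gam n) := fun x =>
      hzi.bdd_mul (c := B * K) (hψm.comp (by fun_prop)).aestronglyMeasurable
        (ae_of_all _ fun z => by simpa using hψb _)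
    have hcont : ∀ (g : Rn n → ℝ) (G : ℝ), Continuous g → (∀ y, |g y| ≤ G) →
        Continuous fun x => ∫ z, g (x + r • z) ∂gam n := fun g G hg hG =>
      continuous_of_dominated (fun x => (hg.comp (by fun_prop)).aestronglyMeasurable)
        (fun x => ae_of_all _ fun z => by simpa using hG _) (integrable_const G)
        (ae_of_all _ fun z => hg.comp (by fun_prop))
    have j1 : Integrable (fun x => ∫ z, ψ (x + r • z) * (x + r • z) i ∂gam n) μ :=
      integrable_bdd (hcont (fun y => ψ y * y i) _ (by fun_prop) hxb) (M := B * K₁) fun x => by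
        have h : ‖∫ z, ψ (x + r • z) * (x + r • z) i ∂gam n‖ ≤ ∫ _z, B * K₁ ∂gam n :=
          norm_integral_le_of_norm_le (integrable_const _) (ae_of_all _ fun z => by rw [Real.norm_eq_abs]; exact hxb _)
        simpa using h
    have j2 : Integrable (fun x => cc R i x * ∫ z, ψ (x + r • z) ∂gam n) μ := by
      refine Integrable.of_bound ((measurable_cc R i).mul
        (hcont ψ _ hψm hψb).measurable).aestronglyMeasurable (R * (B * K)) (ae_of_all _ fun x => ?_)
      rw [Real.norm_eq_abs, abs_mul]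
      refine mul_le_mul (abs_cc_le hR0 i x) ?_ (abs_nonneg _) hR0
      have h : ‖∫ z, ψ (x + r • z) ∂gam n‖ ≤ ∫ _z, B * K ∂gam n :=
        norm_integral_le_of_norm_le (integrable_const _) (ae_of_all _ fun z => by simpa using hψb _)
      simpa using h
    rw [← integral_sub j1 j2, ← integral_const_mul]
    refine integral_congr_ae ((cc_ae hR i).mono fun x hx => ?_)
    simp only [hx]
    have e1 : ∀ z : Rn n, ψ (x + r • z) * (x + r • z) i
        = x i * ψ (x + r • z) + r * (ψ (x + r • z) * z i) := fun z => by simp; ring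
    simp only [e1]
    rw [integral_add ((hz1 x).const_mul _) ((hz2 x).const_mul _), integral_const_mul,
      integral_const_mul, hz x, ← mul_assoc r r, ← sq, Real.sq_sqrt hσ.le]
    ring
  have iψ : Integrable (fun x => φ x * e x * (th i - s * x i)) (smeas σ μ) := by
    refine integrable_bdd (by fun_prop) (M := B * (K * ‖th‖ + s * K₁)) fun x => ?_
    rw [mul_assoc, abs_mul]
    refine mul_le_mul (hB x) ?_ (abs_nonneg _) hB0
    rw [mul_sub]
    refine (abs_sub _ _).trans (add_le_add ?_ ?_)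
    · rw [abs_mul]
      exact mul_le_mul (he0 x) ((Real.norm_eq_abs _).symm.trans_le (PiLp.norm_apply_le th i))
        (abs_nonneg _) (Real.exp_pos _).le
    · rw [show e x * (s * x i) = s * (x i * e x) by ring, abs_mul, abs_of_pos hs]
      exact mul_le_mul_of_nonneg_left (he1 x) hs.le
  have idφ : Integrable (fun x => fderiv ℝ φ x (unit i) * e x) (smeas σ μ) := by
    refine integrable_bdd (((hφ.1.continuous_fderiv one_ne_zero).clm_apply continuous_const).mul
      hec.continuous) (M := M * K) fun x => ?_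
    rw [abs_mul]
    refine mul_le_mul ?_ (he0 x) (abs_nonneg _) hM
    refine ((Real.norm_eq_abs _).symm.trans_le ((fderiv ℝ φ x).le_opNorm _)).trans ?_
    simpa [unit] using hφ.2 x
  have lhs : ∫ x, fderiv ℝ ψ x (unit i) ∂smeas σ μ
      = (∫ x, fderiv ℝ φ x (unit i) * e x ∂smeas σ μ)
        + ∫ x, φ x * e x * (th i - s * x i) ∂smeas σ μ := by
    simp only [hψi]
    exact integral_add idφ iψ
  calc ∫ x, fderiv ℝ φ x (unit i) * e x ∂smeas σ μ
      = σ⁻¹ * (∫ x, ψ x * x i ∂smeas σ μ - ∫ x, ψ x * b x ∂smeas σ μ)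
          - ∫ x, φ x * e x * (th i - s * x i) ∂smeas σ μ := by
        rw [key, ← mul_assoc, inv_mul_cancel₀ hσ.ne', one_mul, lhs]; ring
    _ = ∫ x, (σ⁻¹ * (ψ x * x i - ψ x * b x) - φ x * e x * (th i - s * x i)) ∂smeas σ μ := by
        rw [integral_sub (by exact (i1.sub i2).const_mul _) iψ, integral_const_mul, integral_sub i1 i2]
    _ = _ := by
        refine integral_congr_ae (ae_of_all _ fun x => ?_)
        simp only [fld, hψ, hb, he]
        ring

lemma nice_smeas (hσ : 0 < σ) (ht : 0 < t) (hR0 : 0 ≤ R) (hR : ∀ᵐ x ∂μ, ‖x‖ ≤ R)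
    (hP : PoincareSLC) (h : IsSLC t μ) :
    ∃ L, Nice (smeas σ μ) (t / (1 + σ * t)) (fld μ σ t R) (dfld μ σ t R) L := by
  obtain ⟨L, hL⟩ := fld_smooth (μ := μ) (t := t) hσ hR0 hR
  exact ⟨L, {
    deriv := fld_deriv hσ hR0 hR
    smoothF := fld_smoothF hσ hR0 hR
    smooth := fun i j => (hL i j).1
    bdd := fun i j => ⟨L, (hL i j).2⟩
    pos := fld_pos hσ ht hR0 hR hP h
    ibp := fun _ th i φ _ _ hs hφ hB => fld_ibp hσ hR0 hR hs th i φ hφ hB }⟩

/-- `ImprovedPoincare`, from the nice case. -/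
theorem improvedPoincare_of (hN : NicePoinc) (hP : PoincareSLC) : ImprovedPoincare := by
  intro n t lam μ hμ ht hlam hslc hb hvar f hf
  obtain ⟨R, hR⟩ := hb
  obtain ⟨x₀, hx₀⟩ := hR.exists
  have hR0 : 0 ≤ R := (norm_nonneg x₀).trans hx₀
  set e : ℕ → ℝ := fun k => 1 / (k + 1) with he
  have hpos : ∀ k, 0 < e k := fun k => by positivity
  have he0 : Tendsto e atTop (𝓝 0) := tendsto_one_div_add_atTop_nhds_zero_nat
  have hlimg : ∀ (g : Rn n → ℝ) (G : ℝ), Continuous g → (∀ x, |g x| ≤ G) →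
      Tendsto (fun k => ∫ x, g x ∂smeas (e k) μ) atTop (𝓝 (∫ x, g x ∂μ)) := by
    intro g G hg hG
    have hsm : ∀ k, ∫ x, g x ∂smeas (e k) μ
        = ∫ p, g (p.1 + Real.sqrt (e k) • p.2) ∂μ.prod (gam n) := fun k => by
      rw [smeas, integral_map (by fun_prop) hg.aestronglyMeasurable]
    simp only [hsm]
    have hfst : ∫ x, g x ∂μ = ∫ p, g p.1 ∂μ.prod (gam n) := by
      rw [integral_fun_fst g]; simp
    rw [hfst]
    refine tendsto_integral_of_dominated_convergence (fun _ => G)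
      (fun k => (hg.comp (by fun_prop)).aestronglyMeasurable) (integrable_const _)
      (fun k => ae_of_all _ fun p => by simpa using hG _) (ae_of_all _ fun p => ?_)
    refine (hg.tendsto _).comp ?_
    have h0 : Tendsto (fun k => Real.sqrt (e k)) atTop (𝓝 0) := by
      exact (Real.continuous_sqrt.tendsto' 0 0 Real.sqrt_zero).comp he0
    simpa using tendsto_const_nhds.add (h0.smul_const p.2)
  obtain ⟨hfc, M, hM⟩ := hf
  have hc := hfc.continuous
  have hdc := hfc.continuous_fderiv one_ne_zero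
  have hM1 : ∀ x, |f x| ≤ M := fun x => (hM x).1
  have hM2 : ∀ x, |f x ^ 2| ≤ M ^ 2 := fun x => by
    rw [abs_pow]; exact pow_le_pow_left₀ (abs_nonneg _) (hM1 x) 2
  have hM3 : ∀ x, |‖fderiv ℝ f x‖ ^ 2| ≤ M ^ 2 := fun x => by
    rw [abs_pow, abs_norm]; exact pow_le_pow_left₀ (norm_nonneg _) (hM x).2.1 2
  have hbound : ∀ k, vr (smeas (e k) μ) f
      ≤ Real.sqrt ((lam + e k) / (t / (1 + e k * t))) * energy (smeas (e k) μ) f := by
    intro k
    obtain ⟨L, hL⟩ := nice_smeas (hpos k) ht hR0 hR hP hslc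
    exact hN n (smeas (e k) μ) inferInstance _ _ L _ _ hL (by have := hpos k; positivity)
      (by have := hpos k; positivity) (slc_smeas (hpos k) ht hslc)
      (vr_inner_smeas (hpos k) ⟨R, hR⟩ hvar) f ⟨hfc, M, hM⟩
  have hvr : Tendsto (fun k => vr (smeas (e k) μ) f) atTop (𝓝 (vr μ f)) := by
    have hi : ∀ (m : Measure (Rn n)) [IsProbabilityMeasure m], vr m f
        = ∫ x, f x ^ 2 ∂m - (∫ x, f x ∂m) ^ 2 := fun m _ =>
      vr_eq (integrable_bdd hc hM1) (integrable_bdd (hc.pow 2) hM2)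
    simp only [hi]
    exact (hlimg _ _ (hc.pow 2) hM2).sub ((hlimg _ _ hc hM1).pow 2)
  have hen : Tendsto (fun k => energy (smeas (e k) μ) f) atTop (𝓝 (energy μ f)) :=
    hlimg _ _ (hdc.norm.pow 2) hM3
  have hco : Tendsto (fun k => Real.sqrt ((lam + e k) / (t / (1 + e k * t)))) atTop
      (𝓝 (Real.sqrt (lam / t))) := by
    have := ((tendsto_const_nhds (x := lam)).add he0).div
      ((tendsto_const_nhds (x := t)).div ((tendsto_const_nhds (x := (1 : ℝ))).add
        (he0.mul_const t)) (by norm_num)) (by simp [ht.ne'])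
    simpa [Function.comp_def] using (Real.continuous_sqrt.tendsto _).comp this
  exact le_of_tendsto_of_tendsto' hvr (hco.mul hen) hbound

end Vale.Agent.P245.Imp
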