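import Vale.Agent.P245.ImpVec

/-!
# P245, M7: concentration from the Rényi comparison of `√T X + Z` with the Gaussian
-/

namespace Vale.Agent.P245.Renyi

open MeasureTheory ProbabilityTheory Filter Topology
open scoped RealInnerProductSpace ENNReal NNReal

open Vale.Agent.P309.Sharp (gaussKer gaussKer_nonneg measurable_gaussKer)

variable {n : ℕ}

/-- The standard Gaussian is `1`-strongly log-concave. -/
lemma slc_gam : IsSLC 1 (gam n) := by
  refine ⟨gaussKer, measurable_gaussKer, gaussKer_nonneg, P309.Sharp.stdGaussian_eq_withDensity,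
    fun x y l hl0 hl1 => le_of_eq ?_⟩
  have hc : (0 : ℝ) < (P309.Sharp.gaussConst (Rn n))⁻¹ := inv_pos.2 P309.Sharp.gaussConst_pos
  unfold gaussKer
  rw [Real.mul_rpow hc.le (Real.exp_pos _).le, Real.mul_rpow hc.le (Real.exp_pos _).le,
    ← Real.exp_mul, ← Real.exp_mul, mul_mul_mul_comm, ← Real.rpow_add hc, sub_add_cancel,
    Real.rpow_one, mul_assoc, ← Real.exp_add, ← Real.exp_add]
  congr 2
  have e : ‖(1 - l) • x + l • y‖ ^ 2
      = (1 - l) * ‖x‖ ^ 2 + l * ‖y‖ ^ 2 - l * (1 - l) * ‖x - y‖ ^ 2 := by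
    simp only [← real_inner_self_eq_norm_sq, inner_add_left, inner_add_right, inner_sub_left,
      inner_sub_right, real_inner_smul_left, real_inner_smul_right, real_inner_comm y x]
    ring
  rw [e]
  ring

/-- Two-sided tail of a test function for a strongly log-concave measure. -/
lemma tail_test (hM : MgfSLC) {t : ℝ} (ht : 0 < t) {ν : Measure (Rn n)} [IsProbabilityMeasure ν]
    (hν : IsSLC t ν) {f : Rn n → ℝ} (hf : Test f) (hf1 : ∀ x, ‖fderiv ℝ f x‖ ≤ 1) {u : ℝ}
    (hu : 0 ≤ u) :
    ν.real {x | u ≤ |f x - ∫ y, f y ∂ν|} ≤ 2 * Real.exp (-(t * u ^ 2) / 4) := by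
  obtain ⟨hc, M, hMb⟩ := hf
  set m := ∫ y, f y ∂ν
  have hi : ∀ s : ℝ, Integrable (fun x => Real.exp (s * (f x - m))) ν := fun s => by
    refine Integrable.of_bound (Continuous.aestronglyMeasurable (by fun_prop))
      (Real.exp (|s| * (M + |m|))) (ae_of_all _ fun x => ?_)
    rw [Real.norm_eq_abs, abs_of_pos (Real.exp_pos _), Real.exp_le_exp]
    refine (le_abs_self _).trans ?_
    rw [abs_mul]
    exact mul_le_mul_of_nonneg_left ((abs_sub _ _).trans (by linarith [(hMb x).1])) (abs_nonneg _)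
  have hmgf : ∀ s : ℝ, mgf (fun x => f x - m) ν s ≤ Real.exp (s ^ 2 / t) := fun s =>
    hM n t ν inferInstance ht hν f ⟨hc, M, hMb⟩ hf1 s
  have h1 : ν.real {x | u ≤ f x - m} ≤ Real.exp (-(t * u ^ 2) / 4) := by
    refine (measure_ge_le_exp_mul_mgf (t := t * u / 2) u (by positivity) (hi _)).trans ?_
    refine (mul_le_mul_of_nonneg_left (hmgf _) (Real.exp_pos _).le).trans (le_of_eq ?_)
    rw [← Real.exp_add]
    congr 1
    field_simp
    ring
  have h2 : ν.real {x | f x - m ≤ -u} ≤ Real.exp (-(t * u ^ 2) / 4) := by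
    refine (measure_le_le_exp_mul_mgf (t := -(t * u / 2)) (-u)
      (by rw [neg_nonpos]; positivity) (hi _)).trans ?_
    refine (mul_le_mul_of_nonneg_left (hmgf _) (Real.exp_pos _).le).trans (le_of_eq ?_)
    rw [← Real.exp_add]
    congr 1
    field_simp
    ring
  refine (measureReal_mono ?_).trans ((measureReal_union_le {x | u ≤ f x - m}
    {x | f x - m ≤ -u}).trans (by linarith))
  intro x hx
  rcases le_abs.1 (show u ≤ |f x - m| from hx) with h | h
  · exact Or.inl h
  · exact Or.inr (show f x - m ≤ -u by linarith)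

/-- Gaussian concentration of bounded Lipschitz functions. -/
lemma gauss_conc (hA : TestApprox) (hM : MgfSLC) {h : Rn n → ℝ} (hl : LipschitzWith 1 h) {B : ℝ}
    (hB : ∀ z, |h z| ≤ B) {u : ℝ} (hu : 0 ≤ u) :
    (gam n).real {z | u ≤ |h z - ∫ y, h y ∂gam n|} ≤ 2 * Real.exp (-(u ^ 2) / 16) := by
  rcases eq_or_lt_of_le hu with h0 | h0
  · have : (gam n).real {z | u ≤ |h z - ∫ y, h y ∂gam n|} ≤ 1 := measureReal_le_one
    rw [← h0] at this ⊢
    simp at this ⊢
  obtain ⟨g, hg, hg1, hgh⟩ := hA n h B hl hB (u / 4) (by linarith)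
  have hgi : Integrable g (gam n) := by
    obtain ⟨hgc, M, hMg⟩ := hg
    exact Integrable.of_bound hgc.continuous.aestronglyMeasurable M
      (ae_of_all _ fun z => (hMg z).1)
  have hhi : Integrable h (gam n) :=
    Integrable.of_bound hl.continuous.aestronglyMeasurable B (ae_of_all _ hB)
  have hm : |∫ y, g y ∂gam n - ∫ y, h y ∂gam n| ≤ u / 4 := by
    rw [← integral_sub hgi hhi, ← Real.norm_eq_abs]
    exact (norm_integral_le_of_norm_le_const (C := u / 4) (ae_of_all _ fun z => hgh z)).trans_eq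
      (by simp)
  refine (measureReal_mono ?_).trans
    ((tail_test hM one_pos slc_gam hg hg1 (u := u / 2) (by linarith)).trans (le_of_eq ?_))
  · intro z hz
    show u / 2 ≤ _
    have := show u ≤ |h z - ∫ y, h y ∂gam n| from hz
    have h1 := abs_le.1 (hgh z)
    have h2 := abs_le.1 hm
    rcases le_abs.1 this with h3 | h3
    · exact le_trans (by linarith) (le_abs_self _)
    · exact le_trans (by linarith) (neg_le_abs _)
  · ring_nf

variable {μ : Measure (Rn n)} [IsProbabilityMeasure μ]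

omit [IsProbabilityMeasure μ] in
/-- Subgaussian exponential moments. -/
lemma lint_exp_inner [IsProbabilityMeasure μ] (hS : SubG μ) (w : Rn n) :
    ∫⁻ x, ENNReal.ofReal (Real.exp ⟪x, w⟫) ∂μ ≤ ENNReal.ofReal (4 * Real.exp (‖w‖ ^ 2 / 4)) := by
  rcases eq_or_ne w 0 with rfl | hw
  · simp
  set v : Rn n := ‖w‖⁻¹ • w
  have hw0 : 0 < ‖w‖ := norm_pos_iff.2 hw
  have hv : ‖v‖ = 1 := by rw [norm_smul, norm_inv, norm_norm, inv_mul_cancel₀ hw0.ne']
  have hp : ∀ x, Real.exp ⟪x, w⟫ ≤ Real.exp (⟪x, v⟫ ^ 2) * Real.exp (‖w‖ ^ 2 / 4) := fun x => by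
    rw [← Real.exp_add, Real.exp_le_exp]
    have : ⟪x, w⟫ = ‖w‖ * ⟪x, v⟫ := by
      simp only [v, real_inner_smul_right]
      field_simp
    rw [this]
    nlinarith [sq_nonneg (⟪x, v⟫ - ‖w‖ / 2)]
  refine (lintegral_mono fun x => ENNReal.ofReal_le_ofReal (hp x)).trans ?_
  simp_rw [ENNReal.ofReal_mul (Real.exp_pos _).le]
  rw [lintegral_mul_const' _ _ ENNReal.ofReal_ne_top, ENNReal.ofReal_mul (by norm_num : (0:ℝ) ≤ 4),
    ENNReal.ofReal_ofNat]
  exact mul_le_mul' (hS v hv) le_rfl

/-- Gaussian linearisation of a small squared norm. -/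
lemma lint_exp_sq (hS : SubG μ) {a : ℝ} (ha0 : 0 ≤ a) (ha : a ≤ 1 / 2) :
    ∫⁻ y, ENNReal.ofReal (Real.exp (a * ‖y‖ ^ 2)) ∂μ
      ≤ ENNReal.ofReal (4 * Real.exp (a * n)) := by
  set b := Real.sqrt (2 * a)
  have hb : b ^ 2 = 2 * a := Real.sq_sqrt (by linarith)
  have e : ∀ y : Rn n, ENNReal.ofReal (Real.exp (a * ‖y‖ ^ 2))
      = ∫⁻ z, ENNReal.ofReal (Real.exp ⟪b • y, z⟫) ∂gam n := fun y => by
    obtain ⟨hi, hv⟩ := mgf_inner_gam (b • y)
    rw [← ofReal_integral_eq_lintegral_ofReal hi (ae_of_all _ fun z => (Real.exp_pos _).le), hv]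
    congr 2
    rw [norm_smul, mul_pow, Real.norm_eq_abs, sq_abs, hb]
    ring
  simp only [e]
  rw [lintegral_lintegral_swap (by fun_prop)]
  refine (lintegral_mono (g := fun z => ENNReal.ofReal (4 * Real.exp (a / 2 * ‖z‖ ^ 2)))
    fun z => ?_).trans ?_
  · have := lint_exp_inner hS (b • z)
    simp only [real_inner_smul_right, norm_smul, mul_pow, Real.norm_eq_abs, sq_abs, hb] at this
    simp only [real_inner_smul_left]
    refine this.trans (le_of_eq ?_)
    ring_nf
  obtain ⟨hi, hv⟩ := mgf_sq_gam (n := n) (a := a / 2) (by linarith) (by linarith)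
  rw [← ofReal_integral_eq_lintegral_ofReal (hi.const_mul 4) (ae_of_all _ fun z => by positivity)]
  refine ENNReal.ofReal_le_ofReal ?_
  rw [integral_const_mul]
  refine mul_le_mul_of_nonneg_left (hv.trans (le_of_eq ?_)) (by norm_num)
  ring_nf

/-- Second moment of the density of the observation relative to the Gaussian. -/
lemma zt_sq (hS : SubG μ) {T : ℝ} (hT : 0 < T) (hT1 : T ≤ 1) :
    ∫⁻ z, ENNReal.ofReal (zt μ T (Real.sqrt T • z) ^ 2) ∂gam n
      ≤ ENNReal.ofReal (16 * Real.exp (T ^ 2 * n / 4)) := by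
  set A : Rn n → Rn n → ℝ≥0∞ := fun z x =>
    ENNReal.ofReal (Real.exp (texp T (Real.sqrt T • z) x)) with hA
  have hAm : Measurable (Function.uncurry A) := by
    simp only [hA]
    unfold texp
    exact Measurable.ennreal_ofReal (Continuous.measurable (by fun_prop))
  have h1 : ∀ z, ENNReal.ofReal (zt μ T (Real.sqrt T • z) ^ 2)
      = ∫⁻ x, ∫⁻ y, A z x * A z y ∂μ ∂μ := fun z => by
    have hz : zt μ T (Real.sqrt T • z) = ∫ x, Real.exp (texp T (Real.sqrt T • z) x) ∂μ := by
      simp [zt, num]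
    have e : ENNReal.ofReal (zt μ T (Real.sqrt T • z)) = ∫⁻ x, A z x ∂μ := by
      rw [hz, ofReal_integral_eq_lintegral_ofReal (Imp.integrable_exp hT _)
        (ae_of_all _ fun x => (Real.exp_pos _).le)]
    rw [ENNReal.ofReal_pow (Imp.zt_pos hT _).le, e, sq]
    have hz' : Measurable fun x => A z x := hAm.of_uncurry_left
    rw [← lintegral_mul_const _ hz']
    exact lintegral_congr fun x => (lintegral_const_mul _ hz').symm
  simp only [h1]
  rw [lintegral_lintegral_swap (by fun_prop)]
  calc ∫⁻ x, ∫⁻ z, ∫⁻ y, A z x * A z y ∂μ ∂gam n ∂μ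
      = ∫⁻ x, ∫⁻ y, ∫⁻ z, A z x * A z y ∂gam n ∂μ ∂μ :=
        lintegral_congr fun x => lintegral_lintegral_swap (by fun_prop)
    _ = ∫⁻ y, ∫⁻ x, ENNReal.ofReal (Real.exp ⟪x, T • y⟫) ∂μ ∂μ := by
        rw [lintegral_lintegral_swap (by fun_prop)]
        refine lintegral_congr fun y => lintegral_congr fun x => ?_
        obtain ⟨hi, hv⟩ := mgf_inner_gam (Real.sqrt T • (x + y))
        have e : ∀ z, A z x * A z y = ENNReal.ofReal (Real.exp (-(T / 2) * (‖x‖ ^ 2 + ‖y‖ ^ 2)))
            * ENNReal.ofReal (Real.exp ⟪Real.sqrt T • (x + y), z⟫) := fun z => by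
          simp only [hA]
          rw [← ENNReal.ofReal_mul (Real.exp_pos _).le, ← ENNReal.ofReal_mul (Real.exp_pos _).le,
            ← Real.exp_add, ← Real.exp_add]
          congr 2
          simp only [texp, real_inner_smul_left, inner_add_left, real_inner_comm x z,
            real_inner_comm y z]
          ring
        simp only [e]
        rw [lintegral_const_mul' _ _ ENNReal.ofReal_ne_top,
          ← ofReal_integral_eq_lintegral_ofReal hi (ae_of_all _ fun z => (Real.exp_pos _).le), hv,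
          ← ENNReal.ofReal_mul (Real.exp_pos _).le, ← Real.exp_add]
        congr 2
        rw [norm_smul, mul_pow, Real.norm_eq_abs, sq_abs, Real.sq_sqrt hT.le, norm_add_sq_real,
          real_inner_smul_right]
        ring
    _ ≤ ∫⁻ y, ENNReal.ofReal 4 * ENNReal.ofReal (Real.exp (T ^ 2 / 4 * ‖y‖ ^ 2)) ∂μ := by
        refine lintegral_mono fun y => (lint_exp_inner hS (T • y)).trans (le_of_eq ?_)
        rw [← ENNReal.ofReal_mul (by norm_num : (0:ℝ) ≤ 4), norm_smul, mul_pow, Real.norm_eq_abs,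
          sq_abs]
        ring_nf
    _ ≤ ENNReal.ofReal 4 * ENNReal.ofReal (4 * Real.exp (T ^ 2 / 4 * n)) := by
        rw [lintegral_const_mul' _ _ ENNReal.ofReal_ne_top]
        exact mul_le_mul' le_rfl (lint_exp_sq hS (by positivity) (by nlinarith))
    _ = _ := by
        rw [← ENNReal.ofReal_mul (by norm_num : (0:ℝ) ≤ 4)]
        ring_nf

/-- The posterior mean of a `1`-Lipschitz function is `1/T`-Lipschitz in the observation. -/
lemma ex_lip (hP : PoincareSLC) (hμ : IsSLC 0 μ) {T : ℝ} (hT : 0 < T) {f : Rn n → ℝ} (hf : Test f)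
    (hf1 : ∀ x, ‖fderiv ℝ f x‖ ≤ 1) (a b : Rn n) :
    |ex μ T a f - ex μ T b f| ≤ T⁻¹ * ‖a - b‖ := by
  obtain ⟨hc, M, hM⟩ := id hf
  have hfb : Imp.BM f := ⟨hc.continuous.measurable, M, fun x => (hM x).1⟩
  have hp : Imp.Post μ T (T + 0) := Imp.post_of hP le_rfl hT hμ
  rw [add_zero] at hp
  have hD : ∀ th, Imp.Dv μ T f th ≤ T⁻¹ := fun th => by
    have := Imp.prob_tilt (μ := μ) hT th
    refine (hp.poinc th f hf).trans (mul_le_of_le_one_right (inv_nonneg.2 hT.le) ?_)
    unfold energy
    have h1 : ‖∫ x, ‖fderiv ℝ f x‖ ^ 2 ∂tilt μ T th‖ ≤ ∫ _x, (1:ℝ) ∂tilt μ T th :=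
      norm_integral_le_of_norm_le (integrable_const 1) (ae_of_all _ fun x => by
        rw [Real.norm_eq_abs, abs_pow, abs_norm]; exact pow_le_one₀ (norm_nonneg _) (hf1 x))
    exact (le_abs_self _).trans (h1.trans_eq (by simp))
  have hd : ∀ th, ‖fderiv ℝ (fun q => ex μ T q f) th‖ ≤ T⁻¹ := fun th => by
    refine ContinuousLinearMap.opNorm_le_bound _ (inv_nonneg.2 hT.le) fun w => ?_
    rw [Imp.fderiv_ex hT hfb.1 (fun x => (hM x).1), Real.norm_eq_abs, ← Real.sqrt_sq_eq_abs,
      Real.sqrt_le_left (by positivity)]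
    refine (hp.cov_sq hT hfb th w).trans ?_
    refine (mul_le_mul_of_nonneg_right (hD th) (by positivity)).trans (le_of_eq ?_)
    field_simp
  have := Convex.norm_image_sub_le_of_norm_fderiv_le
    (fun z _ => (Imp.contDiff_ex hT hfb.1 fun x => (hM x).1).differentiable one_ne_zero z)
    (fun z _ => hd z) convex_univ (Set.mem_univ b) (Set.mem_univ a)
  exact this

/-- An event on which `f` is `u`-away from its posterior mean unless the observation is
atypical has small probability. -/
lemma event_le (hA : TestApprox) (hM : MgfSLC) (hP : PoincareSLC) (hMix : Mixture)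
    (hμ : IsSLC 0 μ) (hbdd : BddSupp μ) (hS : SubG μ) {f : Rn n → ℝ} (hf : Test f)
    (hf1 : ∀ x, ‖fderiv ℝ f x‖ ≤ 1) {T u : ℝ} (hT : 0 < T) (hT1 : T ≤ 1) (hu : 0 ≤ u)
    (hTu : T ^ 2 * n / 8 ≤ T * u ^ 2 / 64) {E : Set (Rn n)} (hE : MeasurableSet E)
    (hsub : ∀ th, |ex μ T th f - ∫ z, ex μ T (Real.sqrt T • z) f ∂gam n| < u →
      E ⊆ {x | u ≤ |f x - ex μ T th f|}) :
    μ.real E ≤ 10 * Real.exp (-(T * u ^ 2) / 64) := by
  obtain ⟨hc, M, hMb⟩ := id hf
  set g : Rn n → ℝ := fun th => ex μ T th f with hg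
  have hlip : ∀ a b, |g a - g b| ≤ T⁻¹ * ‖a - b‖ := ex_lip hP hμ hT hf hf1
  have hgb : ∀ th, |g th| ≤ M := fun th => Imp.abs_ex_le hT (fun x => (hMb x).1) th
  have hgc : Continuous g := (Imp.contDiff_ex hT hc.continuous.measurable
    fun x => (hMb x).1).continuous
  have hsT : 0 < Real.sqrt T := Real.sqrt_pos.2 hT
  set h : Rn n → ℝ := fun z => Real.sqrt T * g (Real.sqrt T • z) with hh
  have hhl : LipschitzWith 1 h := LipschitzWith.of_dist_le_mul fun a b => by
    rw [Real.dist_eq, dist_eq_norm, NNReal.coe_one, one_mul]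
    simp only [hh]
    rw [← mul_sub, abs_mul, abs_of_pos hsT]
    refine (mul_le_mul_of_nonneg_left (hlip _ _) hsT.le).trans (le_of_eq ?_)
    rw [← smul_sub, norm_smul, Real.norm_eq_abs, abs_of_pos hsT, ← mul_assoc, ← mul_assoc,
      mul_right_comm (Real.sqrt T), Real.mul_self_sqrt hT.le, mul_inv_cancel₀ hT.ne', one_mul]
  have hhb : ∀ z, |h z| ≤ Real.sqrt T * M := fun z => by
    simp only [hh]
    rw [abs_mul, abs_of_pos hsT]
    exact mul_le_mul_of_nonneg_left (hgb _) hsT.le
  set m := ∫ z, g (Real.sqrt T • z) ∂gam n with hm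
  set B : Set (Rn n) := {th | u ≤ |g th - m|} with hB
  have hBm : MeasurableSet B :=
    measurableSet_le measurable_const (hgc.measurable.sub_const m).abs
  have hG : (gam n).real {z | Real.sqrt T • z ∈ B} ≤ 2 * Real.exp (-(T * u ^ 2) / 16) := by
    have := gauss_conc hA hM hhl hhb (u := Real.sqrt T * u) (by positivity)
    rw [mul_pow, Real.sq_sqrt hT.le] at this
    refine (measureReal_mono ?_).trans this
    intro z hz
    have hz' : u ≤ |g (Real.sqrt T • z) - m| := hz
    show Real.sqrt T * u ≤ |h z - ∫ y, h y ∂gam n|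
    simp only [hh]
    rw [integral_const_mul, ← hm, ← mul_sub, abs_mul, abs_of_pos hsT]
    exact mul_le_mul_of_nonneg_left hz' hsT.le
  -- the observation
  have hobs : (obs μ T).real B ≤ 6 * Real.exp (-(T * u ^ 2) / 64) := by
    have h2 := (hMix n μ inferInstance hbdd T hT).2 (B.indicator fun _ => (1 : ℝ≥0∞))
      (measurable_const.indicator hBm)
    rw [lintegral_indicator_const hBm, one_mul] at h2
    set p := Real.exp (T ^ 2 * n / 8) with hp
    set q := Real.exp (T * u ^ 2 / 32) with hq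
    set a := 4 * p * q with ha
    have hap : 0 < a := by positivity
    set S : Set (Rn n) := {z | Real.sqrt T • z ∈ B} with hSd
    have hSm : MeasurableSet S := hBm.preimage (measurable_const_smul _)
    have hpt : ∀ z, B.indicator (fun _ => (1 : ℝ≥0∞)) (Real.sqrt T • z)
          * ENNReal.ofReal (zt μ T (Real.sqrt T • z))
        ≤ ENNReal.ofReal (a / 2) * S.indicator (fun _ => 1) z
          + ENNReal.ofReal (2 * a)⁻¹ * ENNReal.ofReal (zt μ T (Real.sqrt T • z) ^ 2) := fun z => by
      by_cases hz : z ∈ S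
      · rw [Set.indicator_of_mem hz, Set.indicator_of_mem (show Real.sqrt T • z ∈ B from hz),
          one_mul, mul_one, ← ENNReal.ofReal_mul (by positivity),
          ← ENNReal.ofReal_add (by positivity) (by positivity)]
        refine ENNReal.ofReal_le_ofReal ?_
        rw [← sub_nonneg]
        have : a / 2 + (2 * a)⁻¹ * zt μ T (Real.sqrt T • z) ^ 2 - zt μ T (Real.sqrt T • z)
            = (a - zt μ T (Real.sqrt T • z)) ^ 2 / (2 * a) := by
          field_simp; ring
        rw [this]; positivity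
      · rw [Set.indicator_of_notMem (show Real.sqrt T • z ∉ B from hz)]
        simp
    have h3 : obs μ T B ≤ ENNReal.ofReal (a / 2) * gam n S
        + ENNReal.ofReal (2 * a)⁻¹ * ENNReal.ofReal (16 * Real.exp (T ^ 2 * n / 4)) := by
      rw [h2]
      refine (lintegral_mono hpt).trans ?_
      rw [lintegral_add_left ((measurable_const.indicator hSm).const_mul _),
        lintegral_const_mul _ (measurable_const.indicator hSm),
        lintegral_const_mul' _ _ ENNReal.ofReal_ne_top, lintegral_indicator_const hSm, one_mul]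
      exact add_le_add le_rfl (mul_le_mul' le_rfl (zt_sq hS hT hT1))
    rw [← ofReal_measureReal (measure_ne_top _ S), ← ENNReal.ofReal_mul (by positivity),
      ← ENNReal.ofReal_mul (by positivity), ← ENNReal.ofReal_add (by positivity) (by positivity)]
      at h3
    refine ENNReal.toReal_le_of_le_ofReal (by positivity) (h3.trans (ENNReal.ofReal_le_ofReal ?_))
    have e1 : a / 2 * (2 * Real.exp (-(T * u ^ 2) / 16)) = 4 * (p * Real.exp (-(T * u ^ 2) / 32)) := by
      rw [ha, hq, show -(T * u ^ 2) / 32 = T * u ^ 2 / 32 + -(T * u ^ 2) / 16 by ring, Real.exp_add]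
      ring
    have e2 : (2 * a)⁻¹ * (16 * Real.exp (T ^ 2 * n / 4))
        = 2 * (p * Real.exp (-(T * u ^ 2) / 32)) := by
      rw [ha, show T ^ 2 * n / 4 = T ^ 2 * n / 8 + T ^ 2 * n / 8 by ring, Real.exp_add, ← hp,
        neg_div, Real.exp_neg, ← hq]
      field_simp
      ring
    refine (add_le_add (mul_le_mul_of_nonneg_left hG (by positivity)) le_rfl).trans ?_
    rw [e1, e2, ← add_mul, show (4 : ℝ) + 2 = 6 by norm_num, hp, ← Real.exp_add]
    refine mul_le_mul_of_nonneg_left (Real.exp_le_exp.2 ?_) (by norm_num)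
    linarith
  -- the mixture
  set G : Rn n → Rn n → ℝ := fun _ x => E.indicator (fun _ => (1 : ℝ)) x with hGd
  have hmix := (hMix n μ inferInstance hbdd T hT).1 G
    ((measurable_const.indicator hE).comp measurable_snd) fun th x => by
      simp only [hGd]; by_cases hx : x ∈ E <;> simp [hx]
  have hl : ∫ p : Rn n × Rn n, G (T • p.1 + Real.sqrt T • p.2) p.1 ∂(μ.prod (stdGaussian (Rn n)))
      = μ.real E := by
    simp only [hGd]
    rw [integral_fun_fst (fun x : Rn n => E.indicator (fun _ => (1 : ℝ)) x),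
      integral_indicator_const _ hE]
    simp
  rw [hl] at hmix
  have hpo : IsProbabilityMeasure (obs μ T) := Imp.prob_obs
  have hbm : Imp.BM fun th => ex μ T th (G th) :=
    Imp.bm_G hT ⟨measurable_const.indicator hE, 1, fun x => by by_cases hx : x ∈ E <;> simp [hx]⟩
  have hpw : ∀ th, ex μ T th (G th)
      ≤ B.indicator (fun _ => (1 : ℝ)) th + 2 * Real.exp (-(T * u ^ 2) / 4) := fun th => by
    have := Imp.prob_tilt (μ := μ) hT th
    rw [← Imp.integral_tilt, show G th = E.indicator fun _ => (1 : ℝ) from rfl,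
      integral_indicator_const _ hE, smul_eq_mul, mul_one]
    by_cases hth : th ∈ B
    · rw [Set.indicator_of_mem hth]
      exact measureReal_le_one.trans (le_add_of_nonneg_right (by positivity))
    · rw [Set.indicator_of_notMem hth, zero_add]
      refine le_trans (measureReal_mono (hsub th (lt_of_not_ge hth))) ?_
      have h4 := tail_test hM hT (ν := tilt μ T th) (by simpa using Imp.slc_tilt hT hμ th) hf hf1 hu
      rwa [Imp.integral_tilt] at h4
  rw [hmix]
  refine (integral_mono hbm.integrable (((integrable_const (1 : ℝ)).indicator hBm).add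
    (integrable_const _)) hpw).trans ?_
  simp only [Pi.add_apply]
  rw [integral_add ((integrable_const (1 : ℝ)).indicator hBm) (integrable_const _),
    integral_indicator_const _ hBm, smul_eq_mul, mul_one, integral_const, probReal_univ, one_smul]
  have : Real.exp (-(T * u ^ 2) / 4) ≤ Real.exp (-(T * u ^ 2) / 64) := by
    refine Real.exp_le_exp.2 ?_
    have : 0 ≤ T * u ^ 2 := by positivity
    linarith
  linarith [Real.exp_pos (-(T * u ^ 2) / 64)]

/-- M7. -/
theorem renyiConc (hA : TestApprox) (hM : MgfSLC) (hP : PoincareSLC) (hMix : Mixture) :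
    RenyiConc := by
  refine ⟨1 / 2 ^ 21, 20 * Real.exp 1, by norm_num, by positivity, ?_⟩
  intro n μ hpr hμ hbdd hS f hf hf1 _hf0 hmed r hr
  rw [← ofReal_measureReal (measure_ne_top μ _)]
  refine ENNReal.ofReal_le_ofReal ?_
  have hbig : ∀ {w : ℝ}, w ≤ 4 → μ.real {x | r ≤ f x}
      ≤ 20 * Real.exp 1 * Real.exp (-(1 / 2 ^ 21) * w) := fun {w} hw => by
    refine measureReal_le_one.trans ?_
    rw [mul_assoc, ← Real.exp_add]
    have : (1 : ℝ) ≤ Real.exp (1 + -(1 / 2 ^ 21) * w) := Real.one_le_exp (by linarith)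
    linarith
  rcases Nat.eq_zero_or_pos n with hn | hn
  · exact hbig ((min_le_left _ _).trans (by subst hn; simp))
  rcases lt_or_ge r 2 with hr2 | hr2
  · exact hbig ((min_le_right _ _).trans (by nlinarith))
  set u := (r - 1) / 4 with hu
  have hu0 : 0 < u := by rw [hu]; linarith
  have hnR : (0 : ℝ) < n := by exact_mod_cast hn
  set T := min (u ^ 2 / (8 * n)) 1 with hTd
  have hT : 0 < T := lt_min (by positivity) one_pos
  have hT1 : T ≤ 1 := min_le_right _ _
  have hTu : T ^ 2 * n / 8 ≤ T * u ^ 2 / 64 := by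
    have h := min_le_left (u ^ 2 / (8 * (n:ℝ))) 1
    rw [← hTd, le_div_iff₀ (by positivity)] at h
    have := mul_le_mul_of_nonneg_left h hT.le
    linarith
  have hc : Continuous f := hf.1.continuous
  set bd := 10 * Real.exp (-(T * u ^ 2) / 64) with hbd
  have key : μ.real {x | r ≤ f x} ≤ 2 * bd := by
    have h0 : 0 ≤ bd := by positivity
    rcases le_or_gt (∫ z, ex μ T (Real.sqrt T • z) f ∂gam n) (1 + 2 * u) with hm | hm
    · refine (event_le hA hM hP hMix hμ hbdd hS hf hf1 hT hT1 hu0.le hTu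
        (measurableSet_le measurable_const hc.measurable) fun th hth x hx => ?_).trans (by linarith)
      have hx' : r ≤ f x := hx
      have := abs_lt.1 hth
      show u ≤ |f x - ex μ T th f|
      refine le_trans ?_ (le_abs_self _)
      linarith
    · have hE := event_le hA hM hP hMix hμ hbdd hS hf hf1 hT hT1 hu0.le hTu
        (E := {x | f x ≤ 1}) (measurableSet_le hc.measurable measurable_const) fun th hth x hx => by
          have hx' : f x ≤ 1 := hx
          have := abs_lt.1 hth
          show u ≤ |f x - ex μ T th f|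
          refine le_trans ?_ (neg_le_abs _)
          linarith
      have hhalf : (1 : ℝ) / 2 ≤ μ.real {x | f x ≤ 1} := by
        have := ENNReal.toReal_mono (measure_ne_top μ _) hmed
        simpa [measureReal_def, one_div] using this
      exact measureReal_le_one.trans (by linarith)
  refine key.trans ?_
  have h1 : min (r ^ 4 / n) (r ^ 2) / 2 ^ 15 ≤ T * u ^ 2 := by
    rw [hTd, min_mul_of_nonneg _ _ (sq_nonneg u), one_mul, ← min_div_div_right (by norm_num)]
    have h8 : r / 8 ≤ u := by rw [hu]; linarith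
    have h2 : r ^ 2 ≤ 64 * u ^ 2 := by
      have := pow_le_pow_left₀ (by linarith) h8 2
      linarith
    refine min_le_min ?_ (by nlinarith)
    have h4 : r ^ 4 ≤ 4096 * u ^ 4 := by
      have := pow_le_pow_left₀ (sq_nonneg r) h2 2
      linarith
    calc r ^ 4 / n / 2 ^ 15 ≤ 4096 * u ^ 4 / n / 2 ^ 15 := by gcongr
      _ = u ^ 2 / (8 * n) * u ^ 2 := by field_simp; ring
  rw [hbd, show 2 * (10 * Real.exp (-(T * u ^ 2) / 64)) = 20 * Real.exp (-(T * u ^ 2) / 64) by ring,
    mul_assoc, ← Real.exp_add]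
  refine mul_le_mul_of_nonneg_left (Real.exp_le_exp.2 ?_) (by norm_num)
  linarith

end Vale.Agent.P245.Renyi
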