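import Vale.Agent.P245.SLC.Basic
import Vale.Agent.P245.ImpMain
import Vale.Agent.P245.ImpSmoothing
import Vale.Agent.P245.M5.Tail
import Vale.Agent.P245.M6.Exp
import Vale.Agent.P245.Renyi
import Vale.Agent.P245.M8.Main
import Vale.Agent.P245.M9.General

/-!
# P245: the modules put together
-/

namespace Vale.Agent.P245

/-- The cube-root bound for compactly supported normalised measures, from the basic modules. -/
theorem mainBdd_of (hLsi : LsiSLC) (hP : PoincareSLC) (hLin : LinVarSLC) (hA : TestApprox)
    (hMix : Mixture) (hE : ExCalculus) (hGen : Generator) : MainBdd :=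
  have hI : ImprovedPoincare := Imp.improvedPoincare_of (Imp.nicePoinc hP) hP
  M9.mainBdd
    (expConc tiltSLC hMix hE hGen hI hP hLin mgfSLC (spectralTail tiltSLC borellThree hE hGen hI))
    (Renyi.renyiConc hA mgfSLC hP hMix)
    (M8.lsiOfConc_of hMix tiltSLC hLsi hP hA)

end Vale.Agent.P245
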