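import Vale.Agent.P245.M2.Gen

/-!
# P245, M2: mixture, calculus of tilted expectations, generator
-/

namespace Vale.Agent.P245

open MeasureTheory ProbabilityTheory
open scoped RealInnerProductSpace ENNReal

theorem mixture : Mixture := by
  intro n μ hμ hb t ht
  refine ⟨fun H hm hH => ?_, fun F hF => M2.lintegral_obs hb ht hF⟩
  exact (M2.mixture_ae hb ht hm (C := 1) (Filter.Eventually.of_forall fun x th => hH th x)).2

theorem exCalculus : ExCalculus := by
  intro n μ hμ hb h hm hbd
  have hg : M2.Good μ h := ⟨hm.aestronglyMeasurable, hbd⟩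
  exact ⟨M2.contDiff_ex hb hg, M2.hasDerivAt_ex_coord hb hg, M2.gen_ex hb hg⟩

theorem generator : Generator := by
  intro n μ hμ hb T F hT hF
  exact M2.generator_aux hb hT hF

end Vale.Agent.P245
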