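import Vale.Agent.P245.Assembly
import Vale.Agent.P245.SLC.Lsi
import Vale.Agent.P245.SLC.Approx
import Vale.Agent.P245.Tilt

/-!
# P245: `C_LS(μ) ≤ C n^(1/3) a²` for linearly `a`-subgaussian log-concave measures
-/

namespace Vale.Agent.P245.CubeRootBound

open MeasureTheory
open scoped RealInnerProductSpace ENNReal

theorem result :
    ∃ C : ℝ, 0 < C ∧ ∀ n : ℕ, 1 ≤ n →
      ∀ ρ : EuclideanSpace ℝ (Fin n) → ℝ, Measurable ρ → (∀ x, 0 ≤ ρ x) →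
        ConcaveOn ℝ {x | 0 < ρ x} (fun x => Real.log (ρ x)) →
      ∀ μ : Measure (EuclideanSpace ℝ (Fin n)),
        μ = volume.withDensity (fun x => ENNReal.ofReal (ρ x)) → IsProbabilityMeasure μ →
      ∀ a : ℝ, 0 < a →
        (∀ v : EuclideanSpace ℝ (Fin n), ‖v‖ = 1 →
          ∫⁻ x, ENNReal.ofReal (Real.exp (⟪x, v⟫ ^ 2 / a ^ 2)) ∂μ ≤ 2) →
      ∀ f : EuclideanSpace ℝ (Fin n) → ℝ, ContDiff ℝ (⊤ : ℕ∞) f → HasCompactSupport f →
        ∫ x, f x ^ 2 * Real.log (f x ^ 2) ∂μ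
            - (∫ x, f x ^ 2 ∂μ) * Real.log (∫ x, f x ^ 2 ∂μ)
          ≤ C * (n : ℝ) ^ ((1 : ℝ) / 3) * a ^ 2 * ∫ x, ‖fderiv ℝ f x‖ ^ 2 ∂μ := by
  obtain ⟨C, hC, h⟩ := Vale.Agent.P245.M9.main_general
    (Vale.Agent.P245.mainBdd_of Vale.Agent.P245.lsiSLC Vale.Agent.P245.poincareSLC
      Vale.Agent.P245.linVarSLC Vale.Agent.P245.testApprox Vale.Agent.P245.mixture
      Vale.Agent.P245.exCalculus Vale.Agent.P245.generator)
  refine ⟨C, hC, fun n hn ρ hm h0 hc μ hμ hp a ha hS f hf hfs => ?_⟩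
  subst hμ
  exact h n hn ρ hm h0 hc hp a ha hS f (hf.of_le (by decide)) hfs

end Vale.Agent.P245.CubeRootBound
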