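import Mathlib

/-!
# P245: definitions and frozen module interfaces

Basic notions for the log-Sobolev bound `C_LS ≤ C n^(1/3) a²`, and one `Prop` per module
(`M1`, ..., `M8` of `PLAN.md`). A module proves its `Prop`; nothing here is assumed.
-/

namespace Vale.Agent.P245

open MeasureTheory ProbabilityTheory
open scoped RealInnerProductSpace ENNReal NNReal

/-- Euclidean space. -/
abbrev Rn (n : ℕ) := EuclideanSpace ℝ (Fin n)

variable {n : ℕ}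

/-- Entropy of a nonnegative function. -/
noncomputable def entropy (μ : Measure (Rn n)) (g : Rn n → ℝ) : ℝ :=
  ∫ x, g x * Real.log (g x) ∂μ - (∫ x, g x ∂μ) * Real.log (∫ x, g x ∂μ)

/-- Dirichlet energy. -/
noncomputable def energy (μ : Measure (Rn n)) (f : Rn n → ℝ) : ℝ :=
  ∫ x, ‖fderiv ℝ f x‖ ^ 2 ∂μ

/-- Variance. -/
noncomputable def vr (μ : Measure (Rn n)) (f : Rn n → ℝ) : ℝ :=
  ∫ x, (f x - ∫ y, f y ∂μ) ^ 2 ∂μ

/-- `t`-strongly log-concave: there is a density satisfying the strengthened concavity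
inequality. For `t = 0` this is log-concavity. -/
def IsSLC (t : ℝ) (μ : Measure (Rn n)) : Prop :=
  ∃ ρ : Rn n → ℝ, Measurable ρ ∧ (∀ x, 0 ≤ ρ x) ∧
    μ = volume.withDensity (fun x => ENNReal.ofReal (ρ x)) ∧
    ∀ x y : Rn n, ∀ l : ℝ, 0 < l → l < 1 →
      ρ x ^ (1 - l) * ρ y ^ l * Real.exp (t / 2 * l * (1 - l) * ‖x - y‖ ^ 2)
        ≤ ρ ((1 - l) • x + l • y)

/-- Bounded support. -/
def BddSupp (μ : Measure (Rn n)) : Prop :=
  ∃ R : ℝ, ∀ᵐ x ∂μ, ‖x‖ ≤ R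

/-- Linearly subgaussian, at scale one. -/
def SubG (μ : Measure (Rn n)) : Prop :=
  ∀ v : Rn n, ‖v‖ = 1 → ∫⁻ x, ENNReal.ofReal (Real.exp (⟪x, v⟫ ^ 2)) ∂μ ≤ 4

/-- Test functions: bounded `C¹` with bounded, Lipschitz derivative. -/
def Test (f : Rn n → ℝ) : Prop :=
  ContDiff ℝ 1 f ∧ ∃ M : ℝ, ∀ x, |f x| ≤ M ∧ ‖fderiv ℝ f x‖ ≤ M ∧
    ∀ y, ‖fderiv ℝ f x - fderiv ℝ f y‖ ≤ M * ‖x - y‖

/-! ### Tilts -/

/-- The exponent of the tilt. -/
noncomputable def texp (t : ℝ) (th x : Rn n) : ℝ := ⟪th, x⟫ - t / 2 * ‖x‖ ^ 2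

/-- Unnormalised tilted integral. -/
noncomputable def num (μ : Measure (Rn n)) (t : ℝ) (th : Rn n) (h : Rn n → ℝ) : ℝ :=
  ∫ x, h x * Real.exp (texp t th x) ∂μ

/-- Normalising constant. -/
noncomputable def zt (μ : Measure (Rn n)) (t : ℝ) (th : Rn n) : ℝ :=
  num μ t th fun _ => 1

/-- Tilted expectation. -/
noncomputable def ex (μ : Measure (Rn n)) (t : ℝ) (th : Rn n) (h : Rn n → ℝ) : ℝ :=
  num μ t th h / zt μ t th

/-- Tilted covariance. -/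
noncomputable def cv (μ : Measure (Rn n)) (t : ℝ) (th : Rn n) (f g : Rn n → ℝ) : ℝ :=
  ex μ t th (fun x => f x * g x) - ex μ t th f * ex μ t th g

/-- The tilted measure. -/
noncomputable def tilt (μ : Measure (Rn n)) (t : ℝ) (th : Rn n) : Measure (Rn n) :=
  μ.tilted (texp t th)

/-- Law of `t X + √t Z`. -/
noncomputable def obs (μ : Measure (Rn n)) (t : ℝ) : Measure (Rn n) :=
  (μ.prod (stdGaussian (Rn n))).map fun p => t • p.1 + Real.sqrt t • p.2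

/-- Unit coordinate vector. -/
noncomputable def unit (i : Fin n) : Rn n := EuclideanSpace.single i 1

/-- First derivative in coordinate `i`. -/
noncomputable def D1 (i : Fin n) (F : Rn n → ℝ) (th : Rn n) : ℝ :=
  deriv (fun s : ℝ => F (th + s • unit i)) 0

/-- Second derivative in coordinate `i`. -/
noncomputable def D2 (i : Fin n) (F : Rn n → ℝ) (th : Rn n) : ℝ :=
  deriv (fun s : ℝ => D1 i F (th + s • unit i)) 0

/-- Generator of the tilt process. -/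
noncomputable def gen (μ : Measure (Rn n)) (F : ℝ → Rn n → ℝ) (t : ℝ) (th : Rn n) : ℝ :=
  deriv (fun s => F s th) t + ∑ i, ex μ t th (fun x => x i) * D1 i (F t) th
    + 2⁻¹ * ∑ i, D2 i (F t) th

/-- `F` is `C²` with bounded derivatives up to order two on `[0,T] × ℝⁿ`. -/
def Admissible (T : ℝ) (F : ℝ → Rn n → ℝ) : Prop :=
  ContDiff ℝ 2 (Function.uncurry F) ∧ ∃ M : ℝ, ∀ t ∈ Set.Icc 0 T, ∀ th : Rn n,
    |F t th| ≤ M ∧ ‖fderiv ℝ (Function.uncurry F) (t, th)‖ ≤ M ∧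
      ∀ i, |D2 i (F t) th| ≤ M

/-! ### Module interfaces -/

/-- M1: log-Sobolev for strongly log-concave measures. -/
def LsiSLC : Prop :=
  ∀ (n : ℕ) (t : ℝ) (μ : Measure (Rn n)), IsProbabilityMeasure μ → 0 < t → IsSLC t μ →
    ∀ f, Test f → entropy μ (fun x => f x ^ 2) ≤ 2 / t * energy μ f

/-- M1: Poincaré for strongly log-concave measures. -/
def PoincareSLC : Prop :=
  ∀ (n : ℕ) (t : ℝ) (μ : Measure (Rn n)), IsProbabilityMeasure μ → 0 < t → IsSLC t μ →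
    ∀ f, Test f → vr μ f ≤ 1 / t * energy μ f

/-- M1: variances of linear forms of strongly log-concave measures. -/
def LinVarSLC : Prop :=
  ∀ (n : ℕ) (t : ℝ) (μ : Measure (Rn n)), IsProbabilityMeasure μ → 0 < t → IsSLC t μ →
    BddSupp μ → ∀ v : Rn n, vr μ (fun x => ⟪x, v⟫) ≤ 1 / t * ‖v‖ ^ 2

/-- M1: Gaussian moment generating function of Lipschitz functions. -/
def MgfSLC : Prop :=
  ∀ (n : ℕ) (t : ℝ) (μ : Measure (Rn n)), IsProbabilityMeasure μ → 0 < t → IsSLC t μ →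
    ∀ f, Test f → (∀ x, ‖fderiv ℝ f x‖ ≤ 1) → ∀ s : ℝ,
      ∫ x, Real.exp (s * (f x - ∫ y, f y ∂μ)) ∂μ ≤ Real.exp (s ^ 2 / t)

/-- M1: Borell's third-moment bound. -/
def BorellThree : Prop :=
  ∃ C : ℝ, 0 < C ∧ ∀ (n : ℕ) (μ : Measure (Rn n)), IsProbabilityMeasure μ → IsSLC 0 μ →
    BddSupp μ → ∀ (v : Rn n) (c : ℝ),
      ∫ x, |⟪x, v⟫ - c| ^ 3 ∂μ ≤ C * (∫ x, (⟪x, v⟫ - c) ^ 2 ∂μ) ^ ((3 : ℝ) / 2)

/-- M1: smooth approximation of bounded Lipschitz functions. -/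
def TestApprox : Prop :=
  ∀ (n : ℕ) (f : Rn n → ℝ) (M : ℝ), LipschitzWith 1 f → (∀ x, |f x| ≤ M) → ∀ ε > 0,
    ∃ g, Test g ∧ (∀ x, ‖fderiv ℝ g x‖ ≤ 1) ∧ ∀ x, |g x - f x| ≤ ε

/-- M1: tilting increases strong log-concavity and preserves probability. -/
def TiltSLC : Prop :=
  ∀ (n : ℕ) (t₀ t : ℝ) (th : Rn n) (μ : Measure (Rn n)), IsProbabilityMeasure μ →
    BddSupp μ → IsSLC t₀ μ →
      IsProbabilityMeasure (tilt μ t th) ∧ BddSupp (tilt μ t th) ∧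
      IsSLC (t₀ + t) (tilt μ t th) ∧ ∀ h : Rn n → ℝ, ∫ x, h x ∂(tilt μ t th) = ex μ t th h

/-- M2: joint law of `(t X + √t Z, X)` through tilts, and the density of the observation. -/
def Mixture : Prop :=
  ∀ (n : ℕ) (μ : Measure (Rn n)), IsProbabilityMeasure μ → BddSupp μ → ∀ t : ℝ, 0 < t →
    (∀ H : Rn n → Rn n → ℝ, Measurable (Function.uncurry H) → (∀ th x, |H th x| ≤ 1) →
      ∫ p, H (t • p.1 + Real.sqrt t • p.2) p.1 ∂(μ.prod (stdGaussian (Rn n)))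
        = ∫ th, ex μ t th (H th) ∂(obs μ t)) ∧
    (∀ F : Rn n → ℝ≥0∞, Measurable F →
      ∫⁻ th, F th ∂(obs μ t) = ∫⁻ z, F (Real.sqrt t • z) *
        ENNReal.ofReal (zt μ t (Real.sqrt t • z)) ∂(stdGaussian (Rn n)))

/-- M2: smoothness and derivatives of tilted expectations. -/
def ExCalculus : Prop :=
  ∀ (n : ℕ) (μ : Measure (Rn n)), IsProbabilityMeasure μ → BddSupp μ →
    ∀ h : Rn n → ℝ, Measurable h → (∃ M, ∀ᵐ x ∂μ, |h x| ≤ M) →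
      ContDiff ℝ 2 (Function.uncurry fun t th => ex μ t th h) ∧
      (∀ t th i, HasDerivAt (fun s : ℝ => ex μ t (th + s • unit i) h)
        (cv μ t th h fun x => x i) 0) ∧
      ∀ t th, gen μ (fun s q => ex μ s q h) t th = 0

/-- M2: the generator identity. -/
def Generator : Prop :=
  ∀ (n : ℕ) (μ : Measure (Rn n)), IsProbabilityMeasure μ → BddSupp μ →
    ∀ (T : ℝ) (F : ℝ → Rn n → ℝ), 0 < T → Admissible T F →
      ContinuousOn (fun t => ∫ th, F t th ∂(obs μ t)) (Set.Icc 0 T) ∧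
      ∀ t ∈ Set.Ioo 0 T, HasDerivAt (fun s => ∫ th, F s th ∂(obs μ s))
        (∫ th, gen μ F t th ∂(obs μ t)) t

/-- M3: the improved Poincaré inequality. -/
def ImprovedPoincare : Prop :=
  ∀ (n : ℕ) (t lam : ℝ) (μ : Measure (Rn n)), IsProbabilityMeasure μ → 0 < t → 0 ≤ lam →
    IsSLC t μ → BddSupp μ → (∀ v : Rn n, vr μ (fun x => ⟪x, v⟫) ≤ lam * ‖v‖ ^ 2) →
    ∀ f, Test f → vr μ f ≤ Real.sqrt (lam / t) * energy μ f

/-- M5: tilted covariances are bounded except with probability `exp (-c / t)`. -/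
def SpectralTail : Prop :=
  ∃ c K C : ℝ, 0 < c ∧ 0 < K ∧ 0 < C ∧ ∀ (n : ℕ) (μ : Measure (Rn n)),
    IsProbabilityMeasure μ → IsSLC 0 μ → BddSupp μ → SubG μ →
    ∀ t : ℝ, 0 < t → t ≤ c / (1 + Real.log (n + 1)) ^ 2 →
      obs μ t {th | ∃ v : Rn n, ‖v‖ = 1 ∧ K < cv μ t th (fun x => ⟪x, v⟫) fun x => ⟪x, v⟫}
        ≤ ENNReal.ofReal (C * Real.exp (-c / t))

/-- M6: exponential concentration with dimension-free rate. -/
def ExpConc : Prop :=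
  ∃ c C : ℝ, 0 < c ∧ 0 < C ∧ ∀ (n : ℕ) (μ : Measure (Rn n)),
    IsProbabilityMeasure μ → IsSLC 0 μ → BddSupp μ → SubG μ →
    ∀ f, Test f → (∀ x, ‖fderiv ℝ f x‖ ≤ 1) → (∀ x, 0 ≤ f x) →
      (2 : ℝ≥0∞)⁻¹ ≤ μ {x | f x ≤ 1} →
      ∀ r : ℝ, C * (1 + Real.log (n + 1)) ^ 2 ≤ r →
        μ {x | r ≤ f x} ≤ ENNReal.ofReal (C * Real.exp (-c * r))

/-- M7: concentration from the Rényi comparison with the Gaussian. -/
def RenyiConc : Prop :=
  ∃ c C : ℝ, 0 < c ∧ 0 < C ∧ ∀ (n : ℕ) (μ : Measure (Rn n)),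
    IsProbabilityMeasure μ → IsSLC 0 μ → BddSupp μ → SubG μ →
    ∀ f, Test f → (∀ x, ‖fderiv ℝ f x‖ ≤ 1) → (∀ x, 0 ≤ f x) →
      (2 : ℝ≥0∞)⁻¹ ≤ μ {x | f x ≤ 1} →
      ∀ r : ℝ, 0 ≤ r →
        μ {x | r ≤ f x} ≤ ENNReal.ofReal (C * Real.exp (-c * min (r ^ 4 / n) (r ^ 2)))

/-- M8: Gaussian concentration gives log-Sobolev for log-concave measures. -/
def LsiOfConc : Prop :=
  ∀ C₀ : ℝ, 0 < C₀ → ∃ C : ℝ, 0 < C ∧ ∀ (n : ℕ) (K : ℝ) (μ : Measure (Rn n)),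
    1 ≤ K → IsProbabilityMeasure μ → IsSLC 0 μ → BddSupp μ →
    (∀ f, Test f → (∀ x, ‖fderiv ℝ f x‖ ≤ 1) → (∀ x, 0 ≤ f x) →
      (2 : ℝ≥0∞)⁻¹ ≤ μ {x | f x ≤ 1} →
      ∀ r : ℝ, 0 ≤ r → μ {x | r ≤ f x} ≤ ENNReal.ofReal (C₀ * Real.exp (-r ^ 2 / K))) →
    ∀ f, Test f → entropy μ (fun x => f x ^ 2) ≤ C * K * energy μ f

/-- M9, compactly supported case. -/
def MainBdd : Prop :=
  ∃ C : ℝ, 0 < C ∧ ∀ (n : ℕ) (μ : Measure (Rn n)), 1 ≤ n →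
    IsProbabilityMeasure μ → IsSLC 0 μ → BddSupp μ → SubG μ →
    ∀ f, Test f → entropy μ (fun x => f x ^ 2) ≤ C * (n : ℝ) ^ ((1 : ℝ) / 3) * energy μ f

end Vale.Agent.P245
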