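import Vale.Agent.P245.Defs
import Vale.Agent.P309.Sharp.Kernel

/-!
# P245: facts on the standard Gaussian used by several modules

Translation formula, moment generating functions, and the bound `2 M |a|` for the effect of a
translation on the mean of a bounded function.
-/

namespace Vale.Agent.P245

open MeasureTheory ProbabilityTheory Filter Topology
open scoped RealInnerProductSpace ENNReal NNReal

variable {n : ℕ}

/-- Standard Gaussian on `Rn n`. -/
noncomputable abbrev gam (n : ℕ) : Measure (Rn n) := stdGaussian (Rn n)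

open Vale.Agent.P309.Sharp (gaussKer gaussKer_nonneg measurable_gaussKer)

lemma integral_gam (F : Rn n → ℝ) : ∫ z, F z ∂gam n = ∫ z, gaussKer z * F z := by
  simpa only [smul_eq_mul] using P309.Sharp.integral_stdGaussian_vec F

/-- Weight of a translation. -/
noncomputable def shiftW (a z : Rn n) : ℝ := Real.exp (⟪a, z⟫ - ‖a‖ ^ 2 / 2)

lemma gaussKer_sub (a z : Rn n) : gaussKer (z - a) = gaussKer z * shiftW a z := by
  unfold gaussKer shiftW
  rw [mul_assoc, ← Real.exp_add]
  congr 2
  rw [norm_sub_sq_real, real_inner_comm]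
  ring

/-- Translation formula. -/
lemma integral_shift (F : Rn n → ℝ) (a : Rn n) :
    ∫ z, F (z + a) ∂gam n = ∫ z, shiftW a z * F z ∂gam n := by
  rw [integral_gam, integral_gam]
  have h := integral_sub_right_eq_self (μ := (volume : Measure (Rn n)))
    (fun z => gaussKer z * F (z + a)) a
  rw [← h]
  refine integral_congr_ae (ae_of_all _ fun z => ?_)
  show gaussKer (z - a) * F (z - a + a) = gaussKer z * (shiftW a z * F z)
  rw [sub_add_cancel, gaussKer_sub, mul_assoc]

lemma integral_shiftW (a : Rn n) : ∫ z, shiftW a z ∂gam n = 1 := by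
  have h := integral_shift (fun _ => (1 : ℝ)) a
  simpa using h.symm

lemma integrable_shiftW (a : Rn n) : Integrable (shiftW a) (gam n) := by
  apply Classical.by_contradiction
  intro hc
  have h := integral_shiftW a
  rw [integral_undef hc] at h
  exact zero_ne_one h

/-- Moment generating function of a linear form. -/
lemma mgf_inner_gam (a : Rn n) :
    Integrable (fun z => Real.exp ⟪a, z⟫) (gam n) ∧
      ∫ z, Real.exp ⟪a, z⟫ ∂gam n = Real.exp (‖a‖ ^ 2 / 2) := by
  have e : ∀ z, Real.exp ⟪a, z⟫ = Real.exp (‖a‖ ^ 2 / 2) * shiftW a z := fun z => by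
    unfold shiftW; rw [← Real.exp_add]; ring_nf
  simp only [e]
  exact ⟨(integrable_shiftW a).const_mul _, by rw [integral_const_mul, integral_shiftW, mul_one]⟩

/-- Moment generating function of the squared norm. -/
lemma mgf_sq_gam {a : ℝ} (h0 : 0 ≤ a) (ha : a ≤ 1 / 4) :
    Integrable (fun z => Real.exp (a * ‖z‖ ^ 2)) (gam n) ∧
      ∫ z, Real.exp (a * ‖z‖ ^ 2) ∂gam n ≤ Real.exp (2 * a * n) := by
  obtain ⟨hi, hv⟩ := P309.Sharp.integral_exp_sq_stdGaussian (d := n) (a := a) (by linarith)
  refine ⟨hi, hv.le.trans ?_⟩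
  rw [show 2 * a * n = n * (2 * a) by ring, Real.exp_nat_mul]
  refine pow_le_pow_left₀ (Real.sqrt_nonneg _) ?_ _
  rw [Real.sqrt_le_left (Real.exp_pos _).le, sq, ← Real.exp_add]
  have h1 := Real.add_one_le_exp (2 * a + 2 * a)
  have h2 : (1 - 2 * a)⁻¹ ≤ 1 + (2 * a + 2 * a) := by
    rw [inv_eq_one_div, div_le_iff₀ (by linarith)]
    nlinarith
  linarith

lemma integral_shiftW_sub_one_sq (a : Rn n) :
    Integrable (fun z => (shiftW a z - 1) ^ 2) (gam n) ∧
      ∫ z, (shiftW a z - 1) ^ 2 ∂gam n = Real.exp (‖a‖ ^ 2) - 1 := by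
  have e : ∀ z, (shiftW a z - 1) ^ 2
      = Real.exp (‖a‖ ^ 2) * shiftW ((2 : ℝ) • a) z - 2 * shiftW a z + 1 := by
    intro z
    unfold shiftW
    rw [← Real.exp_add, norm_smul, inner_smul_left, Real.norm_eq_abs, abs_two]
    simp only [conj_trivial]
    rw [sub_sq, sq (Real.exp _), ← Real.exp_add]
    ring_nf
  simp only [e]
  have i1 := (integrable_shiftW ((2 : ℝ) • a)).const_mul (Real.exp (‖a‖ ^ 2))
  have i2 := (integrable_shiftW a).const_mul 2
  refine ⟨(i1.sub i2).add (integrable_const _), ?_⟩
  rw [integral_add (by exact i1.sub i2) (integrable_const _), integral_sub i1 i2, integral_const_mul,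
    integral_const_mul, integral_shiftW, integral_shiftW]
  simp
  ring

/-- A translation changes the mean of a bounded function by at most `2 M |a|`. -/
lemma abs_integral_shift_sub {F : Rn n → ℝ} (hF : Measurable F) {M : ℝ} (hM : ∀ z, |F z| ≤ M)
    (a : Rn n) : |∫ z, F (z + a) ∂gam n - ∫ z, F z ∂gam n| ≤ 2 * M * ‖a‖ := by
  have hM0 : 0 ≤ M := (abs_nonneg _).trans (hM 0)
  have hFi : Integrable F (gam n) :=
    Integrable.of_bound hF.aestronglyMeasurable M (ae_of_all _ fun z => by simpa using hM z)
  have hFai : Integrable (fun z => F (z + a)) (gam n) :=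
    Integrable.of_bound (hF.comp (measurable_add_const a)).aestronglyMeasurable M
      (ae_of_all _ fun z => by simpa using hM _)
  rcases le_or_gt 1 ‖a‖ with h1 | h1
  · have := (abs_sub _ _).trans (add_le_add
      ((abs_integral_le_integral_abs).trans (integral_mono hFai.abs (integrable_const M)
        fun z => hM (z + a)))
      ((abs_integral_le_integral_abs).trans (integral_mono hFi.abs (integrable_const M)
        fun z => hM z)))
    simp at this
    nlinarith
  rcases eq_or_lt_of_le (norm_nonneg a) with h0 | h0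
  · have : a = 0 := norm_eq_zero.1 h0.symm
    simp [this]
  obtain ⟨hwi, hwv⟩ := integral_shiftW_sub_one_sq a
  have hdi : Integrable (fun z => shiftW a z * F z) (gam n) :=
    (integrable_shiftW a).mul_bdd hF.aestronglyMeasurable
      (ae_of_all _ fun z => by simpa using hM z)
  rw [integral_shift, ← integral_sub hdi hFi]
  refine (abs_integral_le_integral_abs).trans ?_
  have hb : ∀ z, |shiftW a z * F z - F z|
      ≤ M * ((shiftW a z - 1) ^ 2 / (2 * ‖a‖) + ‖a‖ / 2) := by
    intro z
    rw [← sub_one_mul, abs_mul, mul_comm]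
    refine mul_le_mul (hM z) ?_ (abs_nonneg _) hM0
    rw [← sq_abs (shiftW a z - 1), div_add_div _ _ (by positivity) two_ne_zero,
      le_div_iff₀ (by positivity)]
    nlinarith [sq_nonneg (|shiftW a z - 1| - ‖a‖)]
  refine (integral_mono (hdi.sub hFi).abs
    (((hwi.div_const _).add (integrable_const _)).const_mul M) hb).trans ?_
  simp only [Pi.add_apply]
  rw [integral_const_mul, integral_add (by exact hwi.div_const _) (integrable_const _), integral_div, hwv]
  simp only [integral_const, probReal_univ, one_smul]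
  rw [mul_assoc, mul_comm 2 (M * ‖a‖), mul_assoc]
  refine mul_le_mul_of_nonneg_left ?_ hM0
  have h3 : Real.exp (‖a‖ ^ 2) - 1 ≤ 2 * ‖a‖ ^ 2 := by
    have := Real.abs_exp_sub_one_le (x := ‖a‖ ^ 2) (by rw [abs_of_nonneg (sq_nonneg _)]; nlinarith)
    rw [abs_of_nonneg (sq_nonneg ‖a‖)] at this
    linarith [le_abs_self (Real.exp (‖a‖ ^ 2) - 1)]
  rw [div_add_div _ _ (by positivity) two_ne_zero, div_le_iff₀ (by positivity)]
  nlinarith

end Vale.Agent.P245
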