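import Vale.Agent.P245.Smooth

/-!
# P245 M3: calculus of posteriors at a positive time, for arbitrary probability measures

For `s > 0` the tilt weight and its products with polynomials are bounded, so no assumption on
the support is needed.
-/

namespace Vale.Agent.P245.Imp

open MeasureTheory ProbabilityTheory Filter Topology
open scoped RealInnerProductSpace ENNReal NNReal

variable {n : ℕ} {μ : Measure (Rn n)} [IsProbabilityMeasure μ] {s : ℝ}

lemma measurable_texp (s : ℝ) (th : Rn n) : Measurable (texp s th) := by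
  unfold texp; fun_prop

lemma texp_le (hs : 0 < s) (th x : Rn n) : texp s th x ≤ ‖th‖ ^ 2 / s - s / 4 * ‖x‖ ^ 2 := by
  unfold texp
  have h1 := real_inner_le_norm th x
  have h3 : ‖th‖ * ‖x‖ ≤ ‖th‖ ^ 2 / s + s / 4 * ‖x‖ ^ 2 := by
    rw [← sub_nonneg]
    have : ‖th‖ ^ 2 / s + s / 4 * ‖x‖ ^ 2 - ‖th‖ * ‖x‖ = (‖th‖ - s / 2 * ‖x‖) ^ 2 / s := by
      field_simp; ring
    rw [this]; positivity
  linarith

lemma exp_texp_le (hs : 0 < s) (th x : Rn n) :
    Real.exp (texp s th x) ≤ Real.exp (‖th‖ ^ 2 / s) := by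
  refine Real.exp_le_exp.2 ((texp_le hs th x).trans ?_)
  have : 0 ≤ s / 4 * ‖x‖ ^ 2 := by positivity
  linarith

lemma norm_mul_exp_le (hs : 0 < s) (th x : Rn n) :
    ‖x‖ * Real.exp (texp s th x) ≤ (1 + 4 / s) * Real.exp (‖th‖ ^ 2 / s) := by
  have h1 := texp_le hs th x
  set u := s / 4 * ‖x‖ ^ 2
  have hu : 0 ≤ u := by positivity
  have h2 : ‖x‖ ≤ (1 + 4 / s) * Real.exp u := by
    have h3 : 1 + u ≤ Real.exp u := by linarith [Real.add_one_le_exp u]
    have h4 : ‖x‖ ≤ 1 + ‖x‖ ^ 2 := by nlinarith [sq_nonneg (‖x‖ - 1), norm_nonneg x]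
    have h5 : 1 + ‖x‖ ^ 2 ≤ (1 + 4 / s) * (1 + u) := by
      have : (1 + 4 / s) * (1 + u) = 1 + 4 / s + u + ‖x‖ ^ 2 := by
        simp only [u]; field_simp; ring
      have : 0 ≤ 4 / s := by positivity
      linarith
    exact h4.trans (h5.trans (mul_le_mul_of_nonneg_left h3 (by positivity)))
  calc ‖x‖ * Real.exp (texp s th x) ≤ (1 + 4 / s) * Real.exp u * Real.exp (‖th‖ ^ 2 / s - u) :=
        mul_le_mul h2 (Real.exp_le_exp.2 h1) (Real.exp_pos _).le (by positivity)
    _ = _ := by rw [mul_assoc, ← Real.exp_add]; ring_nf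

lemma integrable_exp (hs : 0 < s) (th : Rn n) :
    Integrable (fun x => Real.exp (texp s th x)) μ :=
  Integrable.of_bound (measurable_texp s th).exp.aestronglyMeasurable (Real.exp (‖th‖ ^ 2 / s))
    (ae_of_all _ fun x => by
      rw [Real.norm_eq_abs, abs_of_pos (Real.exp_pos _)]; exact exp_texp_le hs th x)

lemma zt_pos (hs : 0 < s) (th : Rn n) : 0 < zt μ s th := by
  have h : zt μ s th = ∫ x, Real.exp (texp s th x) ∂μ := by simp [zt, num]
  rw [h]
  exact integral_exp_pos (integrable_exp hs th)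

lemma prob_tilt (hs : 0 < s) (th : Rn n) : IsProbabilityMeasure (tilt μ s th) :=
  isProbabilityMeasure_tilted (integrable_exp hs th)

omit [IsProbabilityMeasure μ] in
lemma integral_tilt (s : ℝ) (th : Rn n) (h : Rn n → ℝ) :
    ∫ x, h x ∂(tilt μ s th) = ex μ s th h := by
  rw [tilt, integral_tilted]
  simp only [ex, zt, num, smul_eq_mul, one_mul]
  rw [← integral_div]
  exact integral_congr_ae (ae_of_all _ fun x => by ring)

lemma integrable_tilt_iff_mul (hs : 0 < s) (th : Rn n) {h : Rn n → ℝ} :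
    Integrable h (tilt μ s th) ↔ Integrable (fun x => Real.exp (texp s th x) * h x) μ := by
  rw [tilt, integrable_tilted_iff (g := h) (f := texp s th) (μ := μ)]
  · exact Iff.rfl
  all_goals exact integrable_exp hs th

/-- Tilting a strongly log-concave measure. -/
lemma slc_tilt (hs : 0 < s) {t : ℝ} (h : IsSLC t μ) (th : Rn n) :
    IsSLC (t + s) (tilt μ s th) := by
  obtain ⟨ρ, hm, h0, hμ, hc⟩ := h
  set Z := ∫ x, Real.exp (texp s th x) ∂μ with hZ
  have hZ0 : 0 < Z := integral_exp_pos (integrable_exp hs th)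
  refine ⟨fun x => ρ x * (Real.exp (texp s th x) / Z), hm.mul ((measurable_texp s th).exp.div_const _),
    fun x => mul_nonneg (h0 x) (by positivity), ?_, ?_⟩
  · calc tilt μ s th = (volume.withDensity fun x => ENNReal.ofReal (ρ x)).withDensity
          (fun x => ENNReal.ofReal (Real.exp (texp s th x) / Z)) := by
          rw [← hμ]; rfl
      _ = _ := by
          rw [← withDensity_mul _ hm.ennreal_ofReal
            ((measurable_texp s th).exp.div_const _).ennreal_ofReal]
          congr 1
          funext x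
          rw [Pi.mul_apply, ← ENNReal.ofReal_mul (h0 x)]
  · intro x y l hl0 hl1
    have key : texp s th ((1 - l) • x + l • y)
        = (1 - l) * texp s th x + l * texp s th y + s / 2 * l * (1 - l) * ‖x - y‖ ^ 2 := by
      unfold texp
      rw [inner_add_right, inner_smul_right, inner_smul_right, norm_add_sq_real,
        norm_sub_sq_real, inner_smul_left, inner_smul_right, norm_smul, norm_smul,
        Real.norm_eq_abs, Real.norm_eq_abs, abs_of_pos hl0, abs_of_pos (by linarith : 0 < 1 - l)]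
      simp only [conj_trivial]
      ring
    have hb := hc x y l hl0 hl1
    have hmul : ∀ (a u : ℝ) (z : Rn n), 0 ≤ a → (a * (Real.exp (texp s th z) / Z)) ^ u
        = a ^ u * (Real.exp (u * texp s th z) / Z ^ u) := fun a u z ha => by
      rw [Real.mul_rpow ha (by positivity), Real.div_rpow (Real.exp_pos _).le hZ0.le,
        ← Real.exp_mul, mul_comm u]
    rw [hmul _ _ _ (h0 x), hmul _ _ _ (h0 y)]
    have hZZ : Z ^ (1 - l) * Z ^ l = Z := by
      rw [← Real.rpow_add hZ0]; simp
    have e2 : ρ x ^ (1 - l) * (Real.exp ((1 - l) * texp s th x) / Z ^ (1 - l)) *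
        (ρ y ^ l * (Real.exp (l * texp s th y) / Z ^ l)) *
        Real.exp ((t + s) / 2 * l * (1 - l) * ‖x - y‖ ^ 2)
      = ρ x ^ (1 - l) * ρ y ^ l * Real.exp (t / 2 * l * (1 - l) * ‖x - y‖ ^ 2) *
        (Real.exp (texp s th ((1 - l) • x + l • y)) / Z) := by
      have e3 : Real.exp ((t + s) / 2 * l * (1 - l) * ‖x - y‖ ^ 2)
          = Real.exp (t / 2 * l * (1 - l) * ‖x - y‖ ^ 2) *
            Real.exp (s / 2 * l * (1 - l) * ‖x - y‖ ^ 2) := by
        rw [← Real.exp_add]; ring_nf
      rw [key, e3, Real.exp_add, Real.exp_add]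
      conv_rhs => arg 2; rw [← hZZ]
      field_simp
    rw [e2]
    exact mul_le_mul_of_nonneg_right hb (by positivity)

/-- The backward map `Q`. -/
noncomputable def Q (s : ℝ) (H : Rn n → ℝ) (x : Rn n) : ℝ :=
  ∫ z, H (s • x + Real.sqrt s • z) ∂gam n

lemma abs_Q_le {H : Rn n → ℝ} {M : ℝ} (hM : ∀ z, |H z| ≤ M) (x : Rn n) : |Q s H x| ≤ M := by
  have : ‖∫ z, H (s • x + Real.sqrt s • z) ∂gam n‖ ≤ ∫ _z, M ∂gam n :=
    norm_integral_le_of_norm_le (integrable_const M) (ae_of_all _ fun z => by simpa using hM _)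
  simpa [Q, Real.norm_eq_abs] using this

lemma measurable_Q {H : Rn n → ℝ} (hH : Measurable H) : Measurable (Q s H) := by
  have : StronglyMeasurable (Function.uncurry fun (x : Rn n) z => H (s • x + Real.sqrt s • z)) :=
    (hH.comp (by fun_prop)).stronglyMeasurable
  exact this.integral_prod_right.measurable

lemma prob_obs : IsProbabilityMeasure (obs μ s) :=
  Measure.isProbabilityMeasure_map (by fun_prop)

lemma shiftW_sqrt (hs : 0 < s) (x z : Rn n) :
    shiftW (Real.sqrt s • x) z = Real.exp (texp s (Real.sqrt s • z) x) := by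
  unfold shiftW texp
  rw [inner_smul_left, inner_smul_left, norm_smul, mul_pow, Real.norm_eq_abs, sq_abs,
    Real.sq_sqrt hs.le, real_inner_comm x z]
  simp only [conj_trivial]
  ring_nf

lemma Q_eq (hs : 0 < s) (H : Rn n → ℝ) (x : Rn n) :
    Q s H x = ∫ z, Real.exp (texp s (Real.sqrt s • z) x) * H (Real.sqrt s • z) ∂gam n := by
  have h := integral_shift (fun z => H (Real.sqrt s • z)) (Real.sqrt s • x)
  simp only [shiftW_sqrt hs] at h
  rw [← h, Q]
  refine integral_congr_ae (ae_of_all _ fun z => ?_)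
  show H _ = H _
  rw [smul_add, smul_smul, Real.mul_self_sqrt hs.le, add_comm]

/-- `E[Φ(θ) h(X)]` computed forwards. -/
lemma integral_mul_Q (hs : 0 < s) {Φ h : Rn n → ℝ} (hΦ : Measurable Φ) {M : ℝ}
    (hM : ∀ z, |Φ z| ≤ M) (hhm : Measurable h) (hh : Integrable h μ) :
    ∫ x, h x * Q s Φ x ∂μ
      = ∫ z, Φ (Real.sqrt s • z) * num μ s (Real.sqrt s • z) h ∂gam n := by
  simp only [Q_eq hs, ← integral_const_mul]
  have hjm : Measurable fun p : Rn n × Rn n => h p.1 *
      (Real.exp (texp s (Real.sqrt s • p.2) p.1) * Φ (Real.sqrt s • p.2)) := by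
    unfold texp
    exact (hhm.comp measurable_fst).mul ((Measurable.exp (by fun_prop)).mul (hΦ.comp (by fun_prop)))
  have hint : Integrable (Function.uncurry fun x z => h x *
      (Real.exp (texp s (Real.sqrt s • z) x) * Φ (Real.sqrt s • z))) (μ.prod (gam n)) := by
    simp only [Function.uncurry_def]
    rw [integrable_prod_iff hjm.aestronglyMeasurable]
    have hb : ∀ x, Integrable (fun z => |h x| * (shiftW (Real.sqrt s • x) z * M)) (gam n) := fun x =>
      ((integrable_shiftW _).mul_const M).const_mul _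
    have hle : ∀ x z, ‖h x * (Real.exp (texp s (Real.sqrt s • z) x) * Φ (Real.sqrt s • z))‖
        ≤ |h x| * (shiftW (Real.sqrt s • x) z * M) := fun x z => by
      rw [Real.norm_eq_abs, abs_mul, abs_mul, abs_of_pos (Real.exp_pos _), shiftW_sqrt hs]
      exact mul_le_mul_of_nonneg_left (mul_le_mul_of_nonneg_left (hM _) (Real.exp_pos _).le)
        (abs_nonneg _)
    refine ⟨ae_of_all _ fun x => (hb x).mono'
      (hjm.comp measurable_prodMk_left).aestronglyMeasurable (ae_of_all _ (hle x)), ?_⟩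
    refine (hh.abs.mul_const M).mono' ?_ (ae_of_all _ fun x => ?_)
    · exact hjm.stronglyMeasurable.norm.integral_prod_right'.aestronglyMeasurable
    · have h2 := integral_mono_of_nonneg (ae_of_all _ fun z => norm_nonneg _) (hb x)
        (ae_of_all _ (hle x))
      rw [integral_const_mul, integral_mul_const, integral_shiftW, one_mul] at h2
      rw [Real.norm_eq_abs, abs_of_nonneg (integral_nonneg fun z => norm_nonneg _)]
      exact h2
  rw [integral_integral_swap hint]
  refine integral_congr_ae (ae_of_all _ fun z => ?_)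
  simp only [num]
  rw [← integral_const_mul]
  exact integral_congr_ae (ae_of_all _ fun x => by ring)

/-- Expectation of a bounded function of the observation. -/
lemma integral_obs (hs : 0 < s) {Φ : Rn n → ℝ} (hΦ : Measurable Φ) {M : ℝ}
    (hM : ∀ z, |Φ z| ≤ M) :
    ∫ th, Φ th ∂(obs μ s) = ∫ z, Φ (Real.sqrt s • z) * zt μ s (Real.sqrt s • z) ∂gam n := by
  have h := integral_mul_Q (μ := μ) hs hΦ hM (h := fun _ => 1) measurable_const (integrable_const _)
  simp only [one_mul] at h
  unfold zt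
  rw [← h, obs, integral_map (by fun_prop) hΦ.aestronglyMeasurable, integral_prod]
  · rfl
  · exact Integrable.of_bound (hΦ.comp (by fun_prop)).aestronglyMeasurable M
      (ae_of_all _ fun p => by simpa using hM _)

/-- Adjointness: `∫ h (Q Φ) dμ = ∫ Φ (ex h) d obs`, for bounded posterior expectations. -/
lemma adjoint (hs : 0 < s) {Φ h : Rn n → ℝ} (hΦ : Measurable Φ) {M B : ℝ}
    (hM : ∀ z, |Φ z| ≤ M) (hhm : Measurable h) (hh : Integrable h μ)
    (hB : ∀ th, |ex μ s th h| ≤ B) (hEm : Measurable fun th => ex μ s th h) :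
    ∫ x, h x * Q s Φ x ∂μ = ∫ th, Φ th * ex μ s th h ∂(obs μ s) := by
  rw [integral_mul_Q hs hΦ hM hhm hh,
    integral_obs hs (Φ := fun th => Φ th * ex μ s th h) (hΦ.mul hEm) (M := M * B) fun th => by
      rw [abs_mul]
      exact mul_le_mul (hM th) (hB th) (abs_nonneg _) ((abs_nonneg _).trans (hM th))]
  refine integral_congr_ae (ae_of_all _ fun z => ?_)
  have := (zt_pos (μ := μ) hs (Real.sqrt s • z)).ne'
  simp only [ex]
  field_simp

lemma abs_ex_le (hs : 0 < s) {h : Rn n → ℝ} {M : ℝ} (hM : ∀ x, |h x| ≤ M) (th : Rn n) :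
    |ex μ s th h| ≤ M := by
  have := prob_tilt (μ := μ) hs th
  rw [← integral_tilt]
  have h1 : ‖∫ x, h x ∂(tilt μ s th)‖ ≤ ∫ _x, M ∂(tilt μ s th) :=
    norm_integral_le_of_norm_le (integrable_const M) (ae_of_all _ fun x => by simpa using hM x)
  simpa [Real.norm_eq_abs] using h1

lemma hasFDerivAt_num (hs : 0 < s) {h : Rn n → ℝ} (hh : Measurable h) {M : ℝ}
    (hM : ∀ x, |h x| ≤ M) (th : Rn n) :
    HasFDerivAt (fun q => num μ s q h)
      (∫ x, (h x * Real.exp (texp s th x)) • innerSL ℝ x ∂μ) th := by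
  have hM0 : 0 ≤ M := (abs_nonneg _).trans (hM 0)
  refine hasFDerivAt_integral_of_dominated_of_fderiv_le
    (F := fun q x => h x * Real.exp (texp s q x))
    (F' := fun q x => (h x * Real.exp (texp s q x)) • innerSL ℝ x)
    (bound := fun _ => M * ((1 + 4 / s) * Real.exp ((‖th‖ + 1) ^ 2 / s)))
    (s := Metric.ball th 1) (Metric.ball_mem_nhds th one_pos)
    (Eventually.of_forall fun q => (hh.mul (measurable_texp s q).exp).aestronglyMeasurable) ?_ ?_
    (ae_of_all _ fun x q hq => ?_) (integrable_const _) (ae_of_all _ fun x q _ => ?_)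
  · exact Integrable.of_bound (hh.mul (measurable_texp s th).exp).aestronglyMeasurable
      (M * Real.exp (‖th‖ ^ 2 / s)) (ae_of_all _ fun x => by
        rw [Real.norm_eq_abs, abs_mul, abs_of_pos (Real.exp_pos _)]
        exact mul_le_mul (hM x) (exp_texp_le hs th x) (Real.exp_pos _).le hM0)
  · exact ((hh.mul (measurable_texp s th).exp).aestronglyMeasurable).smul
      (innerSL ℝ).continuous.aestronglyMeasurable
  · rw [norm_smul, Real.norm_eq_abs, abs_mul, abs_of_pos (Real.exp_pos _), mul_assoc,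
      innerSL_apply_norm, mul_comm (Real.exp _)]
    refine mul_le_mul (hM x) ((norm_mul_exp_le hs q x).trans ?_) (by positivity) hM0
    refine mul_le_mul_of_nonneg_left (Real.exp_le_exp.2 ?_) (by positivity)
    have h1 : ‖q‖ ≤ ‖th‖ + 1 := by
      have := norm_le_norm_add_norm_sub' q th
      rw [Metric.mem_ball, dist_eq_norm] at hq
      linarith
    gcongr
  · have h1 : HasFDerivAt (fun q : Rn n => texp s q x) (innerSL ℝ x) q := by
      unfold texp
      simpa only [innerSL_apply_apply, real_inner_comm x] using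
        ((innerSL ℝ x).hasFDerivAt (x := q)).sub_const (s / 2 * ‖x‖ ^ 2)
    have := h1.exp.const_mul (h x)
    rwa [smul_smul] at this

lemma continuous_fderiv_num (hs : 0 < s) {h : Rn n → ℝ} (hh : Measurable h) {M : ℝ}
    (hM : ∀ x, |h x| ≤ M) :
    Continuous fun th => ∫ x, (h x * Real.exp (texp s th x)) • innerSL ℝ x ∂μ := by
  have hM0 : 0 ≤ M := (abs_nonneg _).trans (hM 0)
  refine continuous_iff_continuousAt.2 fun th => ?_
  refine continuousAt_of_dominated
    (bound := fun _ => M * ((1 + 4 / s) * Real.exp ((‖th‖ + 1) ^ 2 / s)))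
    (Eventually.of_forall fun q => ((hh.mul (measurable_texp s q).exp).aestronglyMeasurable).smul
      (innerSL ℝ).continuous.aestronglyMeasurable) ?_ (integrable_const _)
    (ae_of_all _ fun x => ?_)
  · filter_upwards [Metric.ball_mem_nhds th one_pos] with q hq
    refine ae_of_all _ fun x => ?_
    rw [norm_smul, Real.norm_eq_abs, abs_mul, abs_of_pos (Real.exp_pos _), mul_assoc,
      innerSL_apply_norm, mul_comm (Real.exp _)]
    refine mul_le_mul (hM x) ((norm_mul_exp_le hs q x).trans ?_) (by positivity) hM0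
    refine mul_le_mul_of_nonneg_left (Real.exp_le_exp.2 ?_) (by positivity)
    have h1 : ‖q‖ ≤ ‖th‖ + 1 := by
      have := norm_le_norm_add_norm_sub' q th
      rw [Metric.mem_ball, dist_eq_norm] at hq
      linarith
    gcongr
  · unfold texp; fun_prop

lemma contDiff_ex (hs : 0 < s) {h : Rn n → ℝ} (hh : Measurable h) {M : ℝ}
    (hM : ∀ x, |h x| ≤ M) : ContDiff ℝ 1 fun th => ex μ s th h := by
  have key : ∀ (g : Rn n → ℝ), Measurable g → ∀ B, (∀ x, |g x| ≤ B) →
      ContDiff ℝ 1 fun th => num μ s th g := fun g hg B hB =>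
    contDiff_one_iff_fderiv.2 ⟨fun th => (hasFDerivAt_num hs hg hB th).differentiableAt, by
      rw [show fderiv ℝ (fun th => num μ s th g) = fun th => _ from
        funext fun th => (hasFDerivAt_num hs hg hB th).fderiv]
      exact continuous_fderiv_num hs hg hB⟩
  exact (key h hh M hM).div (key _ measurable_const 1 fun _ => by simp) fun th =>
    (zt_pos (μ := μ) hs th).ne'

/-- Derivative of a posterior expectation. -/
lemma fderiv_ex (hs : 0 < s) {h : Rn n → ℝ} (hh : Measurable h) {M : ℝ}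
    (hM : ∀ x, |h x| ≤ M) (th w : Rn n) :
    fderiv ℝ (fun q => ex μ s q h) th w = cv μ s th h (fun x => ⟪x, w⟫) := by
  have h1 := hasFDerivAt_num (μ := μ) hs hh hM th
  have h2 := hasFDerivAt_num (μ := μ) hs (h := fun _ => (1 : ℝ)) measurable_const
    (M := 1) (fun _ => by simp) th
  have hz : num μ s th (fun _ => 1) ≠ 0 := (zt_pos (μ := μ) hs th).ne'
  have hi : ∀ (g : Rn n → ℝ) (B : ℝ), Measurable g → (∀ x, |g x| ≤ B) →
      Integrable (fun x => (g x * Real.exp (texp s th x)) • innerSL ℝ x) μ := fun g B hg hB =>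
    Integrable.of_bound (((hg.mul (measurable_texp s th).exp).aestronglyMeasurable).smul
      (innerSL ℝ).continuous.aestronglyMeasurable) (B * ((1 + 4 / s) * Real.exp (‖th‖ ^ 2 / s)))
      (ae_of_all _ fun x => by
        rw [norm_smul, Real.norm_eq_abs, abs_mul, abs_of_pos (Real.exp_pos _), mul_assoc,
          innerSL_apply_norm, mul_comm (Real.exp _)]
        exact mul_le_mul (hB x) (norm_mul_exp_le hs th x) (by positivity)
          ((abs_nonneg _).trans (hB x)))
  have h3 : (fun q => ex μ s q h) = fun q => num μ s q h * (num μ s q (fun _ => 1))⁻¹ :=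
    funext fun q => div_eq_mul_inv _ _
  have h4 : HasFDerivAt (fun q => num μ s q h * (num μ s q (fun _ => 1))⁻¹) _ th :=
    h1.mul ((hasDerivAt_inv hz).comp_hasFDerivAt th h2)
  rw [h3, h4.fderiv]
  have a1 := ContinuousLinearMap.integral_apply (hi h M hh hM) w
  have a2 := ContinuousLinearMap.integral_apply
    (hi (fun _ => (1 : ℝ)) 1 measurable_const fun _ => by simp) w
  simp only [add_apply, smul_apply, smul_eq_mul, innerSL_apply_apply] at a1 a2 ⊢
  rw [a1, a2]
  unfold cv ex zt
  have e1 : ∫ x, h x * Real.exp (texp s th x) * ⟪x, w⟫ ∂μ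
      = num μ s th fun x => h x * ⟪x, w⟫ := integral_congr_ae (ae_of_all _ fun x => by ring)
  have e2 : ∫ x, 1 * Real.exp (texp s th x) * ⟪x, w⟫ ∂μ = num μ s th fun x => ⟪x, w⟫ :=
    integral_congr_ae (ae_of_all _ fun x => by ring)
  rw [e1, e2]
  field_simp
  ring

end Vale.Agent.P245.Imp
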