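import Vale.Agent.P245.ImpCalc

/-!
# P245 M3: the proximal operator and the core of the improved Poincaré inequality

`P = Q ∘ G`, where `G φ = ex φ` and `Q` is the forward map. For a smooth, nice measure, a
near-maximiser of the Rayleigh quotient of `P` gives `t K² ≤ lam` for the Poincaré constant `K`.
-/

namespace Vale.Agent.P245.Imp

open MeasureTheory ProbabilityTheory Filter Topology
open scoped RealInnerProductSpace ENNReal NNReal

variable {n : ℕ} {μ : Measure (Rn n)} [IsProbabilityMeasure μ] {s : ℝ}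

/-- The data needed on a smooth measure: the field `F = ∇W - t x` of a potential `W`. -/
structure Nice (μ : Measure (Rn n)) (t : ℝ) (F : Fin n → Rn n → ℝ)
    (dF : Fin n → Fin n → Rn n → ℝ) (L : ℝ) : Prop where
  deriv : ∀ i j x, fderiv ℝ (F i) x (unit j) = dF i j x
  smoothF : ∀ i, ∃ M, C1B M (F i)
  smooth : ∀ i j, C1B L (dF i j)
  bdd : ∀ i j, ∃ M, ∀ x, |dF i j x| ≤ M
  pos : ∀ x (w : Fin n → ℝ), 0 ≤ ∑ i, ∑ j, w i * w j * dF i j x
  ibp : ∀ (s : ℝ) (th : Rn n) (i : Fin n) (φ : Rn n → ℝ) (M B : ℝ), 0 < s → C1B M φ →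
    (∀ x, |φ x| ≤ B) →
    ∫ x, fderiv ℝ φ x (unit i) * Real.exp (texp s th x) ∂μ
      = ∫ x, φ x * (F i x + (t + s) * x i - th i) * Real.exp (texp s th x) ∂μ

lemma sq_integral_mul_le {α : Type*} [MeasurableSpace α] {m : Measure α} {f g : α → ℝ}
    (hf : Integrable (fun a => f a ^ 2) m) (hg : Integrable (fun a => g a ^ 2) m)
    (hfg : Integrable (fun a => f a * g a) m) :
    (∫ a, f a * g a ∂m) ^ 2 ≤ (∫ a, f a ^ 2 ∂m) * ∫ a, g a ^ 2 ∂m := by
  have h : ∀ u : ℝ, 0 ≤ (∫ a, g a ^ 2 ∂m) * (u * u) + (-2 * ∫ a, f a * g a ∂m) * u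
      + ∫ a, f a ^ 2 ∂m := by
    intro u
    have i2 : Integrable (fun a => 2 * u * (f a * g a)) m := hfg.const_mul _
    have i3 : Integrable (fun a => u ^ 2 * g a ^ 2) m := hg.const_mul _
    have := integral_nonneg (μ := m) (f := fun a => f a ^ 2 - 2 * u * (f a * g a) + u ^ 2 * g a ^ 2)
      fun a => by
        have e : f a ^ 2 - 2 * u * (f a * g a) + u ^ 2 * g a ^ 2 = (f a - u * g a) ^ 2 := by ring
        simpa only [Pi.zero_apply, e] using sq_nonneg (f a - u * g a)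
    rw [integral_add (by exact hf.sub i2) i3, integral_sub hf i2, integral_const_mul,
      integral_const_mul] at this
    linarith
  have hd := discrim_le_zero h
  rw [discrim] at hd
  nlinarith

lemma unit_inner (x : Rn n) (i : Fin n) : ⟪x, unit i⟫ = x i := by
  simp [unit, EuclideanSpace.inner_single_right]

lemma sum_sq_apply_unit (T : Rn n →L[ℝ] ℝ) : ∑ i, T (unit i) ^ 2 = ‖T‖ ^ 2 := by
  set v := (InnerProductSpace.toDual ℝ (Rn n)).symm T with hv
  have h1 : ∀ y, ⟪v, y⟫ = T y := fun y => by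
    rw [hv, InnerProductSpace.toDual_symm_apply]
  have h2 : ‖v‖ = ‖T‖ := LinearIsometryEquiv.norm_map _ _
  rw [← h2, EuclideanSpace.real_norm_sq_eq]
  refine Finset.sum_congr rfl fun i _ => ?_
  rw [← h1, unit_inner]

/-- Bounded and measurable. -/
def BM (f : Rn n → ℝ) : Prop := Measurable f ∧ ∃ M, ∀ x, |f x| ≤ M

namespace BM

variable {f g : Rn n → ℝ}

lemma integrable {m : Measure (Rn n)} [IsFiniteMeasure m] (hf : BM f) : Integrable f m := by
  obtain ⟨hm, M, hM⟩ := hf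
  exact Integrable.of_bound hm.aestronglyMeasurable M (ae_of_all _ fun x => by simpa using hM x)

lemma mul (hf : BM f) (hg : BM g) : BM fun x => f x * g x := by
  obtain ⟨hfm, M, hM⟩ := hf
  obtain ⟨hgm, B, hB⟩ := hg
  exact ⟨hfm.mul hgm, M * B, fun x => by
    rw [abs_mul]; exact mul_le_mul (hM x) (hB x) (abs_nonneg _) ((abs_nonneg _).trans (hM x))⟩

lemma sq (hf : BM f) : BM fun x => f x ^ 2 := by simpa [pow_two] using hf.mul hf

lemma sub (hf : BM f) (hg : BM g) : BM fun x => f x - g x := by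
  obtain ⟨hfm, M, hM⟩ := hf
  obtain ⟨hgm, B, hB⟩ := hg
  exact ⟨hfm.sub hgm, M + B, fun x => (abs_sub _ _).trans (add_le_add (hM x) (hB x))⟩

lemma const (c : ℝ) : BM fun _ : Rn n => c := ⟨measurable_const, |c|, fun _ => le_rfl⟩

lemma smul (c : ℝ) (hf : BM f) : BM fun x => c * f x := (const c).mul hf

lemma add (hf : BM f) (hg : BM g) : BM fun x => f x + g x := by
  have := hf.sub (hg.smul (-1))
  simpa [sub_eq_add_neg] using this

end BM

/-- `G φ`. -/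
noncomputable def G (μ : Measure (Rn n)) (s : ℝ) (φ : Rn n → ℝ) (th : Rn n) : ℝ := ex μ s th φ

/-- `P φ = Q (G φ)`. -/
noncomputable def P (μ : Measure (Rn n)) (s : ℝ) (φ : Rn n → ℝ) : Rn n → ℝ := Q s (G μ s φ)

lemma bm_G (hs : 0 < s) {φ : Rn n → ℝ} (h : BM φ) : BM (G μ s φ) := by
  obtain ⟨hm, M, hM⟩ := h
  exact ⟨(contDiff_ex hs hm hM).continuous.measurable, M, fun th => abs_ex_le hs hM th⟩

lemma bm_Q {h : Rn n → ℝ} (hh : BM h) : BM (Q s h) :=
  ⟨measurable_Q hh.1, hh.2.choose, fun x => abs_Q_le hh.2.choose_spec x⟩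

lemma bm_P (hs : 0 < s) {φ : Rn n → ℝ} (h : BM φ) : BM (P μ s φ) := bm_Q (bm_G hs h)

lemma adj (hs : 0 < s) {h φ : Rn n → ℝ} (hh : BM h) (hφ : BM φ) :
    ∫ x, φ x * Q s h x ∂μ = ∫ th, h th * G μ s φ th ∂(obs μ s) := by
  obtain ⟨B, hB⟩ := (bm_G (μ := μ) hs hφ).2
  exact adjoint hs hh.1 hh.2.choose_spec hφ.1 hφ.integrable hB (bm_G hs hφ).1

lemma G_one (hs : 0 < s) : G μ s (fun _ => (1 : ℝ)) = fun _ => 1 :=
  funext fun th => div_self (zt_pos (μ := μ) hs th).ne'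

lemma Q_one : Q s (fun _ : Rn n => (1 : ℝ)) = fun _ => 1 := by
  funext x; simp [Q]

lemma integral_Q (hs : 0 < s) {h : Rn n → ℝ} (hh : BM h) :
    ∫ x, Q s h x ∂μ = ∫ th, h th ∂(obs μ s) := by
  have h1 := adj (μ := μ) hs hh (BM.const 1)
  simpa [G_one hs] using h1

lemma integral_G (hs : 0 < s) {φ : Rn n → ℝ} (hφ : BM φ) :
    ∫ th, G μ s φ th ∂(obs μ s) = ∫ x, φ x ∂μ := by
  have h1 := adj (μ := μ) hs (BM.const 1) hφ
  simpa [Q_one] using h1.symm

lemma G_add (hs : 0 < s) {φ ψ : Rn n → ℝ} (hφ : BM φ) (hψ : BM ψ) (a : ℝ) :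
    G μ s (fun x => a * φ x + ψ x) = fun th => a * G μ s φ th + G μ s ψ th := by
  funext th
  have := prob_tilt (μ := μ) hs th
  simp only [G, ← integral_tilt]
  rw [integral_add (hφ.smul a).integrable hψ.integrable, integral_const_mul]

lemma Q_add {h k : Rn n → ℝ} (hh : BM h) (hk : BM k) (a : ℝ) :
    Q s (fun th => a * h th + k th) = fun x => a * Q s h x + Q s k x := by
  funext x
  have hi : ∀ {u : Rn n → ℝ}, BM u →
      Integrable (fun z => u (s • x + Real.sqrt s • z)) (gam n) := fun {u} hu =>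
    Integrable.of_bound (hu.1.comp (by fun_prop)).aestronglyMeasurable hu.2.choose
      (ae_of_all _ fun z => by simpa using hu.2.choose_spec _)
  simp only [Q]
  rw [integral_add ((hi hh).const_mul a) (hi hk), integral_const_mul]

lemma P_add (hs : 0 < s) {φ ψ : Rn n → ℝ} (hφ : BM φ) (hψ : BM ψ) (a : ℝ) :
    P μ s (fun x => a * φ x + ψ x) = fun x => a * P μ s φ x + P μ s ψ x := by
  unfold P
  rw [G_add hs hφ hψ, Q_add (bm_G hs hφ) (bm_G hs hψ)]

/-- Values of the Rayleigh quotient. -/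
def gapSet (μ : Measure (Rn n)) (s : ℝ) : Set ℝ :=
  {r | ∃ φ, BM φ ∧ ∫ x, φ x ∂μ = 0 ∧ ∫ x, φ x ^ 2 ∂μ ≤ 1 ∧ r = ∫ th, G μ s φ th ^ 2 ∂(obs μ s)}

/-- The largest eigenvalue of `P` on mean-zero functions. -/
noncomputable def rho (μ : Measure (Rn n)) (s : ℝ) : ℝ := sSup (gapSet μ s)

lemma integral_G_sq_le (hs : 0 < s) {φ : Rn n → ℝ} (hφ : BM φ) :
    ∫ th, G μ s φ th ^ 2 ∂(obs μ s) ≤ ∫ x, φ x ^ 2 ∂μ := by
  have := prob_obs (μ := μ) (s := s)
  rw [← integral_G hs hφ.sq]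
  refine integral_mono (bm_G hs hφ).sq.integrable (bm_G hs hφ.sq).integrable fun th => ?_
  have := prob_tilt (μ := μ) hs th
  have h1 : 0 ≤ vr (tilt μ s th) φ := integral_nonneg fun x => sq_nonneg _
  rw [vr_eq hφ.integrable hφ.sq.integrable, integral_tilt, integral_tilt] at h1
  simp only [G]
  linarith

lemma bddAbove_gapSet (hs : 0 < s) : BddAbove (gapSet μ s) :=
  ⟨1, by rintro r ⟨φ, hφ, -, h1, rfl⟩; exact (integral_G_sq_le hs hφ).trans h1⟩

omit [IsProbabilityMeasure μ] in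
lemma zero_mem_gapSet : (0 : ℝ) ∈ gapSet μ s := by
  refine ⟨fun _ => 0, BM.const 0, by simp, by simp, ?_⟩
  simp [G, ex, num]

lemma rho_nonneg (hs : 0 < s) : 0 ≤ rho μ s := le_csSup (bddAbove_gapSet hs) (zero_mem_gapSet)

lemma rho_le_one (hs : 0 < s) : rho μ s ≤ 1 :=
  csSup_le ⟨0, zero_mem_gapSet⟩ (by rintro r ⟨φ, hφ, -, h1, rfl⟩; exact (integral_G_sq_le hs hφ).trans h1)

lemma integral_G_sq_le_rho (hs : 0 < s) {φ : Rn n → ℝ} (hφ : BM φ) (h0 : ∫ x, φ x ∂μ = 0) :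
    ∫ th, G μ s φ th ^ 2 ∂(obs μ s) ≤ rho μ s * ∫ x, φ x ^ 2 ∂μ := by
  have hN : 0 ≤ ∫ x, φ x ^ 2 ∂μ := integral_nonneg fun x => sq_nonneg _
  rcases eq_or_lt_of_le hN with h | h
  · have := integral_G_sq_le (μ := μ) hs hφ
    rw [← h] at this ⊢
    simpa using this
  set c := (Real.sqrt (∫ x, φ x ^ 2 ∂μ))⁻¹ with hc
  have hc2 : c ^ 2 * ∫ x, φ x ^ 2 ∂μ = 1 := by
    rw [hc, inv_pow, Real.sq_sqrt hN, inv_mul_cancel₀ h.ne']
  have hmem : c ^ 2 * ∫ th, G μ s φ th ^ 2 ∂(obs μ s) ∈ gapSet μ s := by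
    refine ⟨fun x => c * φ x, hφ.smul c, by rw [integral_const_mul, h0, mul_zero], ?_, ?_⟩
    · simp only [mul_pow]
      rw [integral_const_mul, hc2]
    · rw [← integral_const_mul]
      refine integral_congr_ae (ae_of_all _ fun th => ?_)
      simp only [G, ← integral_tilt, integral_const_mul, mul_pow]
  have := le_csSup (bddAbove_gapSet hs) hmem
  calc ∫ th, G μ s φ th ^ 2 ∂(obs μ s)
      = (c ^ 2 * ∫ th, G μ s φ th ^ 2 ∂(obs μ s)) * ∫ x, φ x ^ 2 ∂μ := by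
        rw [mul_right_comm, hc2, one_mul]
    _ ≤ _ := mul_le_mul_of_nonneg_right this hN

/-- `Q` contracts mean-zero functions by `√ρ`. -/
lemma integral_Q_sq_le (hs : 0 < s) {h : Rn n → ℝ} (hh : BM h) :
    ∫ x, Q s h x ^ 2 ∂μ ≤ rho μ s * ∫ th, h th ^ 2 ∂(obs μ s)
      + (1 - rho μ s) * (∫ th, h th ∂(obs μ s)) ^ 2 := by
  have := prob_obs (μ := μ) (s := s)
  set m := ∫ th, h th ∂(obs μ s) with hm
  set k : Rn n → ℝ := fun th => h th - m with hk
  have hkBM : BM k := hh.sub (BM.const m)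
  have hk0 : ∫ th, k th ∂(obs μ s) = 0 := by
    rw [hk, integral_sub hh.integrable (integrable_const m), ← hm]; simp
  have hQk : Q s k = fun x => Q s h x - m := by
    have := Q_add (s := s) (BM.const m) hh (-1)
    rw [show k = fun th => -1 * (fun _ : Rn n => m) th + h th from
      funext fun th => by simp [hk]; ring, this]
    funext x
    simp [Q]; ring
  have hmain : ∫ x, Q s k x ^ 2 ∂μ ≤ rho μ s * ∫ th, k th ^ 2 ∂(obs μ s) := by
    set N := ∫ x, Q s k x ^ 2 ∂μ with hN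
    have hQ0 : ∫ x, Q s k x ∂μ = 0 := by rw [integral_Q hs hkBM, hk0]
    have h1 : N = ∫ th, k th * G μ s (Q s k) th ∂(obs μ s) := by
      rw [hN, ← adj hs hkBM (bm_Q hkBM)]
      exact integral_congr_ae (ae_of_all _ fun x => by ring)
    have h2 : N ^ 2 ≤ (∫ th, k th ^ 2 ∂(obs μ s)) * (rho μ s * N) := by
      calc N ^ 2 ≤ (∫ th, k th ^ 2 ∂(obs μ s)) * ∫ th, G μ s (Q s k) th ^ 2 ∂(obs μ s) := by
            rw [h1]
            exact sq_integral_mul_le hkBM.sq.integrable (bm_G hs (bm_Q hkBM)).sq.integrable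
              (hkBM.mul (bm_G hs (bm_Q hkBM))).integrable
        _ ≤ _ := mul_le_mul_of_nonneg_left (integral_G_sq_le_rho hs (bm_Q hkBM) hQ0)
              (integral_nonneg fun _ => sq_nonneg _)
    rcases eq_or_lt_of_le (show 0 ≤ N from integral_nonneg fun x => sq_nonneg _) with h0 | h0
    · rw [← h0]
      exact mul_nonneg (rho_nonneg hs) (integral_nonneg fun _ => sq_nonneg _)
    · nlinarith
  have e1 : ∫ x, Q s k x ^ 2 ∂μ = ∫ x, Q s h x ^ 2 ∂μ - m ^ 2 := by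
    have hq := bm_Q (s := s) hh
    rw [hQk]
    have hv := vr_eq (μ := μ) (f := Q s h) hq.integrable hq.sq.integrable
    rw [vr, integral_Q hs hh, ← hm] at hv
    exact hv
  have e2 : ∫ th, k th ^ 2 ∂(obs μ s) = ∫ th, h th ^ 2 ∂(obs μ s) - m ^ 2 := by
    have hv := vr_eq (μ := obs μ s) (f := h) hh.integrable hh.sq.integrable
    rw [vr, ← hm] at hv
    exact hv
  rw [e1, e2] at hmain
  linarith

lemma G_zero (hs : 0 < s) (φ : Rn n → ℝ) (hφ : BM φ) (h0 : ∫ x, φ x ∂μ = 0) :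
    ∫ x, P μ s φ x ∂μ = 0 := by
  rw [P, integral_Q hs (bm_G hs hφ), integral_G hs hφ, h0]

/-- `‖P φ‖² ≤ ρ ‖G φ‖²`. -/
lemma integral_P_sq_le (hs : 0 < s) {φ : Rn n → ℝ} (hφ : BM φ) (h0 : ∫ x, φ x ∂μ = 0) :
    ∫ x, P μ s φ x ^ 2 ∂μ ≤ rho μ s * ∫ th, G μ s φ th ^ 2 ∂(obs μ s) := by
  have := integral_Q_sq_le (μ := μ) hs (bm_G (μ := μ) hs hφ)
  rw [integral_G hs hφ, h0] at this
  simpa [P] using this

lemma inner_P (hs : 0 < s) {φ : Rn n → ℝ} (hφ : BM φ) :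
    ∫ x, φ x * P μ s φ x ∂μ = ∫ th, G μ s φ th ^ 2 ∂(obs μ s) := by
  rw [P, adj hs (bm_G hs hφ) hφ]
  exact integral_congr_ae (ae_of_all _ fun th => by ring)

/-- The improved Poincaré inequality on nice measures (proved in `ImpMain`, given `PoincareSLC`). -/
def NicePoinc : Prop :=
  ∀ (n : ℕ) (μ : Measure (Rn n)), IsProbabilityMeasure μ →
    ∀ (t lam L : ℝ) (F : Fin n → Rn n → ℝ) (dF : Fin n → Fin n → Rn n → ℝ),
      Nice μ t F dF L → 0 < t → 0 ≤ lam → IsSLC t μ →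
      (∀ v : Rn n, vr μ (fun x => ⟪x, v⟫) ≤ lam * ‖v‖ ^ 2) → Poinc μ (Real.sqrt (lam / t))

end Vale.Agent.P245.Imp
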