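import Vale.Agent.P245.ImpCore

/-!
# P245 M3: the vector field `V = ∇ G φ = cov(φ, x)`

Bounds on `V`, the derivative of `P φ`, and the averaged monotonicity inequality obtained from
the integration by parts in `Nice`.
-/

namespace Vale.Agent.P245.Imp

open MeasureTheory ProbabilityTheory Filter Topology
open scoped RealInnerProductSpace ENNReal NNReal

variable {n : ℕ} {μ : Measure (Rn n)} [IsProbabilityMeasure μ] {s t : ℝ}

/-- `V φ i = cov(φ, x i)` under the posterior. -/
noncomputable def V (μ : Measure (Rn n)) (s : ℝ) (φ : Rn n → ℝ) (i : Fin n) (th : Rn n) : ℝ :=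
  cv μ s th φ fun x => x i

/-- Posterior variance. -/
noncomputable def Dv (μ : Measure (Rn n)) (s : ℝ) (φ : Rn n → ℝ) (th : Rn n) : ℝ :=
  vr (tilt μ s th) φ

lemma hasFDerivAt_inner_const (v x : Rn n) :
    HasFDerivAt (fun y : Rn n => ⟪y, v⟫) (innerSL ℝ v) x :=
  ((innerSL ℝ v).hasFDerivAt (x := x)).congr_of_eventuallyEq
    (Eventually.of_forall fun y => (innerSL_apply_apply ℝ v y).symm ▸ real_inner_comm v y)

lemma c1b_inner (v : Rn n) : C1B ‖v‖ (fun x : Rn n => ⟪x, v⟫) := by
  refine ⟨contDiff_id.inner ℝ contDiff_const, fun x => ?_⟩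
  rw [(hasFDerivAt_inner_const v x).fderiv, innerSL_apply_norm]

lemma energy_inner (m : Measure (Rn n)) [IsProbabilityMeasure m] (v : Rn n) :
    energy m (fun x => ⟪x, v⟫) = ‖v‖ ^ 2 := by
  have h : ∀ x, fderiv ℝ (fun y : Rn n => ⟪y, v⟫) x = innerSL ℝ v := fun x => by
    exact (hasFDerivAt_inner_const v x).fderiv
  simp [energy, h, innerSL_apply_norm]

/-- Everything known about posteriors at time `s`. -/
structure Post (μ : Measure (Rn n)) (s k : ℝ) : Prop where
  pos : 0 < k
  poinc : ∀ th, Poinc (tilt μ s th) k⁻¹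

lemma post_of (hP : PoincareSLC) (ht : 0 ≤ t) (hs : 0 < s) (h : IsSLC t μ) :
    Post μ s (s + t) := by
  refine ⟨by linarith, fun th f hf => ?_⟩
  have := hP n (t + s) (tilt μ s th) (prob_tilt hs th) (by linarith) (slc_tilt hs h th) f hf
  rwa [one_div, add_comm t s] at this

variable {k : ℝ}

lemma Post.lin (hp : Post μ s k) (hs : 0 < s) (th v : Rn n) :
    Integrable (fun x => ⟪x, v⟫) (tilt μ s th) ∧
      Integrable (fun x => ⟪x, v⟫ ^ 2) (tilt μ s th) ∧
      vr (tilt μ s th) (fun x => ⟪x, v⟫) ≤ ‖v‖ ^ 2 / k := by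
  have := prob_tilt (μ := μ) hs th
  obtain ⟨h1, h2, h3⟩ := (hp.poinc th).extend (inv_nonneg.2 hp.pos.le) (c1b_inner v)
  rw [energy_inner] at h3
  exact ⟨h1, h2, by rw [div_eq_inv_mul]; exact h3⟩

/-- Posterior covariance as a centred integral, with Cauchy-Schwarz. -/
lemma cv_sq_le {m : Measure (Rn n)} [IsProbabilityMeasure m] {f g : Rn n → ℝ} (hf : BM f)
    (hg : Integrable g m) (hg2 : Integrable (fun x => g x ^ 2) m) :
    (∫ x, f x * g x ∂m - (∫ x, f x ∂m) * ∫ x, g x ∂m) ^ 2 ≤ vr m f * vr m g := by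
  set a := ∫ x, f x ∂m
  set b := ∫ x, g x ∂m
  have hfg : Integrable (fun x => f x * g x) m :=
    hg.bdd_mul hf.1.aestronglyMeasurable (ae_of_all _ fun x => by
      simpa using hf.2.choose_spec x)
  have i1 : Integrable (fun x => b * f x) m := hf.integrable.const_mul b
  have i2 : Integrable (fun x => a * g x) m := hg.const_mul a
  have he : ∫ x, (f x - a) * (g x - b) ∂m = ∫ x, f x * g x ∂m - a * b := by
    calc ∫ x, (f x - a) * (g x - b) ∂m
        = ∫ x, (f x * g x - b * f x - a * g x + a * b) ∂m :=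
          integral_congr_ae (ae_of_all _ fun x => by ring)
      _ = _ := by
          rw [integral_add (by exact (hfg.sub i1).sub i2) (integrable_const _),
            integral_sub (by exact hfg.sub i1) i2, integral_sub hfg i1, integral_const_mul,
            integral_const_mul]
          simp; ring
  rw [← he]
  have hfa : BM fun x => f x - a := hf.sub (BM.const a)
  have hgb2 : Integrable (fun x => (g x - b) ^ 2) m := by
    refine ((hg2.sub (hg.const_mul (2 * b))).add (integrable_const (b ^ 2))).congr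
      (ae_of_all _ fun x => ?_)
    simp only [Pi.add_apply, Pi.sub_apply]
    ring
  exact sq_integral_mul_le hfa.sq.integrable hgb2
    ((hg.sub (integrable_const b)).bdd_mul hfa.1.aestronglyMeasurable
      (ae_of_all _ fun x => by simpa using hfa.2.choose_spec x))

lemma Post.cov_sq (hp : Post μ s k) (hs : 0 < s) {φ : Rn n → ℝ} (hφ : BM φ) (th v : Rn n) :
    cv μ s th φ (fun x => ⟪x, v⟫) ^ 2 ≤ Dv μ s φ th * (‖v‖ ^ 2 / k) := by
  have := prob_tilt (μ := μ) hs th
  obtain ⟨h1, h2, h3⟩ := hp.lin hs th v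
  have h4 := cv_sq_le (m := tilt μ s th) hφ h1 h2
  simp only [integral_tilt] at h4
  exact h4.trans (mul_le_mul_of_nonneg_left h3 (integral_nonneg fun x => sq_nonneg _))

lemma cv_inner (hp : Post μ s k) (hs : 0 < s) {φ : Rn n → ℝ} (hφ : BM φ) (th v : Rn n) :
    cv μ s th φ (fun x => ⟪x, v⟫) = ∑ i, v i * V μ s φ i th := by
  have := prob_tilt (μ := μ) hs th
  have hi : ∀ i, Integrable (fun x : Rn n => x i) (tilt μ s th) := fun i => by
    simpa only [unit_inner] using (hp.lin hs th (unit i)).1
  have e : ∀ x : Rn n, ⟪x, v⟫ = ∑ i, v i * x i := fun x => by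
    rw [PiLp.inner_apply]
    simp
  unfold V cv
  simp only [← integral_tilt]
  simp only [e, Finset.mul_sum]
  have hfi : ∀ i, Integrable (fun x : Rn n => φ x * (v i * x i)) (tilt μ s th) := fun i =>
    ((hi i).const_mul _).bdd_mul hφ.1.aestronglyMeasurable
      (ae_of_all _ fun x => by simpa using hφ.2.choose_spec x)
  rw [integral_finsetSum _ fun i _ => hfi i, integral_finsetSum _ fun i _ => (hi i).const_mul _,
    Finset.mul_sum, ← Finset.sum_sub_distrib]
  refine Finset.sum_congr rfl fun i _ => ?_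
  rw [integral_const_mul, show (fun x : Rn n => φ x * (v i * x i)) = fun x => v i * (φ x * x i) from
    funext fun x => by ring, integral_const_mul]
  ring

lemma Post.sum_sq (hp : Post μ s k) (hs : 0 < s) {φ : Rn n → ℝ} (hφ : BM φ) (th : Rn n) :
    ∑ i, V μ s φ i th ^ 2 ≤ Dv μ s φ th / k := by
  set S := ∑ i, V μ s φ i th ^ 2 with hS
  set v : Rn n := WithLp.toLp 2 fun i => V μ s φ i th with hv
  have hv2 : ‖v‖ ^ 2 = S := by rw [EuclideanSpace.real_norm_sq_eq]
  have hc : cv μ s th φ (fun x => ⟪x, v⟫) = S := by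
    rw [cv_inner hp hs hφ, hS]
    exact Finset.sum_congr rfl fun i _ => by simp [hv, sq]
  have h := hp.cov_sq hs hφ th v
  rw [hc, hv2] at h
  rcases eq_or_lt_of_le (show 0 ≤ S from Finset.sum_nonneg fun i _ => sq_nonneg _) with h0 | h0
  · rw [← h0]; exact div_nonneg (integral_nonneg fun x => sq_nonneg _) hp.pos.le
  · have hk := hp.pos
    rw [le_div_iff₀ hk]
    have h5 : S * S * k ≤ Dv μ s φ th * S := by
      have := mul_le_mul_of_nonneg_right h hk.le
      rw [sq, mul_assoc (Dv μ s φ th), div_mul_cancel₀ _ hk.ne'] at this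
      exact this
    nlinarith

lemma bm_Dv (hs : 0 < s) {φ : Rn n → ℝ} (hφ : BM φ) : BM (Dv μ s φ) := by
  have e : Dv μ s φ = fun th => G μ s (fun x => φ x ^ 2) th - G μ s φ th ^ 2 := funext fun th => by
    have := prob_tilt (μ := μ) hs th
    rw [Dv, vr_eq hφ.integrable hφ.sq.integrable, integral_tilt, integral_tilt]
    rfl
  rw [e]
  exact (bm_G hs hφ.sq).sub (bm_G hs hφ).sq

lemma integral_Dv (hs : 0 < s) {φ : Rn n → ℝ} (hφ : BM φ) :
    ∫ th, Dv μ s φ th ∂(obs μ s)
      = ∫ x, φ x ^ 2 ∂μ - ∫ th, G μ s φ th ^ 2 ∂(obs μ s) := by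
  have := prob_obs (μ := μ) (s := s)
  have e : Dv μ s φ = fun th => G μ s (fun x => φ x ^ 2) th - G μ s φ th ^ 2 := funext fun th => by
    have := prob_tilt (μ := μ) hs th
    rw [Dv, vr_eq hφ.integrable hφ.sq.integrable, integral_tilt, integral_tilt]
    rfl
  rw [e, integral_sub (bm_G hs hφ.sq).integrable (bm_G hs hφ).sq.integrable, integral_G hs hφ.sq]

lemma fderiv_G (hs : 0 < s) {φ : Rn n → ℝ} (hφ : BM φ) (th : Rn n) (i : Fin n) :
    fderiv ℝ (G μ s φ) th (unit i) = V μ s φ i th := by
  have h := fderiv_ex (μ := μ) hs hφ.1 hφ.2.choose_spec th (unit i)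
  rw [show G μ s φ = fun q => ex μ s q φ from rfl, h]
  unfold V cv
  simp only [unit_inner]

lemma bm_V (hp : Post μ s k) (hs : 0 < s) {φ : Rn n → ℝ} (hφ : BM φ) (i : Fin n) :
    BM (V μ s φ i) := by
  obtain ⟨B, hB⟩ := (bm_Dv (μ := μ) hs hφ).2
  refine ⟨?_, Real.sqrt (B / k), fun th => ?_⟩
  · have e : V μ s φ i = fun th => fderiv ℝ (G μ s φ) th (unit i) :=
      funext fun th => (fderiv_G hs hφ th i).symm
    rw [e]
    have hc : ContDiff ℝ 1 (G μ s φ) := contDiff_ex hs hφ.1 hφ.2.choose_spec
    exact ((hc.continuous_fderiv one_ne_zero).clm_apply continuous_const).measurable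
  · rw [← Real.sqrt_sq_eq_abs]
    refine Real.sqrt_le_sqrt ((Finset.single_le_sum (f := fun j => V μ s φ j th ^ 2)
      (fun j _ => sq_nonneg _) (Finset.mem_univ i)).trans ((hp.sum_sq hs hφ th).trans ?_))
    gcongr
    · exact hp.pos.le
    · exact (le_abs_self _).trans (hB th)

lemma hasFDerivAt_P (hp : Post μ s k) (hs : 0 < s) {φ : Rn n → ℝ} (hφ : BM φ) :
    ∃ M, C1B M (P μ s φ) ∧ ∀ x i, fderiv ℝ (P μ s φ) x (unit i) = s * Q s (V μ s φ i) x := by
  obtain ⟨B, hB⟩ := (bm_Dv (μ := μ) hs hφ).2
  set N := Real.sqrt (B / k)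
  have hc : ContDiff ℝ 1 (G μ s φ) := contDiff_ex hs hφ.1 hφ.2.choose_spec
  have hdc := hc.continuous_fderiv one_ne_zero
  have hN : ∀ th, ‖fderiv ℝ (G μ s φ) th‖ ≤ N := by
    intro th
    rw [← Real.sqrt_sq (norm_nonneg _)]
    refine Real.sqrt_le_sqrt ?_
    rw [← sum_sq_apply_unit]
    simp only [fderiv_G hs hφ]
    refine (hp.sum_sq hs hφ th).trans ?_
    gcongr
    · exact hp.pos.le
    · exact (le_abs_self _).trans (hB th)
  obtain ⟨Mg, hMg⟩ := (bm_G (μ := μ) hs hφ).2
  have hd : ∀ x, HasFDerivAt (P μ s φ)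
      (∫ z, s • fderiv ℝ (G μ s φ) (s • x + Real.sqrt s • z) ∂gam n) x := by
    intro x
    refine hasFDerivAt_integral_of_dominated_of_fderiv_le
      (F := fun y z => G μ s φ (s • y + Real.sqrt s • z))
      (F' := fun y z => s • fderiv ℝ (G μ s φ) (s • y + Real.sqrt s • z))
      (bound := fun _ => s * N) (s := Set.univ) Filter.univ_mem
      (Eventually.of_forall fun y => ((hc.continuous).comp (by fun_prop)).aestronglyMeasurable)
      (Integrable.of_bound ((hc.continuous).comp (by fun_prop)).aestronglyMeasurable Mg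
        (ae_of_all _ fun z => by simpa using hMg _))
      ((hdc.comp (by fun_prop : Continuous fun z : Rn n => s • x + Real.sqrt s • z)).const_smul
        s).aestronglyMeasurable
      (ae_of_all _ fun z y _ => ?_) (integrable_const _) (ae_of_all _ fun z y _ => ?_)
    · rw [norm_smul, Real.norm_eq_abs, abs_of_pos hs]
      exact mul_le_mul_of_nonneg_left (hN _) hs.le
    · have h1 : HasFDerivAt (fun y : Rn n => s • y + Real.sqrt s • z)
          (s • ContinuousLinearMap.id ℝ (Rn n)) y := ((hasFDerivAt_id y).const_smul s).add_const _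
      have h2 := ((hc.differentiable one_ne_zero).differentiableAt
        (x := s • y + Real.sqrt s • z)).hasFDerivAt.comp y h1
      rw [ContinuousLinearMap.comp_smul, ContinuousLinearMap.comp_id] at h2
      exact h2
  have hi : ∀ x, Integrable (fun z => s • fderiv ℝ (G μ s φ) (s • x + Real.sqrt s • z)) (gam n) :=
    fun x => Integrable.of_bound
      ((hdc.comp (by fun_prop : Continuous fun z : Rn n => s • x + Real.sqrt s • z)).const_smul
        s).aestronglyMeasurable (s * N) (ae_of_all _ fun z => by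
        rw [norm_smul, Real.norm_eq_abs, abs_of_pos hs]
        exact mul_le_mul_of_nonneg_left (hN _) hs.le)
  refine ⟨s * N, ⟨contDiff_one_iff_fderiv.2 ⟨fun x => (hd x).differentiableAt, ?_⟩, fun x => ?_⟩,
    fun x i => ?_⟩
  · rw [show fderiv ℝ (P μ s φ) = fun x => _ from funext fun x => (hd x).fderiv]
    exact continuous_of_dominated (fun x => (hi x).aestronglyMeasurable)
      (fun x => ae_of_all _ fun z => by
        rw [norm_smul, Real.norm_eq_abs, abs_of_pos hs]
        exact mul_le_mul_of_nonneg_left (hN _) hs.le) (integrable_const (s * N))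
      (ae_of_all _ fun z => (hdc.comp (by fun_prop)).const_smul s)
  · rw [(hd x).fderiv]
    refine (norm_integral_le_of_norm_le (integrable_const (s * N)) (ae_of_all _ fun z => ?_)).trans
      (by simp)
    rw [norm_smul, Real.norm_eq_abs, abs_of_pos hs]
    exact mul_le_mul_of_nonneg_left (hN _) hs.le
  · rw [(hd x).fderiv, ContinuousLinearMap.integral_apply (hi x), Q, ← integral_const_mul]
    refine integral_congr_ae (ae_of_all _ fun z => ?_)
    simp only [smul_apply, smul_eq_mul, fderiv_G hs hφ]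

/-- `E V_i = ∫ (φ - P φ) x_i`. -/
lemma integral_V (hp : Post μ s k) (hs : 0 < s) {φ : Rn n → ℝ} (hφ : BM φ) (i : Fin n)
    (hx : Integrable (fun x : Rn n => x i) μ) :
    ∫ th, V μ s φ i th ∂(obs μ s) = ∫ x, (φ x - P μ s φ x) * x i ∂μ := by
  have hV := bm_V hp hs hφ i
  rw [integral_obs hs hV.1 hV.2.choose_spec]
  have h1 : Integrable (fun x : Rn n => φ x * x i) μ :=
    hx.bdd_mul hφ.1.aestronglyMeasurable (ae_of_all _ fun x => by simpa using hφ.2.choose_spec x)
  have h2 : Integrable (fun x : Rn n => P μ s φ x * x i) μ :=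
    hx.bdd_mul (bm_P hs hφ).1.aestronglyMeasurable
      (ae_of_all _ fun x => by simpa using (bm_P (μ := μ) hs hφ).2.choose_spec x)
  have hmx : Measurable fun x : Rn n => x i := by fun_prop
  have hG := bm_G (μ := μ) hs hφ
  have e1 : ∫ x, φ x * x i ∂μ
      = ∫ z, num μ s (Real.sqrt s • z) (fun x => φ x * x i) ∂gam n := by
    have := integral_mul_Q (μ := μ) hs (Φ := fun _ => 1) measurable_const (M := 1)
      (fun _ => by simp) (hφ.1.mul hmx) h1
    simpa [Q_one, Pi.mul_def] using this
  have e2 : ∫ x, P μ s φ x * x i ∂μ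
      = ∫ z, G μ s φ (Real.sqrt s • z) * num μ s (Real.sqrt s • z) (fun x => x i) ∂gam n := by
    rw [← integral_mul_Q hs hG.1 hG.2.choose_spec hmx hx]
    exact integral_congr_ae (ae_of_all _ fun x => mul_comm _ _)
  have i1 : Integrable (fun z => num μ s (Real.sqrt s • z) (fun x => φ x * x i)) (gam n) := by
    have hjm : Measurable fun p : Rn n × Rn n =>
        φ p.1 * p.1 i * Real.exp (texp s (Real.sqrt s • p.2) p.1) := by
      unfold texp
      exact ((hφ.1.comp measurable_fst).mul (by fun_prop)).mul (Measurable.exp (by fun_prop))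
    have hint : Integrable (fun p : Rn n × Rn n =>
        φ p.1 * p.1 i * Real.exp (texp s (Real.sqrt s • p.2) p.1)) (μ.prod (gam n)) := by
      rw [integrable_prod_iff hjm.aestronglyMeasurable]
      refine ⟨ae_of_all _ fun x => ?_, ?_⟩
      · simp only [← shiftW_sqrt hs]
        exact (integrable_shiftW _).const_mul _
      · refine (h1.norm).congr (ae_of_all _ fun x => ?_)
        simp only [norm_mul, ← shiftW_sqrt hs]
        rw [integral_const_mul]
        have : ∀ z, ‖shiftW (Real.sqrt s • x) z‖ = shiftW (Real.sqrt s • x) z := fun z =>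
          Real.norm_of_nonneg (Real.exp_pos _).le
        simp only [this, integral_shiftW, mul_one]
    exact hint.integral_prod_right
  have i2 : Integrable (fun z => G μ s φ (Real.sqrt s • z) *
      num μ s (Real.sqrt s • z) (fun x => x i)) (gam n) := by
    have hjm : Measurable fun p : Rn n × Rn n =>
        p.1 i * Real.exp (texp s (Real.sqrt s • p.2) p.1) := by
      unfold texp
      exact Measurable.mul (by fun_prop) (Measurable.exp (by fun_prop))
    have hint : Integrable (fun p : Rn n × Rn n =>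
        p.1 i * Real.exp (texp s (Real.sqrt s • p.2) p.1)) (μ.prod (gam n)) := by
      rw [integrable_prod_iff hjm.aestronglyMeasurable]
      refine ⟨ae_of_all _ fun x => ?_, ?_⟩
      · simp only [← shiftW_sqrt hs]
        exact (integrable_shiftW _).const_mul _
      · refine (hx.norm).congr (ae_of_all _ fun x => ?_)
        simp only [norm_mul, ← shiftW_sqrt hs]
        rw [integral_const_mul]
        have : ∀ z, ‖shiftW (Real.sqrt s • x) z‖ = shiftW (Real.sqrt s • x) z := fun z =>
          Real.norm_of_nonneg (Real.exp_pos _).le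
        simp only [this, integral_shiftW, mul_one]
    exact hint.integral_prod_right.bdd_mul (hG.1.comp (by fun_prop)).aestronglyMeasurable
      (ae_of_all _ fun z => by simpa using hG.2.choose_spec _)
  rw [show (fun x => (φ x - P μ s φ x) * x i) = fun x => φ x * x i - P μ s φ x * x i from
    funext fun x => by ring, integral_sub h1 h2, e1, e2, ← integral_sub i1 i2]
  refine integral_congr_ae (ae_of_all _ fun z => ?_)
  have := (zt_pos (μ := μ) hs (Real.sqrt s • z)).ne'
  simp only [V, cv, G, ex]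
  field_simp

/-- Averaged monotonicity: from the integration by parts and the linearisation of `F`. -/
lemma monotone_step {F : Fin n → Rn n → ℝ} {dF : Fin n → Fin n → Rn n → ℝ} {L : ℝ}
    (hN : Nice μ t F dF L) (hp : Post μ s (s + t)) (hs : 0 < s) {ψ : Rn n → ℝ} {M : ℝ}
    (hψ : C1B M ψ) (hψb : BM ψ) (th : Rn n) :
    (s + t) * ∑ i, V μ s ψ i th ^ 2
      ≤ ∑ i, V μ s ψ i th * ex μ s th (fun x => fderiv ℝ ψ x (unit i))
        + Real.sqrt (Dv μ s ψ th) * Real.sqrt (Dv μ s ψ th / (s + t)) * (n * |L| / (s + t)) := by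
  set k := s + t with hk
  have hk0 := hp.pos
  have hpr := prob_tilt (μ := μ) hs th
  set c : Fin n → ℝ := fun i => V μ s ψ i th with hc
  have hcoord : ∀ i, Integrable (fun x : Rn n => x i) (tilt μ s th) := fun i => by
    simpa only [unit_inner] using (hp.lin hs th (unit i)).1
  have hcoord2 : ∀ i, Integrable (fun x : Rn n => x i ^ 2) (tilt μ s th) := fun i => by
    simpa only [unit_inner] using (hp.lin hs th (unit i)).2.1
  have hFi : ∀ i, Integrable (F i) (tilt μ s th) := fun i => by
    obtain ⟨MF, hMF⟩ := hN.smoothF i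
    exact ((hp.poinc th).extend (inv_nonneg.2 hk0.le) hMF).1
  have hbmul : ∀ {g : Rn n → ℝ}, Integrable g (tilt μ s th) →
      Integrable (fun x => ψ x * g x) (tilt μ s th) := fun {g} hg =>
    hg.bdd_mul hψb.1.aestronglyMeasurable (ae_of_all _ fun x => by
      simpa using hψb.2.choose_spec x)
  -- covariance with `F i`
  set cF : Fin n → ℝ := fun i => cv μ s th ψ (F i) with hcF
  have hm : ∀ i, ex μ s th (fun x => fderiv ℝ ψ x (unit i)) = k * c i + cF i := by
    intro i
    have hz := (zt_pos (μ := μ) hs th).ne'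
    obtain ⟨B, hB⟩ := hψb.2
    have h0 := hN.ibp s th i (fun _ => 1) 0 1 hs ⟨contDiff_const, fun x => by simp⟩
      (fun _ => by simp)
    have h1 := hN.ibp s th i ψ M B hs hψ hB
    simp only [fderiv_fun_const, Pi.zero_apply, zero_apply, zero_mul, integral_zero, one_mul] at h0
    have i1 : Integrable (fun x => F i x + k * x i) (tilt μ s th) :=
      (hFi i).add ((hcoord i).const_mul k)
    have ek : t + s = k := by rw [hk]; ring
    rw [ek] at h0 h1
    have hA : ex μ s th (fun x => F i x + k * x i - th i) = 0 := by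
      unfold ex num; rw [← h0]; simp
    have hB2 : ex μ s th (fun x => fderiv ℝ ψ x (unit i))
        = ex μ s th (fun x => ψ x * (F i x + k * x i - th i)) := by
      unfold ex num; rw [h1]
    rw [← integral_tilt, integral_sub i1 (integrable_const _),
      integral_add (hFi i) ((hcoord i).const_mul k), integral_const_mul] at hA
    simp at hA
    rw [hB2, hc, hcF]
    simp only [V, cv, ← integral_tilt]
    have e : ∀ x, ψ x * (F i x + k * x i - th i)
        = ψ x * F i x + k * (ψ x * x i) - th i * ψ x := fun x => by ring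
    simp only [e]
    rw [integral_sub (by exact (hbmul (hFi i)).add ((hbmul (hcoord i)).const_mul k))
        (hψb.integrable.const_mul _),
      integral_add (hbmul (hFi i)) ((hbmul (hcoord i)).const_mul k), integral_const_mul,
      integral_const_mul]
    linear_combination (∫ x, ψ x ∂(tilt μ s th)) * hA
  -- linearisation
  set H : Fin n → Fin n → ℝ := fun i j => ex μ s th (dF i j) with hH
  have hHpos : 0 ≤ ∑ i, ∑ j, c i * c j * H i j := by
    have hi : ∀ i j, Integrable (dF i j) (tilt μ s th) := fun i j =>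
      ((hp.poinc th).extend (inv_nonneg.2 hk0.le) (hN.smooth i j)).1
    have e : ∑ i, ∑ j, c i * c j * H i j
        = ∫ x, ∑ i, ∑ j, c i * c j * dF i j x ∂(tilt μ s th) := by
      rw [integral_finsetSum _ fun i _ => integrable_finsetSum _ fun j _ => (hi i j).const_mul _]
      refine Finset.sum_congr rfl fun i _ => ?_
      rw [integral_finsetSum _ fun j _ => (hi i j).const_mul _]
      refine Finset.sum_congr rfl fun j _ => ?_
      rw [integral_const_mul, hH, integral_tilt]
    rw [e]
    exact integral_nonneg fun x => hN.pos x c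
  set R : Fin n → Rn n → ℝ := fun i x => F i x - ⟪x, WithLp.toLp 2 (H i)⟫ with hR
  have hlin : ∀ i, cv μ s th ψ (fun x => ⟪x, (WithLp.toLp 2 (H i) : Rn n)⟫) = ∑ j, H i j * c j :=
    fun i => by rw [cv_inner hp hs hψb]
  have hRC : ∀ i, ∃ MR, C1B MR (R i) := fun i => by
    obtain ⟨MF, hMF⟩ := hN.smoothF i
    have hl := c1b_inner (WithLp.toLp 2 (H i) : Rn n)
    refine ⟨MF + ‖(WithLp.toLp 2 (H i) : Rn n)‖, hMF.1.sub hl.1, fun x => ?_⟩
    rw [hR, fderiv_fun_sub (hMF.1.differentiable one_ne_zero).differentiableAt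
      (hl.1.differentiable one_ne_zero).differentiableAt]
    exact (norm_sub_le _ _).trans (add_le_add (hMF.2 x) (hl.2 x))
  have hRvr : ∀ i, vr (tilt μ s th) (R i) ≤ n * L ^ 2 / k ^ 2 := by
    intro i
    obtain ⟨MR, hMR⟩ := hRC i
    obtain ⟨MF, hMF⟩ := hN.smoothF i
    refine ((hp.poinc th).extend (inv_nonneg.2 hk0.le) hMR).2.2.trans ?_
    have hd : ∀ x, ‖fderiv ℝ (R i) x‖ ^ 2 = ∑ j, (dF i j x - H i j) ^ 2 := by
      intro x
      rw [← sum_sq_apply_unit]
      refine Finset.sum_congr rfl fun j _ => ?_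
      have h2 := hasFDerivAt_inner_const (WithLp.toLp 2 (H i) : Rn n) x
      rw [hR, fderiv_fun_sub (hMF.1.differentiable one_ne_zero).differentiableAt
        h2.differentiableAt, h2.fderiv, sub_apply, hN.deriv, innerSL_apply_apply, unit_inner]
    have hv : ∀ j, Integrable (fun x => (dF i j x - H i j) ^ 2) (tilt μ s th) ∧
        ∫ x, (dF i j x - H i j) ^ 2 ∂(tilt μ s th) ≤ k⁻¹ * L ^ 2 := by
      intro j
      obtain ⟨a1, a2, a3⟩ := (hp.poinc th).extend (inv_nonneg.2 hk0.le) (hN.smooth i j)
      refine ⟨?_, ?_⟩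
      · refine ((a2.sub (a1.const_mul (2 * H i j))).add (integrable_const (H i j ^ 2))).congr
          (ae_of_all _ fun x => ?_)
        simp only [Pi.add_apply, Pi.sub_apply]; ring
      · rw [vr] at a3
        simp only [integral_tilt] at a3
        rw [← integral_tilt] at a3
        refine a3.trans (mul_le_mul_of_nonneg_left ?_ (inv_nonneg.2 hk0.le))
        refine (integral_mono_of_nonneg (ae_of_all _ fun x => sq_nonneg _) (integrable_const (L ^ 2))
          (ae_of_all _ fun x => pow_le_pow_left₀ (norm_nonneg _) ((hN.smooth i j).2 x) 2)).trans ?_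
        simp
    unfold energy
    simp only [hd]
    rw [integral_finsetSum _ fun j _ => (hv j).1]
    calc k⁻¹ * ∑ j, ∫ x, (dF i j x - H i j) ^ 2 ∂(tilt μ s th)
        ≤ k⁻¹ * ∑ _j : Fin n, k⁻¹ * L ^ 2 :=
          mul_le_mul_of_nonneg_left (Finset.sum_le_sum fun j _ => (hv j).2) (inv_nonneg.2 hk0.le)
      _ = _ := by simp; field_simp
  have hsplit : ∀ i, cF i = (∑ j, H i j * c j) + cv μ s th ψ (R i) := by
    intro i
    obtain ⟨MR, hMR⟩ := hRC i
    have hl := (hp.lin hs th (WithLp.toLp 2 (H i) : Rn n)).1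
    have e1 : cv μ s th ψ (R i) = cF i - cv μ s th ψ (fun x => ⟪x, (WithLp.toLp 2 (H i) : Rn n)⟫) := by
      simp only [hcF, cv, hR, ← integral_tilt, mul_sub]
      rw [integral_sub (hbmul (hFi i)) (hbmul hl), integral_sub (hFi i) hl]
      ring
    rw [e1, hlin]; ring
  have herr : |∑ i, c i * cv μ s th ψ (R i)|
      ≤ Real.sqrt (Dv μ s ψ th) * Real.sqrt (Dv μ s ψ th / k) * (n * |L| / k) := by
    have hD : 0 ≤ Dv μ s ψ th := integral_nonneg fun x => sq_nonneg _
    have h5 : (∑ i, c i * cv μ s th ψ (R i)) ^ 2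
        ≤ Dv μ s ψ th / k * ∑ _i : Fin n, Dv μ s ψ th * (n * L ^ 2 / k ^ 2) :=
      (Finset.sum_mul_sq_le_sq_mul_sq _ _ _).trans
        (mul_le_mul (hp.sum_sq hs hψb th) (Finset.sum_le_sum fun i _ => by
          obtain ⟨MR, hMR⟩ := hRC i
          obtain ⟨b1, b2, -⟩ := (hp.poinc th).extend (inv_nonneg.2 hk0.le) hMR
          have h4 := cv_sq_le (m := tilt μ s th) hψb b1 b2
          simp only [integral_tilt] at h4
          exact h4.trans (mul_le_mul_of_nonneg_left (hRvr i) hD))
        (Finset.sum_nonneg fun i _ => sq_nonneg _) (div_nonneg hD hk0.le))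
    refine (Real.abs_le_sqrt h5).trans ?_
    refine le_of_eq ?_
    simp only [Finset.sum_const, Finset.card_univ, Fintype.card_fin, nsmul_eq_mul]
    rw [show Dv μ s ψ th / k * (n * (Dv μ s ψ th * (n * L ^ 2 / k ^ 2)))
          = Dv μ s ψ th * (Dv μ s ψ th / k) * (n * |L| / k) ^ 2 by
        rw [div_pow, mul_pow, sq_abs]; ring,
      Real.sqrt_mul (mul_nonneg hD (div_nonneg hD hk0.le)), Real.sqrt_mul hD,
        Real.sqrt_sq (by positivity)]
  have hfin : ∑ i, c i * ex μ s th (fun x => fderiv ℝ ψ x (unit i))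
      = k * ∑ i, c i ^ 2 + ∑ i, ∑ j, c i * c j * H i j + ∑ i, c i * cv μ s th ψ (R i) := by
    rw [Finset.mul_sum, ← Finset.sum_add_distrib, ← Finset.sum_add_distrib]
    refine Finset.sum_congr rfl fun i _ => ?_
    rw [hm, hsplit, mul_add, mul_add, Finset.mul_sum]
    have : ∑ j, c i * (H i j * c j) = ∑ j, c i * c j * H i j :=
      Finset.sum_congr rfl fun j _ => by ring
    rw [this]; ring
  have h3 := abs_le.1 herr
  linarith

end Vale.Agent.P245.Imp
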