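import Vale.Agent.P245.Gauss

/-!
# P245: Gaussian smoothing and the extension of Poincaré inequalities to `C¹` functions with
bounded derivative
-/

namespace Vale.Agent.P245

open MeasureTheory ProbabilityTheory Filter Topology
open scoped RealInnerProductSpace ENNReal NNReal

variable {n : ℕ}

/-- `C¹` with derivative bounded by `M`. -/
def C1B (M : ℝ) (f : Rn n → ℝ) : Prop :=
  ContDiff ℝ 1 f ∧ ∀ x, ‖fderiv ℝ f x‖ ≤ M

lemma C1B.nonneg {M : ℝ} {f : Rn n → ℝ} (h : C1B M f) : 0 ≤ M := (norm_nonneg _).trans (h.2 0)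

lemma C1B.lip {M : ℝ} {f : Rn n → ℝ} (h : C1B M f) (x y : Rn n) :
    |f x - f y| ≤ M * ‖x - y‖ := by
  simpa [Real.norm_eq_abs] using Convex.norm_image_sub_le_of_norm_fderiv_le
    (fun z _ => (h.1.differentiable one_ne_zero).differentiableAt) (fun z _ => h.2 z)
    convex_univ (Set.mem_univ y) (Set.mem_univ x)

/-- Gaussian smoothing at scale `e`. -/
noncomputable def sm (e : ℝ) (f : Rn n → ℝ) (x : Rn n) : ℝ := ∫ z, f (x + e • z) ∂gam n

lemma hasFDerivAt_sm {f : Rn n → ℝ} {M B : ℝ} (hf : C1B M f) (hB : ∀ x, |f x| ≤ B) (e : ℝ)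
    (x : Rn n) :
    HasFDerivAt (sm e f) (∫ z, fderiv ℝ f (x + e • z) ∂gam n) x := by
  have hc := hf.1.continuous
  have hdc := hf.1.continuous_fderiv one_ne_zero
  refine hasFDerivAt_integral_of_dominated_of_fderiv_le (F := fun y z => f (y + e • z))
    (F' := fun y z => fderiv ℝ f (y + e • z)) (bound := fun _ => M) (s := Set.univ)
    Filter.univ_mem (Eventually.of_forall fun y => (by fun_prop : Continuous _).aestronglyMeasurable)
    ?_ (by fun_prop : Continuous _).aestronglyMeasurable (ae_of_all _ fun z y _ => hf.2 _)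
    (integrable_const _) (ae_of_all _ fun z y _ => ?_)
  · exact Integrable.of_bound (by fun_prop : Continuous _).aestronglyMeasurable B
      (ae_of_all _ fun z => by simpa using hB _)
  · exact ((hf.1.differentiable one_ne_zero).differentiableAt.hasFDerivAt).comp y
      ((hasFDerivAt_id y).add_const _)

lemma fderiv_sm {f : Rn n → ℝ} {M B : ℝ} (hf : C1B M f) (hB : ∀ x, |f x| ≤ B) (e : ℝ) :
    fderiv ℝ (sm e f) = fun x => ∫ z, fderiv ℝ f (x + e • z) ∂gam n :=
  funext fun x => (hasFDerivAt_sm hf hB e x).fderiv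

/-- A bounded function with bounded continuous derivative, smoothed, is a test function. -/
lemma test_sm {f : Rn n → ℝ} {M B : ℝ} (hf : C1B M f) (hB : ∀ x, |f x| ≤ B) {e : ℝ} (he : 0 < e) :
    Test (sm e f) := by
  have hdc := hf.1.continuous_fderiv one_ne_zero
  have hM := hf.nonneg
  have hder := fderiv_sm hf hB e
  have hnorm : ∀ x, ‖fderiv ℝ (sm e f) x‖ ≤ M := fun x => by
    rw [hder]
    refine (norm_integral_le_of_norm_le (integrable_const M) (ae_of_all _ fun z => hf.2 _)).trans ?_
    simp
  have hlip : ∀ x y, ‖fderiv ℝ (sm e f) x - fderiv ℝ (sm e f) y‖ ≤ 2 * M / e * ‖x - y‖ := by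
    intro x y
    refine ContinuousLinearMap.opNorm_le_bound _ (by positivity) fun v => ?_
    rw [hder]
    have hi : ∀ w, Integrable (fun z => fderiv ℝ f (w + e • z)) (gam n) := fun w =>
      Integrable.of_bound (by fun_prop : Continuous _).aestronglyMeasurable M
        (ae_of_all _ fun z => hf.2 _)
    rw [sub_apply, ContinuousLinearMap.integral_apply (hi x),
      ContinuousLinearMap.integral_apply (hi y), Real.norm_eq_abs]
    set G : Rn n → ℝ := fun z => fderiv ℝ f (y + e • z) v with hG
    have h := abs_integral_shift_sub (F := G) (by fun_prop : Continuous G).measurable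
      (M := M * ‖v‖) (fun z => by
        have := (fderiv ℝ f (y + e • z)).le_opNorm v
        rw [Real.norm_eq_abs] at this
        exact this.trans (mul_le_mul_of_nonneg_right (hf.2 _) (norm_nonneg _)))
      (e⁻¹ • (x - y))
    have e1 : ∀ z, G (z + e⁻¹ • (x - y)) = fderiv ℝ f (x + e • z) v := fun z => by
      simp only [hG, smul_add, smul_smul, mul_inv_cancel₀ he.ne', one_smul]
      congr 2
      abel
    simp only [e1] at h
    refine h.trans (le_of_eq ?_)
    rw [norm_smul, norm_inv, Real.norm_eq_abs, abs_of_pos he]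
    ring
  have hd : Differentiable ℝ (sm e f) := fun x => (hasFDerivAt_sm hf hB e x).differentiableAt
  have hcont : Continuous (fderiv ℝ (sm e f)) :=
    (LipschitzWith.of_dist_le_mul (K := (2 * M / e).toNNReal) fun x y => by
      rw [dist_eq_norm, dist_eq_norm, Real.coe_toNNReal _ (by positivity)]
      exact hlip x y).continuous
  refine ⟨contDiff_one_iff_fderiv.2 ⟨hd, hcont⟩, max B (max M (2 * M / e)), fun x => ⟨?_, ?_, ?_⟩⟩
  · refine le_trans ?_ (le_max_left _ _)
    have : ‖∫ z, f (x + e • z) ∂gam n‖ ≤ ∫ _z, B ∂gam n :=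
      norm_integral_le_of_norm_le (integrable_const B) (ae_of_all _ fun z => by simpa using hB _)
    simpa [sm, Real.norm_eq_abs] using this
  · exact (hnorm x).trans ((le_max_left _ _).trans (le_max_right _ _))
  · intro y
    exact (hlip x y).trans (mul_le_mul_of_nonneg_right
      ((le_max_right _ _).trans (le_max_right _ _)) (norm_nonneg _))

/-- Poincaré inequality with constant `K`, on test functions. -/
def Poinc (μ : Measure (Rn n)) (K : ℝ) : Prop :=
  ∀ f, Test f → vr μ f ≤ K * energy μ f

variable {μ : Measure (Rn n)}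

lemma Poinc.bounded [IsProbabilityMeasure μ] {K : ℝ} (hP : Poinc μ K) {f : Rn n → ℝ} {M B : ℝ}
    (hf : C1B M f) (hB : ∀ x, |f x| ≤ B) : vr μ f ≤ K * energy μ f := by
  have hc := hf.1.continuous
  have hdc := hf.1.continuous_fderiv one_ne_zero
  set e : ℕ → ℝ := fun k => 1 / (k + 1) with he
  have hpos : ∀ k, 0 < e k := fun k => by positivity
  have he0 : Tendsto e atTop (𝓝 0) := tendsto_one_div_add_atTop_nhds_zero_nat
  have hsmB : ∀ k x, |sm (e k) f x| ≤ B := fun k x => by
    have : ‖∫ z, f (x + e k • z) ∂gam n‖ ≤ ∫ _z, B ∂gam n :=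
      norm_integral_le_of_norm_le (integrable_const B) (ae_of_all _ fun z => by simpa using hB _)
    simpa [sm, Real.norm_eq_abs] using this
  have hlim : ∀ x, Tendsto (fun k => sm (e k) f x) atTop (𝓝 (f x)) := by
    intro x
    have : f x = ∫ _z, f x ∂gam n := by simp
    rw [this]
    refine tendsto_integral_of_dominated_convergence (fun _ => B)
      (fun k => (by fun_prop : Continuous _).aestronglyMeasurable) (integrable_const _)
      (fun k => ae_of_all _ fun z => by simpa using hB _) (ae_of_all _ fun z => ?_)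
    refine (hc.tendsto _).comp ?_
    simpa using tendsto_const_nhds.add (he0.smul_const z)
  have hcs : ∀ k, Continuous (sm (e k) f) := fun k =>
    Differentiable.continuous fun x => (hasFDerivAt_sm hf hB (e k) x).differentiableAt
  have hdlim : ∀ x, Tendsto (fun k => fderiv ℝ (sm (e k) f) x) atTop (𝓝 (fderiv ℝ f x)) := by
    intro x
    simp only [fderiv_sm hf hB]
    have : fderiv ℝ f x = ∫ _z, fderiv ℝ f x ∂gam n := by simp
    rw [this]
    refine tendsto_integral_of_dominated_convergence (fun _ => M)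
      (fun k => (by fun_prop : Continuous _).aestronglyMeasurable) (integrable_const _)
      (fun k => ae_of_all _ fun z => hf.2 _) (ae_of_all _ fun z => ?_)
    refine (hdc.tendsto _).comp ?_
    simpa using tendsto_const_nhds.add (he0.smul_const z)
  have hmean : Tendsto (fun k => ∫ x, sm (e k) f x ∂μ) atTop (𝓝 (∫ x, f x ∂μ)) :=
    tendsto_integral_of_dominated_convergence (fun _ => B)
      (fun k => (hcs k).aestronglyMeasurable)
      (integrable_const _) (fun k => ae_of_all _ fun x => by simpa using hsmB k x)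
      (ae_of_all _ hlim)
  have hv : Tendsto (fun k => vr μ (sm (e k) f)) atTop (𝓝 (vr μ f)) := by
    refine tendsto_integral_of_dominated_convergence (fun _ => (2 * B) ^ 2)
      (fun k => (((hcs k).sub continuous_const).pow 2).aestronglyMeasurable) (integrable_const _)
      (fun k => ae_of_all _ fun x => ?_) (ae_of_all _ fun x => ((hlim x).sub hmean).pow 2)
    rw [Real.norm_eq_abs, abs_pow]
    refine pow_le_pow_left₀ (abs_nonneg _) ((abs_sub _ _).trans ?_) 2
    rw [two_mul]
    refine add_le_add (hsmB k x) ?_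
    have : ‖∫ y, sm (e k) f y ∂μ‖ ≤ ∫ _y, B ∂μ :=
      norm_integral_le_of_norm_le (integrable_const B) (ae_of_all _ fun y => by simpa using hsmB k y)
    simpa [Real.norm_eq_abs] using this
  have hen : Tendsto (fun k => energy μ (sm (e k) f)) atTop (𝓝 (energy μ f)) := by
    refine tendsto_integral_of_dominated_convergence (fun _ => M ^ 2)
      (fun k => (((test_sm hf hB (hpos k)).1.continuous_fderiv one_ne_zero).norm.pow 2).aestronglyMeasurable)
      (integrable_const _) (fun k => ae_of_all _ fun x => ?_)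
      (ae_of_all _ fun x => (hdlim x).norm.pow 2)
    rw [Real.norm_eq_abs, abs_pow, abs_norm]
    refine pow_le_pow_left₀ (norm_nonneg _) ?_ 2
    rw [fderiv_sm hf hB]
    refine (norm_integral_le_of_norm_le (integrable_const M) (ae_of_all _ fun z => hf.2 _)).trans ?_
    simp
  exact le_of_tendsto_of_tendsto' hv (hen.const_mul K) fun k => hP _ (test_sm hf hB (hpos k))

lemma energy_nonneg (μ : Measure (Rn n)) (f : Rn n → ℝ) : 0 ≤ energy μ f :=
  integral_nonneg fun _ => sq_nonneg _

/-- Expansion of the variance. -/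
lemma vr_eq [IsProbabilityMeasure μ] {f : Rn n → ℝ} (hf : Integrable f μ)
    (hf2 : Integrable (fun x => f x ^ 2) μ) :
    vr μ f = ∫ x, f x ^ 2 ∂μ - (∫ x, f x ∂μ) ^ 2 := by
  unfold vr
  set m := ∫ y, f y ∂μ
  have i1 : Integrable (fun x => 2 * m * f x) μ := hf.const_mul _
  calc ∫ x, (f x - m) ^ 2 ∂μ = ∫ x, (f x ^ 2 - 2 * m * f x + m ^ 2) ∂μ :=
        integral_congr_ae (ae_of_all _ fun x => by ring)
    _ = _ := by
        rw [integral_add (by exact hf2.sub i1) (integrable_const _), integral_sub hf2 i1,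
          integral_const_mul]
        simp; ring

/-- A Poincaré inequality extends to `C¹` functions with bounded derivative, which are then
square integrable. -/
theorem Poinc.extend [IsProbabilityMeasure μ] {K : ℝ} (hP : Poinc μ K) (hK : 0 ≤ K)
    {f : Rn n → ℝ} {M : ℝ} (hf : C1B M f) :
    Integrable f μ ∧ Integrable (fun x => f x ^ 2) μ ∧ vr μ f ≤ K * energy μ f := by
  have hM := hf.nonneg
  have hc := hf.1.continuous
  have hdc := hf.1.continuous_fderiv one_ne_zero
  set N : ℕ → ℝ := fun k => (k : ℝ) + 1 with hN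
  have hN0 : ∀ k, 0 < N k := fun k => by positivity
  set g : ℕ → Rn n → ℝ := fun k x => N k * Real.arctan (f x / N k) with hg
  have hgd : ∀ k x, HasFDerivAt (g k) ((1 / (1 + (f x / N k) ^ 2)) • fderiv ℝ f x) x := by
    intro k x
    have h1 := ((hf.1.differentiable one_ne_zero).differentiableAt (x := x)).hasFDerivAt
    have h2 := (h1.mul_const (N k)⁻¹).arctan.const_mul (N k)
    refine HasFDerivAt.congr_fderiv (h2.congr_of_eventuallyEq (Eventually.of_forall fun y => ?_)) ?_
    · simp [hg, div_eq_mul_inv]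
    · rw [smul_smul, smul_smul, div_eq_mul_inv (f x)]
      congr 1
      have := (hN0 k).ne'
      field_simp
  have hnorm : ∀ k x, ‖fderiv ℝ (g k) x‖ ≤ ‖fderiv ℝ f x‖ := by
    intro k x
    rw [(hgd k x).fderiv, norm_smul, Real.norm_eq_abs]
    refine mul_le_of_le_one_left (norm_nonneg _) ?_
    rw [abs_of_nonneg (by positivity), div_le_one (by positivity)]
    nlinarith
  have hgC : ∀ k, C1B M (g k) := fun k => by
    refine ⟨?_, fun x => (hnorm k x).trans (hf.2 x)⟩
    exact contDiff_const.mul ((Real.contDiff_arctan.of_le le_top).comp (hf.1.div_const _))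
  have hgB : ∀ k x, |g k x| ≤ N k * (Real.pi / 2) := fun k x => by
    rw [abs_mul, abs_of_pos (hN0 k)]
    exact mul_le_mul_of_nonneg_left
      (abs_le.2 ⟨(Real.neg_pi_div_two_lt_arctan _).le, (Real.arctan_lt_pi_div_two _).le⟩) (hN0 k).le
  have hlim : ∀ x, Tendsto (fun k => g k x) atTop (𝓝 (f x)) := by
    intro x
    have hu : Tendsto (fun k : ℕ => (N k)⁻¹) atTop (𝓝 0) :=
      tendsto_inv_atTop_zero.comp (tendsto_natCast_atTop_atTop.atTop_add tendsto_const_nhds)
    have hd : HasDerivAt (fun u : ℝ => Real.arctan (f x * u)) (f x) 0 := by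
      simpa using ((hasDerivAt_id (0 : ℝ)).const_mul (f x)).arctan
    rcases eq_or_ne (f x) 0 with h0 | h0
    · simp [hg, h0]
    have := (hasDerivAt_iff_tendsto_slope.1 hd).comp
      (tendsto_nhdsWithin_iff.2 ⟨hu, Eventually.of_forall fun k => by
        simpa using (hN0 k).ne'⟩)
    refine this.congr fun k => ?_
    simp [hg, slope_def_field, div_eq_mul_inv, mul_comm]
  have henle : ∀ k, energy μ (g k) ≤ energy μ f := fun k => by
    refine integral_mono_of_nonneg (ae_of_all _ fun x => sq_nonneg _) ?_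
      (ae_of_all _ fun x => pow_le_pow_left₀ (norm_nonneg _) (hnorm k x) 2)
    exact Integrable.of_bound (hdc.norm.pow 2).aestronglyMeasurable (M ^ 2)
      (ae_of_all _ fun x => by
        rw [Real.norm_eq_abs, abs_pow, abs_norm]
        exact pow_le_pow_left₀ (norm_nonneg _) (hf.2 x) 2)
  -- pairwise second moments
  have hpair : ∀ k, ∫⁻ p, ENNReal.ofReal ((g k p.1 - g k p.2) ^ 2) ∂μ.prod μ
      ≤ ENNReal.ofReal (2 * (K * energy μ f)) := by
    intro k
    have hgi : Integrable (g k) μ := Integrable.of_bound (hgC k).1.continuous.aestronglyMeasurable _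
      (ae_of_all _ fun x => by simpa using hgB k x)
    have hg2 : Integrable (fun x => g k x ^ 2) μ :=
      Integrable.of_bound ((hgC k).1.continuous.pow 2).aestronglyMeasurable ((N k * (Real.pi / 2)) ^ 2)
        (ae_of_all _ fun x => by
          rw [Real.norm_eq_abs, abs_pow]
          exact pow_le_pow_left₀ (abs_nonneg _) (hgB k x) 2)
    have i12 : Integrable (fun p : Rn n × Rn n => 2 * g k p.1 * g k p.2) (μ.prod μ) :=
      ((hgi.const_mul 2).mul_prod hgi)
    have hi : Integrable (fun p : Rn n × Rn n => (g k p.1 - g k p.2) ^ 2) (μ.prod μ) := by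
      refine (((hg2.comp_fst μ).sub i12).add (hg2.comp_snd μ)).congr (ae_of_all _ fun p => ?_)
      simp only [Pi.add_apply, Pi.sub_apply]
      ring
    rw [← ofReal_integral_eq_lintegral_ofReal hi (ae_of_all _ fun p => sq_nonneg _)]
    refine ENNReal.ofReal_le_ofReal (le_trans (le_of_eq ?_)
      (mul_le_mul_of_nonneg_left (((hP.bounded (hgC k) (hgB k))).trans
        (mul_le_mul_of_nonneg_left (henle k) hK)) two_pos.le))
    rw [vr_eq hgi hg2]
    calc ∫ p, (g k p.1 - g k p.2) ^ 2 ∂μ.prod μ
        = ∫ p, (g k p.1 ^ 2 - 2 * g k p.1 * g k p.2 + g k p.2 ^ 2) ∂μ.prod μ :=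
          integral_congr_ae (ae_of_all _ fun p => by ring)
      _ = _ := by
          rw [integral_add (by exact (hg2.comp_fst μ).sub i12) (hg2.comp_snd μ),
            integral_sub (hg2.comp_fst μ) i12, integral_fun_fst (fun x => g k x ^ 2),
            integral_fun_snd (fun x => g k x ^ 2),
            integral_prod_mul (fun x => 2 * g k x) (g k), integral_const_mul]
          simp; ring
  have hF : ∫⁻ p, ENNReal.ofReal ((f p.1 - f p.2) ^ 2) ∂μ.prod μ
      ≤ ENNReal.ofReal (2 * (K * energy μ f)) := by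
    have heq : ∀ p : Rn n × Rn n, ENNReal.ofReal ((f p.1 - f p.2) ^ 2)
        = liminf (fun k => ENNReal.ofReal ((g k p.1 - g k p.2) ^ 2)) atTop := fun p =>
      ((ENNReal.continuous_ofReal.tendsto _).comp (((hlim p.1).sub (hlim p.2)).pow 2)).liminf_eq.symm
    simp only [heq]
    refine (lintegral_liminf_le fun k => ?_).trans ?_
    · exact (((hgC k).1.continuous.comp continuous_fst).sub
        ((hgC k).1.continuous.comp continuous_snd)).pow 2 |>.measurable.ennreal_ofReal
    · exact liminf_le_of_frequently_le' (Frequently.of_forall hpair)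
  have hInt : Integrable (fun p : Rn n × Rn n => (f p.1 - f p.2) ^ 2) (μ.prod μ) :=
    ⟨(((hc.comp continuous_fst).sub (hc.comp continuous_snd)).pow 2).aestronglyMeasurable, by
      rw [hasFiniteIntegral_iff_ofReal (ae_of_all _ fun p => sq_nonneg _)]
      exact hF.trans_lt ENNReal.ofReal_lt_top⟩
  obtain ⟨y, hy⟩ := hInt.prod_left_ae.exists
  have hf2 : Integrable (fun x => f x ^ 2) μ := by
    refine ((hy.const_mul 2).add (integrable_const (2 * f y ^ 2))).mono'
      (hc.pow 2).aestronglyMeasurable (ae_of_all _ fun x => ?_)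
    rw [Real.norm_eq_abs, abs_of_nonneg (sq_nonneg _)]
    simp only [Pi.add_apply]
    nlinarith [sq_nonneg (f x - 2 * f y)]
  have hfi : Integrable f μ := by
    refine (hf2.add (integrable_const 1)).mono' hc.aestronglyMeasurable (ae_of_all _ fun x => ?_)
    simp only [Pi.add_apply, Real.norm_eq_abs]
    nlinarith [sq_nonneg (|f x| - 1), sq_abs (f x), abs_nonneg (f x)]
  refine ⟨hfi, hf2, ?_⟩
  have i12 : Integrable (fun p : Rn n × Rn n => 2 * f p.1 * f p.2) (μ.prod μ) :=
    (hfi.const_mul 2).mul_prod hfi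
  have h1 : ∫ p, (f p.1 - f p.2) ^ 2 ∂μ.prod μ ≤ 2 * (K * energy μ f) := by
    rw [← ofReal_integral_eq_lintegral_ofReal hInt (ae_of_all _ fun p => sq_nonneg _),
      ENNReal.ofReal_le_ofReal_iff (mul_nonneg two_pos.le (mul_nonneg hK (energy_nonneg _ _)))] at hF
    exact hF
  have h2 : ∫ p, (f p.1 - f p.2) ^ 2 ∂μ.prod μ = 2 * vr μ f := by
    rw [vr_eq hfi hf2]
    calc ∫ p, (f p.1 - f p.2) ^ 2 ∂μ.prod μ
        = ∫ p, (f p.1 ^ 2 - 2 * f p.1 * f p.2 + f p.2 ^ 2) ∂μ.prod μ :=
          integral_congr_ae (ae_of_all _ fun p => by ring)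
      _ = _ := by
          rw [integral_add (by exact (hf2.comp_fst μ).sub i12) (hf2.comp_snd μ),
            integral_sub (hf2.comp_fst μ) i12, integral_fun_fst (fun x => f x ^ 2),
            integral_fun_snd (fun x => f x ^ 2),
            integral_prod_mul (fun x => 2 * f x) f, integral_const_mul]
          simp; ring
  linarith

end Vale.Agent.P245
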